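import Vale.Agent.P287D.Sk
import Vale.Agent.P287D.Gf.St
import Vale.Agent.P287D.Sf.Bas
import Vale.Agent.P287D.Sh.St
import Vale.Agent.P287D.Iso.Bas

/-!
# P287D, block DP: links of the generic fibre over a surface (definitions and statements)
-/

set_option linter.unusedVariables false

open Set

noncomputable section

namespace Vale.Agent.P287D.Dp

open Sf

/-- the rows which are used -/
structure Ax : Prop where
  ffs : FFS
  mod : MOD
  res : RES
  int : INT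
  vol : VOL
  neg : NEG
  fld : FLD
  pbk : PB
  gd : GD
  iso : ISO
  ftn : FTN
  g1 : G1
  g1b : G1b
  g2 : G2
  g2b : G2b
  g3 : G3
  g4 : G4
  g6 : G6
  rows : Sh.For2 fun L _ _ => Rows L
  nak : Sh.NAK
  hi0 : Sh.HI0
  nd : Sh.ND
  neg2 : Sh.NEG2
  qf2 : Sh.QF2
  ts : Sh.TS
  gen2 : Sh.GEN2
  rr2 : Sh.RR2

section defs

variable {K K' : Type} [Field K] [Algebra ℂ K] [Field K'] [Algebra ℂ K']

open Classical in
/-- the pull back of the curve `P` of `V X` -/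
def st (X : BD K') (P : Pl K') : BD K' := if h : ∃ β, Hull 1 X P.δ β then h.choose else 0

/-- lines -/
structure Lin (X k : BD K') (P : Pl K') : Prop where
  on : On 1 X P
  sq : dg (st X P) P = -1
  deg : dg k P = -1

/-- the stabiliser of a place -/
def stP (φ : K →+* K') (P : Pl K') : Set (K' ≃+* K') :=
  {σ | σ ∈ Gal φ ∧ Lies (σ : K' →+* K') P P}

/-- the stabiliser of a class -/
def stC (φ : K →+* K') (C : BD K') : Set (K' ≃+* K') := {σ | σ ∈ Gal φ ∧ Fixes σ C}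

/-- the stabiliser of a transversal of the singular fibres up to the complement -/
def stQ (φ : K →+* K') (f : BD K') (e : Fin 3 → BD K') : Set (K' ≃+* K') :=
  {σ | σ ∈ Gal φ ∧ (Fixes σ (∑ i, e i) ∨
    Num (pb (σ : K' →+* K') (∑ i, e i) - ((3 : ℝ) • f - ∑ i, e i)))}

/-- a smooth model of the generic fibre which is stable under the Galois group -/
structure Md (φ : K →+* K') (X k : BD K') : Prop where
  term : Term 1 X k
  stb : ∀ σ ∈ Gal φ, ∀ P Q, Lies (σ : K' →+* K') P Q → (On 1 X P ↔ On 1 X Q)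
  inv : ∃ g, g ≠ 0 ∧ Inv φ (k + dv g)

/-- the surface of the vertex -/
structure GV (L : IntermediateField ℂ K) (φ : K →+* K') (Y k : BD K') : Prop
    extends Md φ Y k where
  gf : GFd 2 2 L φ
  ff : FF K' 2
  ft : FT K' 1
  pos : 0 < I2 k k

/-- the invariant classes are multiples of the canonical class -/
def Rk1 (φ : K →+* K') (X k : BD K') : Prop :=
  ∀ β ∈ Car K', Det X β → Inv φ β → ∃ x : ℝ, Num (β - x • k)

/-- a side which contracts the orbit above `Q` -/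
structure SdA (L : IntermediateField ℂ K) (φ : K →+* K') (Y X kX : BD K') (Q : Pl K) : Prop where
  term : Term 1 X kX
  hor : Hor L Q
  on : ∀ P, On 1 Y P ↔ On 1 X P ∨ Lies φ P Q
  off : ∀ P, Lies φ P Q → ¬ On 1 X P
  rk : Rk1 φ X kX

/-- a side which is a conic bundle with the base field `L₃` -/
structure SdB (L₃ : IntermediateField ℂ K) (φ : K →+* K') (Y k N : BD K') : Prop where
  smp : Smp N
  des : Dsc Y N
  inv : Inv φ N
  invY : Inv φ Y
  sq : I2 N N = 0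
  ne : ¬ Num N
  base : ∀ a, a ∈ L₃ ↔ φ a ∈ fld N
  tr : ∃ a ∈ L₃, φ a ∉ range (algebraMap ℂ K')
  amp : ∃ c : ℝ, AmpOn Y (c • N - k)
  rk : ∀ β ∈ Car K', Det Y β → Inv φ β → ∃ x y : ℝ, Num (β - x • k - y • N)

/-- the fibre class -/
structure Fib (Y k N f : BD K') : Prop where
  car : f ∈ CarZ K'
  des : Dsc Y f
  prop : ∃ c : ℝ, 0 < c ∧ f - c • N ∈ Prn K'
  kf : I2 k f = -2

/-- the potential of a del Pezzo surface -/
def NuG (S : Cls) (L : IntermediateField ℂ K) (φ : K →+* K') (X k : BD K') : Prop :=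
  (I2 k k = 5 ∨ I2 k k = 6) ∧ ∃ f ∈ CarZ K', Dsc X f ∧ I2 f f = 0 ∧ I2 k f = -2 ∧
    STyp S L φ (stC φ f)

/-- the hidden quartic on the given generic fibre -/
def NuQ (S : Cls) (L L₃ : IntermediateField ℂ K) (φ : K →+* K') : Prop :=
  ∃ (X k f : BD K') (e : Fin 3 → BD K'), CB5 φ L₃ X k f e ∧ STyp S L φ (stQ φ f e)

end defs

/-- a statement for all vertex surfaces -/
def ForV (P : ∀ (K K' : Type) [Field K] [Algebra ℂ K] [Field K'] [Algebra ℂ K'],
    IntermediateField ℂ K → (K →+* K') → BD K' → BD K' → Prop) : Prop :=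
  ∀ (K K' : Type) [Field K] [Algebra ℂ K] [Field K'] [Algebra ℂ K'] (L : IntermediateField ℂ K)
    (φ : K →+* K') (Y k : BD K'), GV L φ Y k → P K K' L φ Y k

/-- **SA**: the contracted orbit consists of disjoint lines -/
def SA : Prop := ForV fun K K' _ _ _ _ L φ Y k => ∀ X kX Q, SdA L φ Y X kX Q →
  (∀ P, Lies φ P Q → Lin Y k P) ∧
  (∀ P P', Lies φ P Q → Lies φ P' Q → P ≠ P' → dg (st Y P) P' = 0) ∧
  kX = k - ∑ᶠ P ∈ {P | Lies φ P Q}, st Y P

/-- **SB**: the fibre class exists -/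
def SB : Prop := ForV fun K K' _ _ _ _ L φ Y k => ∀ L₃ N, SdB L₃ φ Y k N → ∃ f, Fib Y k N f

/-- **TY**: an orbit of lines is of type `S` if and only if the divisor is -/
def TY : Prop := ∀ d S, SCl d S → ForV fun K K' _ _ _ _ L φ Y k => ∀ P Q, Lies φ P Q →
  Lin Y k P → (SDiv S Q.κ ↔ STyp S L φ (stP φ P)) ∧
    (pg L 2 = 0 → SDiv S Q.κ → 3 ≤ {P' | Lies φ P' Q}.ncard)

/-- **LAA**: two contractions -/
def LAA : Prop := ∀ d S, SCl d S → ForV fun K K' _ _ _ _ L φ Y k => pg L 2 = 0 →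
  ∀ X kX Q X' kX' Q', SdA L φ Y X kX Q → SdA L φ Y X' kX' Q' →
    ind (SDiv S Q.κ) + ind (NuG S L φ X kX) = ind (SDiv S Q'.κ) + ind (NuG S L φ X' kX')

/-- **LAB**: a contraction and a conic bundle -/
def LAB : Prop := ∀ d S, SCl d S → ForV fun K K' _ _ _ _ L φ Y k => pg L 2 = 0 →
  ∀ X kX Q L₃ N, SdA L φ Y X kX Q → SdB L₃ φ Y k N →
    ¬ NuG S L φ X kX ∧ (SDiv S Q.κ ↔ NuQ S L L₃ φ)

/-- **LBB**: two conic bundles -/
def LBB : Prop := ∀ S, ForV fun K K' _ _ _ _ L φ Y k => ∀ L₃ N Y' k' L₃' N', SdB L₃ φ Y k N →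
  GV L φ Y' k' → SdB L₃' φ Y' k' N' → (∀ P, On 1 Y P ↔ On 1 Y' P) → L₃ ≠ L₃' → ¬ NuQ S L L₃ φ

/-- **CMP**: a conic bundle with a hidden quartic has degree five, the components of the singular
fibres descend -/
def CMP : Prop := ForV fun K K' _ _ _ _ L φ Y k => ∀ L₃ N f, SdB L₃ φ Y k N → Fib Y k N f →
  ∀ X k' f' e, CB5 φ L₃ X k' f' e →
    Num (f' - f) ∧ (∃ z : ℤ, I2 k k = 5 + 8 * z) ∧
      ∀ i, Det Y (e i) ∧ I2 k (e i) = -1

/-- **TRF**: the generic fibre of a link over a surface -/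
def TRF : Prop := ∀ (K : Type) [Field K] [Algebra ℂ K], FF K 4 → FT K 3 →
  ∀ (R A : BD K) Λ B Γ E, Link 3 R A Λ B Γ E → dim R = 2 → pg (fld R) 2 = 0 ∧
    ∀ (K' : Type) [Field K'] [Algebra ℂ K'] (φ : K →+* K'), GF (fld R) φ →
      ∃ g : K', g ≠ 0 ∧ ∀ i,
        (dim (B i) = 3 → GV (fld R) φ (pb φ (Λ i)) (pb φ (Γ i) - dv g) ∧
          SdB (fld (B i)) φ (pb φ (Λ i)) (pb φ (Γ i) - dv g) (pb φ (B i)) ∧
          ∀ P, On 1 (pb φ (Λ i)) P ↔ pb φ (dsc 4 (R - A)) P = 0) ∧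
        (¬ Mv R (B i) (E i) → GV (fld R) φ (pb φ (Λ i)) (pb φ (Γ i) - dv g) ∧
          Rk1 φ (pb φ (Λ i)) (pb φ (Γ i) - dv g) ∧
          ∀ P, On 1 (pb φ (Λ i)) P ↔ pb φ (dsc 4 (R - A)) P = 0) ∧
        ∀ Q, E i = some Q → Hor (fld R) Q → (∃ Y k, GV (fld R) φ Y k ∧
          ∀ P, On 1 Y P ↔ pb φ (dsc 4 (R - A)) P = 0) ∧
          ∀ Y : BD K', (∀ P, On 1 Y P ↔ pb φ (dsc 4 (R - A)) P = 0) →
            SdA (fld R) φ Y (pb φ (Λ i)) (pb φ (Γ i) - dv g) Q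

/-- **GLU**: the assembly -/
def GLU : Prop := DIM → TRF → SA → LAA → LAB → LBB → DP ∧ SYM

end Vale.Agent.P287D.Dp
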