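import Vale.Agent.P287D.Dp.Sf
import Vale.Agent.P287D.Fs.Ftf
import Vale.Agent.P287D.Gf.Six

/-!
# P287D, block DP: the invariant classes of the generic fibre
-/

set_option linter.all false

open Set

noncomputable section

namespace Vale.Agent.P287D.Dp

open Sf

variable {n m : ℕ} {K K' : Type} [Field K] [Algebra ℂ K] [Field K'] [Algebra ℂ K']
  {Λ B R Γ β γ : BD K} {L : IntermediateField ℂ K} {φ : K →+* K'}

theorem prn_of_dsc (hK : FF K n) (h : Λ ∈ Prn K) (d : Dsc Λ β) : β ∈ Prn K := by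
  obtain ⟨ε, e, a, b⟩ := d
  have := (Prn K).smul_mem ε⁻¹ (Fs.eff_anti hK (β := ε • β) (a.eff.congr (by simpa using h))
    (b.eff.congr (by rw [show -(ε • β) - (Λ - ε • β) = -Λ by abel]; exact neg_mem h)))
  rwa [inv_smul_smul₀ e.ne'] at this

/-- the classes of the base are trivial on the generic fibre -/
theorem pb_prn (hK' : FF K' m) (h : Ext L φ) (hB : Smp B) (le : fld B ≤ L) (d : Dsc B β) :
    pb φ β ∈ Prn K' := by
  obtain ⟨s, h1, a⟩ := hB.exists_ampOn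
  have ok := h.ok hK'
  have o : (1 : K') ∈ im φ s := Pb.mem_im.2 ⟨1, h1, map_one φ⟩
  have e : mx (im φ s) = 0 := le_antisymm (mx_le ⟨1, o, one_ne_zero⟩ fun g hg => by
    obtain ⟨f, hf, rfl⟩ := Pb.mem_im.1 hg
    obtain ⟨c, hc⟩ := h.cst f (le (a.fld_eq ▸ by
      simpa using (sec_of_mem hf).div_mem (sec_of_mem h1)))
    exact Or.inr (by rw [← hc, dv_const, add_zero])) (mx_nonneg o)
  refine prn_of_dsc hK' (zero_mem _) ?_
  rw [← e, ← ok.pb_mx]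
  exact ok.dsc (a.dsc_iff.1 d)

/-- relative Picard number one -/
theorem pic_split (f : Module.Finite ℝ (Pic Λ)) (hB : Smp B) (d : Dsc Λ B)
    (r : rho Λ = rho B + 1) (hΓ : Dsc Λ Γ) (nΓ : ¬ Dsc B Γ) (h : Dsc Λ γ) :
    ∃ x : ℝ, Dsc B (γ - x • Γ) := by
  have le : Pic B ⊔ Submodule.span ℝ {(Prn K).mkQ Γ} ≤ Pic Λ := sup_le d.Pic_le
    ((Submodule.span_singleton_le_iff_mem _ _).2 ((mk_mem_Pic d.smp).2 hΓ))
  have := Submodule.finiteDimensional_of_le le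
  have lt : Pic B < Pic B ⊔ Submodule.span ℝ {(Prn K).mkQ Γ} := left_lt_sup.2 fun k =>
    nΓ ((mk_mem_Pic hB).1 (k (Submodule.mem_span_singleton_self _)))
  have e := Submodule.eq_of_le_of_finrank_le le
    (r.le.trans (Submodule.finrank_lt_finrank_of_lt lt))
  obtain ⟨a, ha, b, hb, k⟩ := Submodule.mem_sup.1 (e.ge ((mk_mem_Pic d.smp).2 h))
  obtain ⟨x, rfl⟩ := Submodule.mem_span_singleton.1 hb
  exact ⟨x, (mk_mem_Pic hB).1 (by rwa [map_sub, map_smul, ← k, add_sub_cancel_right])⟩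

theorem mfs_not (h : MFS n Λ B Γ) : ¬ Dsc B Γ := fun d =>
  let ⟨c, a⟩ := h.neg
  h.nbig ((((Dsc.refl h.smp).smul c).sub d).big (a.big_iff.1 h.term.big))

namespace Ax

variable (ax : Ax) (hK : FF K 4) (h : GFd 2 2 (P287D.fld R) φ)
include ax hK h

/-- the prime divisors of the generic fibre -/
theorem on_gf (d : Dsc Λ R) (hR : Smp R) {P : Pl K'} {Q : Pl K} (l : Lies φ P Q) :
    On 1 (pb φ Λ) P ↔ On 3 Λ Q := by
  obtain ⟨H, a, b, c⟩ := ax.fld.down 4 K hK R hR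
  exact ((ax.g6 2 2 K K' _ φ h H a b).2.2.2 Λ d.smp
    (d.congr (by simpa using neg_mem c))).2.2 1 P Q rfl l

/-- invariant classes of the generic fibre come from the total space -/
theorem inv_desc (d : Dsc Λ R) (hR : Smp R) (bΛ : Big Λ) (q : QF 3 Λ) {β : BD K'}
    (hβ : β ∈ Car K') (t : Det (pb φ Λ) β) (i : Inv φ β) : ∃ γ, Dsc Λ γ ∧ β = pb φ γ := by
  have hK' := (ax.g1b 2 2 K K' _ φ h).1
  have ok := h.toExt.ok hK'
  obtain ⟨γ₀, c, rfl⟩ := (ax.g3 2 2 K K' _ φ h).2.2.2.1 β i hβ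
  obtain ⟨γ, a, b⟩ := Pr.exists_hull ax.res hK d.smp bΛ q ((ax.mod.isb 3 K hK).1 _ c)
  have s := ok.smp d.smp
  have u := (ax.rows K' hK').det_dsc (ok.dsc a) s.car
  refine ⟨γ, a, ax.uq hK' s (Gx.big_pb ok h.gen bΛ) hβ u.1 t u.2 fun P o => ?_⟩
  obtain ⟨Q, l⟩ := (ax.g2 2 2 K K' _ φ h).1 P
  rw [l.pb, l.pb, b Q ((ax.on_gf hK h d hR l).1 o)]

/-- invariant classes modulo the base -/
theorem inv_mfs (hF : FT K 3) (hR : Smp R) (M : MFS 3 Λ B Γ) (d : Dsc B R) {β : BD K'}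
    (hβ : β ∈ Car K') (t : Det (pb φ Λ) β) (i : Inv φ β) :
    ∃ (x : ℝ) (b : BD K), Dsc B b ∧ β = x • pb φ Γ + pb φ b := by
  obtain ⟨γ, a, rfl⟩ := ax.inv_desc hK h (M.des.trans d) hR M.term.big M.qf hβ t i
  obtain ⟨x, e⟩ := pic_split (ax.ftn.pic 3 K hK hF Λ M.term.smp) M.smp M.des M.rk M.term.hull.1
    (mfs_not M) a
  exact ⟨x, _, e, by rw [pb_sub, pb_smul, add_sub_cancel]⟩

/-- a del Pezzo fibration -/
theorem rk1 (hF : FT K 3) (hR : Smp R) (M : MFS 3 Λ B Γ) (d : Dsc B R)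
    (le : P287D.fld B ≤ P287D.fld R) (g : K') : Rk1 φ (pb φ Λ) (pb φ Γ - dv g) := fun β hβ t i => by
  obtain ⟨x, b, a, rfl⟩ := ax.inv_mfs hK h hF hR M d hβ t i
  refine ⟨x, .of_prn ?_⟩
  rw [show x • pb φ Γ + pb φ b - x • (pb φ Γ - dv g) = pb φ b + x • dv g by module]
  exact add_mem (pb_prn (ax.g1b 2 2 K K' _ φ h).1 h.toExt M.smp le a)
    (Submodule.smul_mem _ _ (dv_mem_Prn g))

/-- a conic bundle -/
theorem rkB (hF : FT K 3) (hR : Smp R) (M : MFS 3 Λ B Γ) (d : Dsc B R) (r : rho B = rho R + 1)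
    (nle : ¬ P287D.fld B ≤ P287D.fld R) (g : K') : ∀ β ∈ Car K', Det (pb φ Λ) β → Inv φ β →
      ∃ x y : ℝ, Num (β - x • (pb φ Γ - dv g) - y • pb φ B) := fun β hβ t i => by
  obtain ⟨x, b, a, rfl⟩ := ax.inv_mfs hK h hF hR M d hβ t i
  obtain ⟨y, e⟩ := pic_split (ax.ftn.pic 3 K hK hF B M.smp) hR d r (.refl M.smp)
    (fun k => nle k.fld_le) a
  refine ⟨x, y, .of_prn ?_⟩
  rw [show x • pb φ Γ + pb φ b - x • (pb φ Γ - dv g) - y • pb φ B =
    pb φ (b - y • B) + x • dv g by rw [pb_sub, pb_smul]; module]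
  exact add_mem (pb_prn (ax.g1b 2 2 K K' _ φ h).1 h.toExt hR le_rfl e)
    (Submodule.smul_mem _ _ (dv_mem_Prn g))

end Ax

end Vale.Agent.P287D.Dp
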