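import Vale.Agent.P287D.Dp.St
import Vale.Agent.P287D.Sk2

/-!
# P287D, block DP: statements, second part
-/

set_option linter.unusedVariables false

open Set

noncomputable section

namespace Vale.Agent.P287D.Dp

/-- **TRF2**: the generic fibre of a link over a surface -/
def TRF2 : Prop := ∀ (K : Type) [Field K] [Algebra ℂ K], FF K 4 → FT K 3 →
  ∀ (R A : BD K) Λ B Γ E, Link 3 R A Λ B Γ E → dim R = 2 →
    ∀ (K' : Type) [Field K'] [Algebra ℂ K'] (φ : K →+* K'), GF (fld R) φ →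
      ∃ g : K', g ≠ 0 ∧ ∀ i,
        (dim (B i) = 3 → GV (fld R) φ (pb φ (Λ i)) (pb φ (Γ i) - dv g) ∧
          SdB (fld (B i)) φ (pb φ (Λ i)) (pb φ (Γ i) - dv g) (pb φ (B i)) ∧
          ∀ P, On 1 (pb φ (Λ i)) P ↔ pb φ (dsc 4 (R - A)) P = 0) ∧
        (¬ Mv R (B i) (E i) → GV (fld R) φ (pb φ (Λ i)) (pb φ (Γ i) - dv g) ∧
          Rk1 φ (pb φ (Λ i)) (pb φ (Γ i) - dv g) ∧
          ∀ P, On 1 (pb φ (Λ i)) P ↔ pb φ (dsc 4 (R - A)) P = 0) ∧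
        ∀ Q, E i = some Q → Hor (fld R) Q → (∃ Y k, GV (fld R) φ Y k ∧
          ∀ P, On 1 Y P ↔ pb φ (dsc 4 (R - A)) P = 0) ∧
          ∀ Y : BD K', (∀ P, On 1 Y P ↔ pb φ (dsc 4 (R - A)) P = 0) →
            SdA (fld R) φ Y (pb φ (Λ i)) (pb φ (Γ i) - dv g) Q

/-- **GLU2**: the assembly -/
def GLU2 : Prop := DIM → TRF2 → SA → LAA → LAB → LBB → DP' ∧ SYM

end Vale.Agent.P287D.Dp
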