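import Vale.Agent.P287D.Dp.Gl
import Vale.Agent.P287D.Gf.Des
import Vale.Agent.P287D.Va.Fld

/-!
# P287D, block DP: the fibre class, averaging, ampleness of the anticanonical class
-/

set_option linter.unusedVariables false
set_option linter.unusedSectionVars false

open Set

noncomputable section

namespace Vale.Agent.P287D.Dp

open Sf Pb

variable {K K' : Type} [Field K] [Algebra ℂ K] [Field K'] [Algebra ℂ K'] {φ : K →+* K'}
  {σ : K' ≃+* K'} {X Y k kX N f β : BD K'} {Q : Pl K} {L L₃ : IntermediateField ℂ K}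

theorem avg_smp (h : GF L φ) (hX : Smp X) : ∃ (ι : Type) (_ : Fintype ι) (_ : Nonempty ι)
    (σ : ι → K' ≃+* K'), (∀ i, σ i ∈ Gal φ) ∧ Inv φ (∑ i, pb (σ i : K' →+* K') X) := by
  classical
  obtain ⟨l, -, rfl⟩ := hX
  obtain ⟨ι, _, _, σ, hσ, hp⟩ := h.avg (l.support.biUnion id)
  refine ⟨ι, inferInstance, inferInstance, σ, hσ, fun ρ hρ => ?_⟩
  obtain ⟨e, he⟩ := hp ρ hρ
  rw [pb_sum]
  refine Fintype.sum_equiv e _ _ fun i => ?_
  simp only [cmb_sum, pb_sum, pb_smul]
  refine Finset.sum_congr rfl fun s hs => congrArg _ ?_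
  rw [(h.semi (hσ i)).ok.pb_mx, (h.semi hρ).ok.pb_mx, (h.semi (hσ _)).ok.pb_mx]
  congr 1
  have m : ∀ x ∈ s, ρ (σ i x) = σ (e i) x := fun x hx =>
    he i x (Finset.mem_biUnion.2 ⟨s, hs, hx⟩)
  ext g
  simp only [mem_im]
  exact ⟨fun ⟨_, ⟨x, hx, p⟩, q⟩ => ⟨x, hx, (m x hx).symm.trans (by rw [← q, ← p]; rfl)⟩,
    fun ⟨x, hx, q⟩ => ⟨_, ⟨x, hx, rfl⟩, (m x hx).trans q⟩⟩

namespace Fib

variable (F : Fib Y k N f)
include F

theorem smp (h : Smp N) : Smp f := let ⟨_, c, e⟩ := F.prop; (h.smul c.le).congr e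

theorem fld : fld f = fld N := let ⟨_, c, e⟩ := F.prop; (fld_congr e).trans (fld_smul c N)

theorem inv (h : GF L φ) (i : Inv φ N) (hσ : σ ∈ Gal φ) :
    pb (σ : K' →+* K') f - f ∈ Prn K' := by
  obtain ⟨c, -, e⟩ := F.prop
  have := sub_mem ((h.semi hσ).prn.2 e) e
  rwa [pb_sub, pb_smul, i σ hσ, sub_sub_sub_cancel_right] at this

theorem sq (R : Rows K') (h : Smp N) (z : I2 N N = 0) : I2 f f = 0 := by
  obtain ⟨c, -, e⟩ := F.prop
  have n := Submodule.smul_mem _ c h.car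
  have a := CarZ.car F.car
  rw [R.congr_l (R.isb _ n) e a, R.symm _ n _ a, R.congr_l (R.isb _ n) e n,
    R.smul_l c (R.isb _ h.car) n, R.smul_r c (R.isb _ h.car) h.car, z, mul_zero, mul_zero]

end Fib

theorem SdA.det (ax : Ax) (hK : FF K' 2) (A : SdA L φ Y X kX Q) (hY : Smp Y) (d : Det X β) :
    Det Y β := (ax.det_iff hK hY).2 fun P o =>
  (ax.det_iff hK A.term.smp).1 d P fun p => o ((A.on P).2 (.inl p))

theorem SdA.stb (A : SdA L φ Y X kX Q) (m : Md φ Y k) (hσ : σ ∈ Gal φ) {P P' : Pl K'}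
    (l : Lies (σ : K' →+* K') P' P) : On 1 X P' ↔ On 1 X P := by
  have a := m.stb σ hσ _ _ l
  have b := lies_gal (Q := Q) hσ l
  have := A.on P
  have := A.on P'
  have := A.off P
  have := A.off P'
  tauto

/-- a positive class which is proportional to the canonical class of the contraction is
semiample -/
theorem SdA.smp_of (ax : Ax) (g : GV L φ Y k) (A : SdA L φ Y X kX Q) (hβ : Nn β)
    (p : 0 < I2 β β) {c : ℝ} (e : Num (kX - c • β)) : Smp β := by
  have hK := g.ff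
  have R := ax.rows K' hK
  have h := g.gf.toGF
  have hX := A.term.smp
  obtain ⟨ι, _, ⟨j⟩, σ, hσ, i⟩ := avg_smp h hX
  have s : ∀ i, Smp (pb (σ i : K' →+* K') X) := fun i => (h.semi (hσ i)).smp.2 hX
  have S := Smp.sum Finset.univ fun i _ => s i
  obtain ⟨x, hx⟩ := A.rk _ S.car (by
    refine (ax.det_iff hK hX).2 fun P o => ?_
    rw [R.sum _ fun i _ => (s i).car]
    refine Finset.sum_eq_zero fun i _ => ?_
    obtain ⟨P, rfl⟩ := (h.semi (hσ i)).pl.surjective P
    rw [ax.dg_pb hK _ hX.car]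
    exact (ax.off_iff hK hX).1 (mt (A.stb g.toMd (hσ i) ((h.semi (hσ i)).lies P)).2 o)) i
  have b : Big (∑ i, pb (σ i : K' →+* K') X) := by
    classical
    rw [← Finset.add_sum_erase _ _ (Finset.mem_univ j)]
    exact ((h.semi (hσ j)).big.2 A.term.big).add_psef (Smp.sum _ fun i _ => s i).psef
  generalize ∑ i, pb (σ i : K' →+* K') X = W at *
  have q : W - (x * c) • β ∈ Prn K' := by
    have := add_mem (ax.ftn.num 1 K' hK g.ft _ hx)
      (Submodule.smul_mem _ x (ax.ftn.num 1 K' hK g.ft _ e))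
    convert this using 1
    module
  have n := Submodule.smul_mem _ (x * c) hβ.car
  have u := ax.sq_pos hK S b
  have v : 0 ≤ I2 W β := R.eff_nn S.eff (R.isb _ S.car) hβ
  rw [R.congr_l (R.isb _ n) q hβ.car, R.smul_l _ (R.isb _ hβ.car) hβ.car] at v
  have w : 0 < x * c := by
    refine (nonneg_of_mul_nonneg_left v p).lt_of_ne' fun z => ?_
    rw [z, zero_smul, sub_zero] at q
    rw [R.prn_l q S.car] at u
    exact lt_irrefl _ u
  have := (S.congr (γ := (x * c) • β) (by simpa using neg_mem q)).smul (inv_pos.2 w).le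
  rwa [inv_smul_smul₀ w.ne'] at this

theorem SdB.amp_of (B : SdB L₃ φ Y k N) (F : Fib Y k N f) (hY : Smp Y) (dk : Dsc Y k)
    (h : Smp (-k - f)) : AmpOn Y (-k) := by
  obtain ⟨c, a⟩ := B.amp
  obtain ⟨d, d0, e⟩ := F.prop
  rcases le_or_gt c 0 with p | p
  · have := a.add_smp (B.smp.smul (neg_nonneg.2 p)) (B.des.smul _)
    convert this using 1
    module
  · have q : 0 < c / d := div_pos p d0
    have := ((a.add_smp (h.smul q.le) ((dk.neg.sub F.des).smul _)).add_prn
      (Submodule.smul_mem _ (c / d) e)).smul (inv_pos.2 (add_pos one_pos q))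
    convert this using 1
    have z : (1 + c / d) ≠ 0 := by positivity
    rw [eq_inv_smul_iff₀ z, smul_sub (c / d) f, smul_smul, div_mul_cancel₀ _ d0.ne']
    module

end Vale.Agent.P287D.Dp
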