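import Vale.Agent.P287D.Dp.Top
import Vale.Agent.P287D.Api.Adj
import Vale.Agent.P287D.On.Fld
import Vale.Agent.P287D.Sh.Ts
import Vale.Agent.P287D.Sr.Up

/-!
# P287D, block DP: all rows are theorems
-/

namespace Vale.Agent.P287D.Dp

theorem ax : Ax :=
  ⟨Api.ffs, Api.mod, res', Api.int, Api.vol, Api.neg, fld', Api.pb, Api.gd, Api.iso, Api.ftn,
    g1, g1b, g2, g2b, g3, g4, Api.g6, Api.rows, Sh.nak, Sh.hi0, Sh.nd', Sh.neg2', Sh.qf2, Sh.ts,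
    Sh.gen2, Sr.rr2⟩

/-- **DP'** -/
theorem dp' : DP' := (dp_of ax).1

/-- **SYM** -/
theorem sym : SYM := (dp_of ax).2

end Vale.Agent.P287D.Dp
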