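import Vale.Agent.P287D.Dp.St

/-!
# P287D, block DP: calculus on a smooth surface
-/

set_option linter.unusedVariables false
set_option linter.unusedSectionVars false

open Set

noncomputable section

namespace Vale.Agent.P287D.Dp

open Sf

variable {K : Type} [Field K] [Algebra ℂ K] {X k β γ Z : BD K} {P Q : Pl K}

theorem cons2 (β : BD K) (γ : Fin 1 → BD K) : (Fin.cons β γ : Fin 2 → BD K) = ![β, γ 0] := by
  funext i
  fin_cases i <;> rfl

theorem vol2 (β : BD K) : vol 2 β = I2 β β := by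
  unfold vol
  congr 1
  funext i
  fin_cases i <;> rfl

namespace Ax

variable (ax : Ax) (hK : FF K 2)
include ax hK

theorem num_iff (h : β ∈ Car K) : Num β ↔ ∀ γ ∈ Car K, I2 β γ = 0 := by
  rw [ax.int.num 1 K hK β h]
  refine ⟨fun a γ hγ => ?_, fun a γ hγ => ?_⟩
  · have := a (fun _ => γ) fun _ => hγ
    rwa [cons2] at this
  · rw [cons2]
    exact a _ (hγ 0)

theorem num_dg (h : Num β) (P : Pl K) : dg β P = 0 := by
  have R := ax.rows K hK
  have a := (R.nn_nef h.1).nn P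
  have b := (R.nn_nef h.2).nn P
  rw [R.neg h.car] at b
  linarith

theorem num_r (Z : BD K) (h : Num γ) : I2 Z γ = 0 := I2_zero fun P _ => ax.num_dg hK h P

theorem num_l (h : Num β) (hγ : γ ∈ Car K) : I2 β γ = 0 := (ax.num_iff hK h.car).1 h γ hγ

theorem dg_congr (h : β ∈ Car K) (e : Num (γ - β)) (P : Pl K) : dg γ P = dg β P := by
  have := (ax.rows K hK).add β h _ e.car P
  rwa [add_sub_cancel, ax.num_dg hK e, add_zero] at this

theorem congr_r (Z : BD K) (h : β ∈ Car K) (e : Num (γ - β)) : I2 Z γ = I2 Z β := by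
  rw [I2_eq, I2_eq]
  exact finsum_congr fun P => by rw [ax.dg_congr hK h e]

theorem congr_l (h : β ∈ Car K) (e : Num (Z - β)) (hγ : γ ∈ Car K) : I2 Z γ = I2 β γ := by
  have R := ax.rows K hK
  have := R.add_l (R.isb _ h) (R.isb _ e.car) hγ
  rwa [add_sub_cancel, ax.num_l hK e hγ, add_zero] at this

theorem num_of {a : BD K} (ha : a ∈ Car K) (h : β ∈ Car K) (p : 0 < I2 a a) (e : I2 a β = 0)
    (e' : 0 ≤ I2 β β) : Num β :=
  (ax.num_iff hK h).2 fun _ hγ => (ax.rows K hK).hi0 ha h p e e' hγ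

theorem sq_pos (h : Smp X) (h' : Big X) : 0 < I2 X X :=
  vol2 X ▸ (ax.vol.big 2 K hK X h.nef).1 h'

theorem off_iff (h : Smp X) : ¬ On 1 X P ↔ dg X P = 0 := by
  rw [on_iff]
  exact ⟨((ax.rows K hK).nn_smp h).zero_of, fun e => by rw [e]; exact lt_irrefl _⟩

theorem det_iff (h : Smp X) : Det X β ↔ ∀ P, ¬ On 1 X P → dg β P = 0 :=
  forall_congr' fun _ => by rw [ax.off_iff hK h]

theorem nn_of (h : Smp X) (h' : Big X) (hβ : β ∈ Car K) (d : Det X β)
    (e : ∀ P, On 1 X P → 0 ≤ β P) : 0 ≤ β :=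
  ax.neg2 K hK X h.car β hβ (ax.sq_pos hK h h') fun P p => by
    have := (ax.off_iff hK h).1 fun o => absurd (e P o) (not_le.2 p)
    rw [I2_δ, I2_δ]
    exact ⟨this, (d P this).le⟩

/-- a class of the model is determined by its trace -/
theorem uq (h : Smp X) (h' : Big X) (hβ : β ∈ Car K) (hγ : γ ∈ Car K) (d : Det X β)
    (d' : Det X γ) (e : ∀ P, On 1 X P → β P = γ P) : β = γ := by
  have R := ax.rows K hK
  refine le_antisymm (sub_nonneg.1 ?_) (sub_nonneg.1 ?_)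
  · exact ax.nn_of hK h h' (sub_mem hγ hβ) (R.det_sub d' d hγ hβ) fun P o => by simp [e P o]
  · exact ax.nn_of hK h h' (sub_mem hβ hγ) (R.det_sub d d' hβ hγ) fun P o => by simp [e P o]

theorem fin_on (h : Smp X) (h' : Big X) (hZ : IsB 1 Z) : {P | On 1 X P ∧ Z P ≠ 0}.Finite := by
  obtain ⟨s, Γ, t, -⟩ := ax.mod.ex 1 K hK ∅ ∅ finite_empty finite_empty (empty_subset _)
  refine ((hZ s t.big).union (ax.mod.exc 1 K hK X _ h h' t.smp t.big)).subset fun P p => ?_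
  by_cases o : On 1 (mx s) P
  · exact .inl ⟨o, p.2⟩
  · exact .inr ⟨p.1, o⟩

/-- the pairing with a class of the model only sees the trace -/
theorem I2_tr (h : Smp X) (d : Det X γ) {Z' : BD K} (e : ∀ P, On 1 X P → Z P = Z' P) :
    I2 Z γ = I2 Z' γ :=
  I2_congr fun P p => e P (by_contra fun o => p ((ax.det_iff hK h).1 d P o))

variable (hX : Term 1 X k)
include hX

theorem kZ : k ∈ CarZ K := (ax.ts K hK X k hX).1

theorem kC : k ∈ Car K := CarZ.car (ax.kZ hK hX)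

theorem kD : Det X k := ((ax.rows K hK).det_dsc hX.hull.1 hX.smp.car).2

theorem dsc_of (hβ : β ∈ Car K) (d : Det X β) : Dsc X β := by
  refine (ax.qf2 K hK X k hX.smp hX.big hX.hull.1 (fun P o => ?_) fun P => ?_).2 β hβ
    fun P o => by rw [I2_δ]; exact (ax.det_iff hK hX.smp).1 d P o
  · simp [dsc, hX.hull.2 P o]
  · by_cases o : On 1 X P
    · simp [dsc, hX.hull.2 P o]
    · linarith [hX.pos P o]

theorem det_of (d : Dsc X β) : β ∈ Car K ∧ Det X β := (ax.rows K hK).det_dsc d hX.smp.car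

theorem carZ_of (hβ : β ∈ Car K) (d : Det X β) (e : ∀ P, On 1 X P → ∃ z : ℤ, β P = z) :
    β ∈ CarZ K := (ax.ts K hK X k hX).2.2.2 β (ax.dsc_of hK hX hβ d) e

theorem st_hull (o : On 1 X P) : Hull 1 X P.δ (st X P) := by
  obtain ⟨C, -, -, c⟩ := (ax.ts K hK X k hX).2.2.1 P o
  have e : ∃ β, Hull 1 X P.δ β := ⟨C, c⟩
  rw [st, dif_pos e]
  exact e.choose_spec

theorem st_car (o : On 1 X P) : st X P ∈ Car K := (ax.det_of hK hX (ax.st_hull hK hX o).1).1

theorem st_det (o : On 1 X P) : Det X (st X P) := (ax.det_of hK hX (ax.st_hull hK hX o).1).2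

theorem st_on (o : On 1 X P) (o' : On 1 X Q) : st X P Q = P.δ Q := (ax.st_hull hK hX o).2 Q o'

theorem st_self (o : On 1 X P) : st X P P = 1 := by rw [ax.st_on hK hX o o, Pl.δ_self]

theorem st_ne (o : On 1 X P) (o' : On 1 X Q) (n : Q ≠ P) : st X P Q = 0 := by
  rw [ax.st_on hK hX o o', Pl.δ_ne n]

theorem st_carZ (o : On 1 X P) : st X P ∈ CarZ K :=
  ax.carZ_of hK hX (ax.st_car hK hX o) (ax.st_det hK hX o) fun Q o' => by
    by_cases n : Q = P
    · exact ⟨1, by rw [n, ax.st_self hK hX o, Int.cast_one]⟩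
    · exact ⟨0, by rw [ax.st_ne hK hX o o' n, Int.cast_zero]⟩

theorem st_nn (o : On 1 X P) : 0 ≤ st X P :=
  ax.nn_of hK hX.smp hX.big (ax.st_car hK hX o) (ax.st_det hK hX o) fun Q o' => by
    rw [ax.st_on hK hX o o']
    exact P.δ_nonneg Q

theorem I2_st (o : On 1 X P) (d : Det X γ) : I2 (st X P) γ = dg γ P := by
  rw [← I2_δ]
  exact ax.I2_tr hK hX.smp d fun Q o' => ax.st_on hK hX o o'

theorem I2_st' (o : On 1 X P) (hγ : γ ∈ Car K) (d : Det X γ) : I2 γ (st X P) = dg γ P := by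
  rw [(ax.rows K hK).symm γ hγ _ (ax.st_car hK hX o), ax.I2_st hK hX o d]

theorem st_symm (o : On 1 X P) (o' : On 1 X Q) : dg (st X P) Q = dg (st X Q) P := by
  rw [← ax.I2_st hK hX o' (ax.st_det hK hX o), ax.I2_st' hK hX o (ax.st_car hK hX o') (ax.st_det hK hX o')]

theorem st_meet (o : On 1 X P) (o' : On 1 X Q) (n : Q ≠ P) : 0 ≤ dg (st X P) Q :=
  (ax.rows K hK).eff _ (ax.st_car hK hX o) (ax.st_nn hK hX o) Q (ax.st_ne hK hX o o' n)

theorem I2_cn (d : Det X γ) : I2 (cn K 2) γ = I2 k γ :=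
  ax.I2_tr hK hX.smp d fun P o => (hX.hull.2 P o).symm

/-- the genus formula -/
theorem adj (o : On 1 X P) :
    ∃ m : ℕ, dg (st X P) P + dg k P = 2 * pg P.κ 1 - 2 + 2 * m := by
  have R := ax.rows K hK
  obtain ⟨m, e⟩ := (ax.gen2 K hK X k hX).1 P _ o (ax.st_hull hK hX o)
  refine ⟨m, ?_⟩
  rw [← e, R.add_l (R.isb _ (ax.kC hK hX)) (R.isb _ (ax.st_car hK hX o)) (ax.st_car hK hX o),
    ax.I2_st' hK hX o (ax.kC hK hX) (ax.kD hK hX), ax.I2_st hK hX o (ax.st_det hK hX o), add_comm]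

theorem adj_le (o : On 1 X P) : -2 ≤ dg (st X P) P + dg k P := by
  obtain ⟨m, e⟩ := ax.adj hK hX o
  rw [e]
  have := Nat.cast_nonneg (α := ℝ) m
  have := Nat.cast_nonneg (α := ℝ) (pg P.κ 1)
  linarith

/-- parity -/
theorem par (hβ : β ∈ CarZ K) (d : Det X β) : ∃ z : ℤ, I2 β β + I2 k β = 2 * z := by
  have R := ax.rows K hK
  obtain ⟨z, e⟩ := (ax.gen2 K hK X k hX).2 β hβ
  exact ⟨z, by rw [← e, R.add_l R.cnb (R.isb _ (CarZ.car hβ)) (CarZ.car hβ), ax.I2_cn hK hX d,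
    add_comm]⟩

theorem exists_pj (hZ : IsB 1 Z) : ∃ γ ∈ Car K, Det X γ ∧ ∀ P, On 1 X P → γ P = Z P := by
  classical
  have R := ax.rows K hK
  have f := ax.fin_on hK hX.smp hX.big hZ
  have m : ∀ P ∈ f.toFinset, On 1 X P := fun P p => (f.mem_toFinset.1 p).1
  have c : ∀ P ∈ f.toFinset, Z P • st X P ∈ Car K := fun P p =>
    Submodule.smul_mem _ _ (ax.st_car hK hX (m P p))
  refine ⟨∑ P ∈ f.toFinset, Z P • st X P, sum_mem c, fun Q e => ?_, fun Q o => ?_⟩
  · rw [R.sum _ c]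
    exact Finset.sum_eq_zero fun P p => R.det_smul _ (ax.st_det hK hX (m P p))
      (ax.st_car hK hX (m P p)) Q e
  · rw [Finset.sum_apply, Finset.sum_eq_single Q]
    · simp [ax.st_self hK hX o]
    · exact fun P p n => by simp [ax.st_ne hK hX (m P p) o n.symm]
    · exact fun p => by
        have : Z Q = 0 := by_contra fun n => p (f.mem_toFinset.2 ⟨o, n⟩)
        simp [this]

end Ax

open Classical in
/-- the projection to the model: the pull back of the trace -/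
def pj (X Z : BD K) : BD K :=
  if h : ∃ γ ∈ Car K, Det X γ ∧ ∀ P, On 1 X P → γ P = Z P then h.choose else 0

namespace Ax

variable (ax : Ax) (hK : FF K 2) (hX : Term 1 X k)
include ax hK hX

theorem pj_spec (hZ : IsB 1 Z) :
    pj X Z ∈ Car K ∧ Det X (pj X Z) ∧ ∀ P, On 1 X P → pj X Z P = Z P := by
  rw [pj, dif_pos (ax.exists_pj hK hX hZ)]
  exact (ax.exists_pj hK hX hZ).choose_spec

theorem pj_eq (hZ : IsB 1 Z) (hγ : γ ∈ Car K) (d : Det X γ) (e : ∀ P, On 1 X P → γ P = Z P) :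
    pj X Z = γ :=
  have s := ax.pj_spec hK hX hZ
  ax.uq hK hX.smp hX.big s.1 hγ s.2.1 d fun P o => by rw [s.2.2 P o, e P o]

theorem pj_self (hγ : γ ∈ Car K) (d : Det X γ) : pj X γ = γ :=
  ax.pj_eq hK hX ((ax.rows K hK).isb _ hγ) hγ d fun _ _ => rfl

theorem pjZ (hZ : IsB 1 Z) (e : ∀ P, On 1 X P → ∃ z : ℤ, Z P = z) : pj X Z ∈ CarZ K :=
  have s := ax.pj_spec hK hX hZ
  ax.carZ_of hK hX s.1 s.2.1 fun P o => by rw [s.2.2 P o]; exact e P o

theorem I2_pj (hZ : IsB 1 Z) (d : Det X γ) : I2 (pj X Z) γ = I2 Z γ :=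
  ax.I2_tr hK hX.smp d (ax.pj_spec hK hX hZ).2.2

theorem pj_add {Z' : BD K} (hZ : IsB 1 Z) (hZ' : IsB 1 Z') :
    pj X (Z + Z') = pj X Z + pj X Z' :=
  have s := ax.pj_spec hK hX hZ
  have t := ax.pj_spec hK hX hZ'
  ax.pj_eq hK hX (isB_add hZ hZ') (add_mem s.1 t.1) ((ax.rows K hK).det_add s.2.1 t.2.1 s.1 t.1)
    fun P o => by simp [s.2.2 P o, t.2.2 P o]

theorem pj_smul (c : ℝ) (hZ : IsB 1 Z) : pj X (c • Z) = c • pj X Z :=
  have s := ax.pj_spec hK hX hZ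
  ax.pj_eq hK hX (isB_smul c hZ) (Submodule.smul_mem _ c s.1)
    ((ax.rows K hK).det_smul c s.2.1 s.1) fun P o => by simp [s.2.2 P o]

theorem pj_sub {Z' : BD K} (hZ : IsB 1 Z) (hZ' : IsB 1 Z') :
    pj X (Z - Z') = pj X Z - pj X Z' :=
  have s := ax.pj_spec hK hX hZ
  have t := ax.pj_spec hK hX hZ'
  ax.pj_eq hK hX (isB_sub hZ hZ') (sub_mem s.1 t.1) ((ax.rows K hK).det_sub s.2.1 t.2.1 s.1 t.1)
    fun P o => by simp [s.2.2 P o, t.2.2 P o]

theorem pj_cn : pj X (cn K 2) = k :=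
  ax.pj_eq hK hX (ax.rows K hK).cnb (ax.kC hK hX) (ax.kD hK hX) hX.hull.2

theorem pj_num (h : Num β) : Num (pj X β) := by
  have R := ax.rows K hK
  have s := ax.pj_spec hK hX (R.isb _ h.car)
  refine ax.num_of hK hX.smp.car s.1 (ax.sq_pos hK hX.smp hX.big) ?_ (le_of_eq ?_)
  · rw [R.symm _ hX.smp.car _ s.1, ax.I2_pj hK hX (R.isb _ h.car) (.refl X),
      ax.num_l hK h hX.smp.car]
  · rw [ax.I2_pj hK hX (R.isb _ h.car) s.2.1, ax.num_l hK h s.1]

/-- the square grows under the projection; equality means that the class descends -/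
theorem pj_sq (hβ : β ∈ Car K) : I2 β β ≤ I2 (pj X β) (pj X β) ∧
    (I2 (pj X β) (pj X β) ≤ I2 β β → Num (β - pj X β)) := by
  have R := ax.rows K hK
  have b := R.isb _ hβ
  have s := ax.pj_spec hK hX b
  have c := sub_mem hβ s.1
  have p := ax.sq_pos hK hX.smp hX.big
  have e : I2 X (β - pj X β) = 0 := by
    rw [R.symm _ hX.smp.car _ c, R.sub_l b (R.isb _ s.1) hX.smp.car,
      ax.I2_pj hK hX b (.refl X), sub_self]
  have q : I2 (β - pj X β) (β - pj X β) = I2 β β - I2 (pj X β) (pj X β) := by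
    rw [R.sub_l b (R.isb _ s.1) c, R.sub_r b hβ s.1, R.sub_r (R.isb _ s.1) hβ s.1,
      R.symm _ s.1 _ hβ, ← ax.I2_pj hK hX b s.2.1]
    ring
  have := R.hi _ hX.smp.car _ c p e
  exact ⟨by linarith, fun h => ax.num_of hK hX.smp.car c p e (by linarith)⟩

end Ax

end Vale.Agent.P287D.Dp
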