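import Vale.Agent.P287D.Dp.Sb
import Vale.Agent.P287D.Dp.Sf

/-!
# P287D, block DP: the comparison of a conic bundle with the hidden model of degree five
-/

open Set

noncomputable section

namespace Vale.Agent.P287D.Dp.Cm

open Sf

section one

variable {L : Type} [Field L] [Algebra ℂ L] {N f : BD L} {u : L} (ax : Ax) (hL : FF L 2)
include ax hL

theorem const_of (h : pld u = 0) : u ∈ range (algebraMap ℂ L) := by
  have := ax.mod.fin 1 L hL 0 (by simpa using isB_smul (0 : ℝ) (ax.rows L hL).cnb)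
  have s : Sec (0 : BD L) u := h ▸ sec_pld u
  have i : IsIntegral ℂ u := isIntegral_of_smul_mem_submodule (H0 (0 : BD L))
    (fun e => one_ne_zero ((Submodule.eq_bot_iff _).1 e 1 (mem_H0.2 (sec_one.2 le_rfl))))
    (Module.Finite.iff_fg.1 this) u fun g hg => mem_H0.2 (by simpa using s.mul (mem_H0.1 hg))
  exact minpoly.mem_range_of_degree_eq_one ℂ u
    (IsAlgClosed.degree_eq_one_of_irreducible ℂ (minpoly.irreducible i))

/-- a pencil of the base is proportional to the fibre class -/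
theorem pld_num (hF : FT L 1) (hN : Smp N) (sq : I2 N N = 0) (ne : ¬ Num N) (hu : u ∈ fld N)
    (nc : u ∉ range (algebraMap ℂ L)) : ∃ c : ℝ, c ≠ 0 ∧ pld u - c • N ∈ Prn L := by
  have R := ax.rows L hL
  obtain ⟨ε, e, a⟩ := (mem_fld hN.eff).1 hu
  have c := pld_car u
  have x := R.eff_nn a (R.isb _ (sub_mem hN.car ((Car L).smul_mem ε c))) (R.nn_smp hN)
  have y := R.eff_nn (smp_pld u).eff (R.isb _ c) (R.nn_smp hN)
  have y' := R.eff_nn (smp_pld u).eff (R.isb _ c) (R.nn_smp (smp_pld u))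
  rw [R.sub_l (R.isb _ hN.car) (R.isb _ ((Car L).smul_mem ε c)) hN.car, sq,
    R.smul_l ε (R.isb _ c) hN.car] at x
  have z : I2 N (pld u) = 0 := by
    rw [R.symm N hN.car _ c]
    nlinarith
  obtain ⟨p, q⟩ := ax.hi0 L hL N hN.car _ c sq.ge ne z
  obtain ⟨d, -, hd⟩ := q (le_antisymm p y')
  have w := ax.ftn.num 1 L hL hF _ hd
  refine ⟨d, fun d0 => nc (const_of ax hL ?_), w⟩
  exact ax.mod.zero 1 L hL _ (by simpa [d0] using w) (pld_nonneg u)

end one

section gal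

variable {K K' : Type} [Field K] [Algebra ℂ K] [Field K'] [Algebra ℂ K'] {φ : K →+* K'}
  {L : IntermediateField ℂ K} {X Y k Z β γ : BD K'} {σ : K' ≃+* K'} (ax : Ax) (g : GV L φ Y k)
include ax g

theorem gal_img (h : σ ∈ Gal φ) : σ '' range (algebraMap ℂ K') = range (algebraMap ℂ K') := by
  obtain ⟨τ, e⟩ := (ax.g1b 2 2 K K' L φ g.gf).2.2.1 σ h
  ext x
  constructor
  · rintro ⟨_, ⟨c, rfl⟩, rfl⟩
    exact ⟨τ c, (e c).symm⟩
  · rintro ⟨c, rfl⟩
    exact ⟨_, ⟨τ.symm c, rfl⟩, by rw [e, τ.apply_symm_apply]⟩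

theorem gal_semi (h : σ ∈ Gal φ) : Semi (σ : K' →+* K') :=
  ⟨σ.surjective, fun c => gal_img ax g h ▸ ⟨_, ⟨c, rfl⟩, rfl⟩, fun c => by
    obtain ⟨_, ⟨d, rfl⟩, e⟩ := (gal_img ax g h).ge ⟨c, rfl⟩
    exact ⟨d, e⟩⟩

theorem gal_I2 (h : σ ∈ Gal φ) (Z : BD K') (hγ : γ ∈ Car K') :
    I2 (pb (σ : K' →+* K') Z) (pb (σ : K' →+* K') γ) = I2 Z γ := by
  have k := (ax.iso 2 K' K' σ g.ff (gal_img ax g h)).2.2.2.1 ![Z, γ] fun j hj => by
    fin_cases j
    · exact absurd rfl hj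
    · exact hγ
  exact Eq.trans (congrArg (I 2 K') (funext fun i => by fin_cases i <;> rfl)) k

theorem gal_dg (h : σ ∈ Gal φ) (P : Pl K') (hγ : γ ∈ Car K') :
    dg (pb (σ : K' →+* K') γ) ((gal_semi ax g h).pl P) = dg γ P := by
  rw [← I2_δ, ← I2_δ, ← (gal_semi ax g h).pb_δ, gal_I2 ax g h _ hγ]

omit ax g in
/-- the primes of `V X` are permuted -/
def Stb (φ : K →+* K') (X : BD K') : Prop :=
  ∀ σ ∈ Gal φ, ∀ P Q, Lies (σ : K' →+* K') P Q → (On 1 X P ↔ On 1 X Q)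

theorem stb_of (hX : Smp X) (h : ∀ σ ∈ Gal φ, AmpOn X (pb (σ : K' →+* K') X)) : Stb φ X :=
  fun σ hσ P Q l => by
    have s := gal_semi ax g hσ
    rw [(ax.neg.iso 1 K' g.ff X _ hX (s.smp.2 hX) (h σ hσ)).2.2.1, s.lies_iff.1 l, on_iff, on_iff,
      gal_dg ax g hσ Q hX.car]

/-- the projection of an invariant divisor is invariant -/
theorem inv_of (hX : Smp X) (hb : Big X) (st : Stb φ X) (hZ : Inv φ Z) (c : β ∈ Car K')
    (d : Det X β) (e : ∀ P, On 1 X P → β P = Z P) : Inv φ β := fun σ hσ => by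
  have s := gal_semi ax g hσ
  refine ax.uq g.ff hX hb (s.car.2 c) c ((ax.det_iff g.ff hX).2 fun P o => ?_) d fun P o => ?_
  · obtain ⟨Q, rfl⟩ := s.pl.surjective P
    rw [gal_dg ax g hσ Q c]
    exact (ax.det_iff g.ff hX).1 d Q fun q => o ((st σ hσ _ _ (s.lies Q)).2 q)
  · obtain ⟨Q, rfl⟩ := s.pl.surjective P
    rw [s.pb_pl, e Q ((st σ hσ _ _ (s.lies Q)).1 o), e _ o, ← s.pb_pl Z Q, hZ σ hσ]

theorem inv_cn {u : K'} (hu : Inv φ (k + dv u)) : Inv φ (cn K' 2 + dv u) := fun σ hσ => by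
  have R := ax.rows K' g.ff
  have s := gal_semi ax g hσ
  obtain ⟨w, hw⟩ := (ax.iso 2 K' K' σ g.ff (gal_img ax g hσ)).2.2.2.2.2
  have p : pb (σ : K' →+* K') (cn K' 2 + dv u) - (cn K' 2 + dv u) ∈ Prn K' := by
    rw [pb_add, add_sub_add_comm, ← hw, s.ok.pb_dv]
    exact add_mem (dv_mem_Prn _) (sub_mem (dv_mem_Prn _) (dv_mem_Prn _))
  refine sub_eq_zero.1 (ax.uq g.ff g.term.smp g.term.big (Prn_le_Car p) (zero_mem _)
    (fun P _ => R.prn _ p P) (fun P _ => R.zero P) fun P o => ?_)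
  obtain ⟨Q, rfl⟩ := s.pl.surjective P
  have q := (g.stb σ hσ _ _ (s.lies Q)).1 o
  have x := congrFun (hu σ hσ) (s.pl Q)
  rw [s.pb_pl] at x
  simp only [Pi.sub_apply, s.pb_pl, Pi.add_apply, Pi.zero_apply] at x ⊢
  rw [← g.term.hull.2 Q q, ← g.term.hull.2 _ o, x, sub_self]

end gal

/-- the inequality of Bessel -/
theorem bessel {V : Type} [AddCommGroup V] [Module ℝ V] (B : V →ₗ[ℝ] V →ₗ[ℝ] ℝ)
    (hs : ∀ a b, B a b = B b a) (w : V) (e : Fin 3 → V)
    (he : ∀ i j, B (e i) (e j) = if i = j then -1 else 0) (a : Fin 3 → ℝ) :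
    B (w + ∑ i, a i • e i) (w + ∑ i, a i • e i) =
      B w w + ∑ i, (2 * a i * B w (e i) - a i ^ 2) := by
  simp [Fin.sum_univ_three, he, hs (e _) w]
  ring

/-- **CMP** -/
theorem _root_.Vale.Agent.P287D.Dp.cmp (ax : Ax) : CMP := by
  intro K K' _ _ _ _ L φ Y k g L₃ N f s F X k' f' e C
  have hL := g.ff
  have R := ax.rows K' hL
  have kC := ax.kC hL g.term
  have kC' := ax.kC hL C.term
  have fC := CarZ.car F.car
  have fC' := CarZ.car C.car
  have eC := fun i => CarZ.car (C.ecar i).1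
  have fD := (ax.det_of hL g.term F.des).2
  have nm : ∀ {β : BD K'}, β ∈ Prn K' → Num β := fun w => ⟨.of_prn w, .of_prn (neg_mem w)⟩
  obtain ⟨c, c0, hc⟩ := F.prop
  have nf' : ¬ Num f' := fun x => by
    have := C.kf
    rw [ax.num_r hL _ x] at this
    norm_num at this
  have ff : f' - f ∈ Prn K' := by
    obtain ⟨a, ha, nc⟩ := s.tr
    obtain ⟨x, x0, hx⟩ := pld_num ax hL g.ft s.smp s.sq s.ne ((s.base a).1 ha) nc
    obtain ⟨y, y0, hy⟩ := pld_num ax hL g.ft C.smp C.sq nf' (C.base a ha) nc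
    have p : f' - (x / (y * c)) • f ∈ Prn K' := by
      have q : f' - (x / (y * c)) • f = y⁻¹ • (pld (φ a) - x • N - (pld (φ a) - y • f')) -
          (x / (y * c)) • (f - c • N) := by
        funext P
        simp only [Pi.sub_apply, Pi.smul_apply, smul_eq_mul]
        field_simp
        ring
      rw [q]
      exact sub_mem (Submodule.smul_mem _ _ (sub_mem hx hy)) (Submodule.smul_mem _ _ hc)
    have q := num_I2 R fC (nm p) R.cnb
    rw [ax.I2_cn hL g.term fD, ax.I2_cn hL C.term (ax.det_of hL C.term C.des).2, F.kf, C.kf] at q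
    rwa [show x / (y * c) = 1 by linarith, one_smul] at p
  have cf : ∀ Z, I2 Z f' = I2 Z f := fun Z => ax.congr_r hL Z fC (nm ff)
  have f2 : I2 f f = 0 := by rw [← cf, ← R.congr_l (R.isb _ fC) ff fC', C.sq]
  have nf : ¬ Num f := fun x => by
    have := F.kf
    rw [ax.num_r hL _ x] at this
    norm_num at this
  obtain ⟨u, -, hu⟩ := g.inv
  have uC := Prn_le_Car (dv_mem_Prn u)
  have ku : ∀ γ ∈ Car K', I2 (k + dv u) γ = I2 k γ := fun γ hγ =>
    R.congr_l (R.isb _ kC) (by simpa using dv_mem_Prn u) hγ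
  have ke : ∀ i, I2 k (e i) = -1 := fun i => by
    obtain ⟨σ, hσ, hs⟩ := C.swap i
    have q := gal_I2 ax g hσ (k + dv u) (eC i)
    rw [hu σ hσ, ax.congr_r hL _ (sub_mem fC' (eC i)) hs, ku _ (sub_mem fC' (eC i)), ku _ (eC i),
      R.sub_r (R.isb _ kC) fC' (eC i), cf, F.kf] at q
    linarith
  have ef : ∀ i, I2 (e i) f = 0 := fun i => by rw [← cf, R.symm _ (eC i) _ fC', C.fe]
  have eD : ∀ i, Det Y (e i) := fun i => by
    have p := ax.pj_spec hL g.term (R.isb _ (eC i))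
    have q := ax.pj_sq hL g.term (eC i)
    have x : I2 k (pj Y (e i)) = -1 := by
      rw [R.symm _ kC _ p.1, ax.I2_pj hL g.term (R.isb _ (eC i)) (ax.kD hL g.term),
        R.symm _ (eC i) _ kC, ke]
    have y := (ax.hi0 K' hL f fC _ p.1 f2.ge nf (by
      rw [R.symm _ fC _ p.1, ax.I2_pj hL g.term (R.isb _ (eC i)) fD, ef])).1
    obtain ⟨z, hz⟩ := ax.par hL g.term (ax.pjZ hL g.term (R.isb _ (eC i))
      fun P _ => CarZ.int (C.ecar i).1 P) p.2.1
    have ee : I2 (e i) (e i) = -1 := by simpa using C.ee i i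
    rw [ee] at q
    have z1 : (-1 : ℝ) ≤ z := by linarith [q.1]
    have z2 : (z : ℝ) < 0 := by linarith
    have z3 : z = -1 := by
      have a : -1 ≤ z := by exact_mod_cast z1
      have b : z < 0 := by exact_mod_cast z2
      omega
    have w := q.2 (by rw [z3] at hz; push_cast at hz; linarith)
    exact fun P o => by rw [ax.dg_congr hL p.1 w, p.2.1 P o]
  refine ⟨nm ff, ?_, fun i => ⟨eD i, ke i⟩⟩
  obtain ⟨t, tZ, tD, ft, tt, kt⟩ := C.sec
  have tC := CarZ.car tZ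
  let B := bf R
  let E : Fin 3 → Car K' := fun i => ⟨e i, eC i⟩
  let w : Car K' := (2 : ℝ) • ⟨t, tC⟩ + ⟨k', kC'⟩
  have hB : ∀ a b : Car K', B a b = I2 a.1 b.1 := fun _ _ => rfl
  have ww : B w w = -3 := by
    simp only [w, map_add, map_smul, LinearMap.add_apply, LinearMap.smul_apply, hB, smul_eq_mul, tt,
      kt, C.deg, R.symm t tC k' kC']
    norm_num
  have we : ∀ i, ∃ z : ℤ, B w (E i) = 2 * z - 1 := fun i => by
    obtain ⟨z, hz⟩ := ax.int.int 1 K' hL t ![e i] (CarZ.int tZ) (R.isb _ tC) fun j => by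
      fin_cases j
      exact (C.ecar i).1
    refine ⟨z, ?_⟩
    simp only [w, E, map_add, map_smul, LinearMap.add_apply, LinearMap.smul_apply, hB, smul_eq_mul,
      C.ke]
    rw [show I2 t (e i) = z from hz]
    ring
  let v : Car K' := w + ∑ i, B w (E i) • E i
  have vv : B v v = -3 + ∑ i, B w (E i) ^ 2 := by
    rw [bessel B (bf_symm R) w E C.ee, ww]
    exact congrArg _ (Finset.sum_congr rfl fun i _ => by ring)
  have fv : B ⟨f', fC'⟩ v = 0 := by
    simp only [v, map_add, map_sum, map_smul]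
    simp only [w, map_add, map_smul]
    simp only [E, hB, smul_eq_mul, C.fe, ft, mul_zero, Finset.sum_const_zero, R.symm f' fC' k' kC',
      C.kf]
    norm_num
  obtain ⟨h1, h2⟩ := ax.hi0 K' hL f' fC' v.1 v.2 C.sq.ge nf' fv
  have w1 : ∀ i, 1 ≤ B w (E i) ^ 2 := fun i => by
    obtain ⟨z, hz⟩ := we i
    have : (1 : ℤ) ≤ (2 * z - 1) ^ 2 := by
      rcases le_or_gt z 0 with x | x <;> nlinarith
    rw [hz]
    exact_mod_cast this
  have s3 : ∑ i, B w (E i) ^ 2 = 3 := by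
    have x : B v v ≤ 0 := h1
    rw [vv] at x
    rw [Fin.sum_univ_three] at x ⊢
    linarith [w1 0, w1 1, w1 2]
  obtain ⟨x, -, hx⟩ := h2 (show B v v = 0 by rw [vv, s3]; norm_num)
  have ik : IsB 1 (k' + dv u) := R.isb _ (add_mem kC' uC)
  have p := ax.pj_spec hL g.term ik
  have pi : Inv φ (pj Y (k' + dv u)) := inv_of ax g g.term.smp g.term.big g.stb
    (inv_of ax g C.term.smp C.term.big (stb_of ax g C.term.smp C.inv) (inv_cn ax g hu)
      (add_mem kC' uC) (R.det_add (ax.kD hL C.term) (fun P _ => R.prn _ (dv_mem_Prn u) P) kC' uC)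
      fun P o => by simp [C.term.hull.2 P o]) p.1 p.2.1 p.2.2
  obtain ⟨a, b, hab⟩ := s.rk (k + dv u - pj Y (k' + dv u)) (sub_mem (add_mem kC uC) p.1)
    (R.det_sub (R.det_add (ax.kD hL g.term) (fun P _ => R.prn _ (dv_mem_Prn u) P) kC uC) p.2.1
      (add_mem kC uC) p.1) fun σ hσ => by rw [pb_sub, hu σ hσ, pi σ hσ]
  have nC := s.smp.car
  have Nf : I2 N f = 0 := by rw [num_I2 R nC (nm hc) (R.isb _ nC), s.sq, mul_zero]
  have a0 : a = 0 := by
    have q := ax.num_l hL hab fC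
    have y : I2 (k' + dv u) f = I2 k' f :=
      R.congr_l (R.isb _ kC') (by simpa using dv_mem_Prn u) fC
    rw [R.sub_l (R.isb _ (sub_mem (sub_mem (add_mem kC uC) p.1) ((Car K').smul_mem a kC)))
      (R.isb _ ((Car K').smul_mem b nC)) fC, R.sub_l (R.isb _ (sub_mem (add_mem kC uC) p.1))
      (R.isb _ ((Car K').smul_mem a kC)) fC, R.sub_l (R.isb _ (add_mem kC uC)) (R.isb _ p.1) fC,
      R.smul_l a (R.isb _ kC) fC, R.smul_l b (R.isb _ nC) fC, ku _ fC, ax.I2_pj hL g.term ik fD,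
      y, ← cf k', C.kf, F.kf, Nf] at q
    linarith
  have q := ax.pj_spec hL g.term (R.isb _ tC)
  have r1 := ax.ftn.num 1 K' hL g.ft _ hx
  have r2 := ax.ftn.num 1 K' hL g.ft _ hab
  let T : Car K' := ⟨pj Y t, q.1⟩
  let M : Car K' := (x * c + b) • ⟨N, nC⟩
  let r : Car K' := (2 : ℝ) • T + ⟨k, kC⟩ - (M + ∑ i, -B w (E i) • E i)
  have rp : r.1 ∈ Prn K' := by
    have r3 : v.1 - x • f' + dv u + x • (f' - f) + x • (f - c • N) ∈ Prn K' :=
      add_mem (add_mem (add_mem r1 (dv_mem_Prn u)) (Submodule.smul_mem _ _ ff))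
        (Submodule.smul_mem _ _ hc)
    have r4 := sub_mem (add_mem r3 r2) (dv_mem_Prn u)
    have rD : Det Y r.1 := fun P o => by
      let l : Car K' →ₗ[ℝ] ℝ := ⟨⟨fun a => dg a.1 P, fun a b => R.add _ a.2 _ b.2 P⟩,
        fun c a => R.smul c _ a.2 P⟩
      have hl : ∀ a : Car K', l a = dg a.1 P := fun _ => rfl
      change l r = 0
      simp only [r, M, map_add, map_sub, map_smul, map_sum]
      simp only [T, E, hl, q.2.1 P o, ax.kD hL g.term P o, (ax.det_of hL g.term s.des).2 P o,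
        eD _ P o, smul_zero]
      simp
    rwa [← ax.uq hL g.term.smp g.term.big r.2 (Prn_le_Car r4) rD (fun P _ => R.prn _ r4 P)
      fun P o => by
        simp [r, M, T, E, v, w, q.2.2 P o, p.2.2 P o, a0, Finset.sum_apply]
        ring] at r4
  have m0 : ∀ i, B M (E i) = 0 := fun i => by
    have x := num_I2 R nC (nm hc) (R.isb _ (eC i))
    rw [ef] at x
    simp only [M, E, map_smul, LinearMap.smul_apply, hB, R.symm N nC _ (eC i),
      (mul_eq_zero.1 x.symm).resolve_left c0.ne', smul_zero]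
  have mm : B M M = 0 := by
    simp only [M, map_smul, LinearMap.smul_apply, hB, s.sq, smul_zero]
  have sq : B ((2 : ℝ) • T + ⟨k, kC⟩) ((2 : ℝ) • T + ⟨k, kC⟩) = -3 := by
    have z : ∀ a, B r a = 0 := fun a => R.prn_l rp a.2
    have y : (2 : ℝ) • T + ⟨k, kC⟩ = r + (M + ∑ i, -B w (E i) • E i) := (sub_add_cancel _ _).symm
    rw [y, map_add B, LinearMap.add_apply, z, zero_add, map_add, bf_symm R _ r, z, zero_add,
      bessel B (bf_symm R) M E C.ee, mm]
    simp only [m0, mul_zero, zero_sub, neg_sq, Finset.sum_neg_distrib, s3, zero_add]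
  obtain ⟨z, hz⟩ := ax.par hL g.term (ax.pjZ hL g.term (R.isb _ tC) fun P _ => CarZ.int tZ P) q.2.1
  simp only [T, map_add, map_smul, LinearMap.add_apply, LinearMap.smul_apply, hB, smul_eq_mul,
    R.symm _ q.1 k kC] at sq
  exact ⟨-1 - z, by push_cast; linarith⟩

end Vale.Agent.P287D.Dp.Cm
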