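import Vale.Agent.P287D.Dp.Sf

/-!
# P287D, block DP: the Galois group acts on the classes of a stable model
-/

set_option linter.unusedVariables false
set_option linter.unusedSectionVars false

open Set

noncomputable section

namespace Vale.Agent.P287D.Dp

open Sf Pb

variable {K K' : Type} [Field K] [Algebra ℂ K] [Field K'] [Algebra ℂ K'] {φ : K →+* K'}
  {σ : K' ≃+* K'} {X k β γ Z : BD K'} {P P' : Pl K'} {Q : Pl K} {L : IntermediateField ℂ K}

theorem lies_gal (hσ : σ ∈ Gal φ) (h : Lies (σ : K' →+* K') P' P) : Lies φ P' Q ↔ Lies φ P Q :=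
  forall_congr' fun f => iff_congr .rfl (by
    rw [h (φ f)]
    exact iff_of_eq (congrArg (· ∈ P'.ring) (hσ f).symm))

theorem inv_pb (h : GF L φ) (β : BD K) : Inv φ (pb φ β) := fun σ hσ => by
  rw [← (h.semi hσ).ok.pb_comp φ β]
  exact congrArg (pb · β) (RingHom.ext hσ)

theorem Inv.add (h : Inv φ β) (h' : Inv φ γ) : Inv φ (β + γ) := fun σ hσ => by
  rw [pb_add, h σ hσ, h' σ hσ]

theorem Inv.sub (h : Inv φ β) (h' : Inv φ γ) : Inv φ (β - γ) := fun σ hσ => by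
  rw [pb_sub, h σ hσ, h' σ hσ]

theorem Inv.smul (c : ℝ) (h : Inv φ β) : Inv φ (c • β) := fun σ hσ => by rw [pb_smul, h σ hσ]

theorem pb_mul (h : GF L φ) (σ τ : Gal φ) (β : BD K') :
    pb ((σ * τ : Gal φ).1 : K' →+* K') β = pb (σ.1 : K' →+* K') (pb (τ.1 : K' →+* K') β) :=
  (congrArg (pb · β) (RingHom.ext fun _ => rfl)).trans
    ((h.semi σ.2).ok.pb_comp (τ.1 : K' →+* K') β)

theorem pb_one (β : BD K') : pb ((1 : Gal φ).1 : K' →+* K') β = β := pb_id β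

namespace Ax

variable (ax : Ax) (hK : FF K' 2)
include ax hK

theorem I2_pb (s : Semi (σ : K' →+* K')) (Z : BD K') (hγ : γ ∈ Car K') :
    I2 (pb (σ : K' →+* K') Z) (pb (σ : K' →+* K') γ) = I2 Z γ := by
  have e : σ '' range (algebraMap ℂ K') = range (algebraMap ℂ K') := by
    refine Subset.antisymm ?_ ?_
    · rintro _ ⟨_, ⟨c, rfl⟩, rfl⟩
      exact s.cst c
    · rintro _ ⟨c, rfl⟩
      obtain ⟨c', e⟩ := s.tsc c
      exact ⟨_, ⟨c', rfl⟩, e⟩
  refine Eq.trans ?_ ((ax.iso 2 K' K' σ hK e).2.2.2.1 ![Z, γ] fun j hj => by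
    fin_cases j
    · exact absurd rfl hj
    · exact hγ)
  unfold I2
  congr 1
  funext i
  fin_cases i <;> rfl

theorem dg_pb (s : Semi (σ : K' →+* K')) (hγ : γ ∈ Car K') (P : Pl K') :
    dg (pb (σ : K' →+* K') γ) (s.pl P) = dg γ P := by
  rw [← I2_δ, ← I2_δ, ← s.pb_δ, ax.I2_pb hK s _ hγ]

theorem stb_of (h : GF L φ) (hX : X ∈ Car K') (i : Inv φ X) :
    ∀ σ ∈ Gal φ, ∀ P Q, Lies (σ : K' →+* K') P Q → (On 1 X P ↔ On 1 X Q) := fun σ hσ P Q l => by
  have s := h.semi hσ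
  rw [s.lies_iff.1 l, on_iff, on_iff, ← ax.dg_pb hK s hX Q, i σ hσ]

variable (h : GF L φ) (m : Md φ X k) (hσ : σ ∈ Gal φ)
include h m hσ

theorem on_pl (P : Pl K') : On 1 X ((h.semi hσ).pl P) ↔ On 1 X P :=
  m.stb σ hσ _ _ ((h.semi hσ).lies P)

theorem det_pb (hβ : β ∈ Car K') (d : Det X β) : Det X (pb (σ : K' →+* K') β) := by
  refine (ax.det_iff hK m.term.smp).2 fun P o => ?_
  obtain ⟨P, rfl⟩ := (h.semi hσ).pl.surjective P
  rw [ax.dg_pb hK _ hβ]
  exact (ax.det_iff hK m.term.smp).1 d P (mt (ax.on_pl hK h m hσ P).2 o)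

theorem pb_eq_of (hβ : β ∈ Car K') (d : Det X β) (hγ : γ ∈ Car K') (d' : Det X γ)
    (e : ∀ P, On 1 X P → β P = γ ((h.semi hσ).pl P)) : pb (σ : K' →+* K') β = γ :=
  ax.uq hK m.term.smp m.term.big ((h.semi hσ).car.2 hβ) hγ (ax.det_pb hK h m hσ hβ d) d'
    fun P o => by
      obtain ⟨P, rfl⟩ := (h.semi hσ).pl.surjective P
      rw [Semi.pb_pl]
      exact e P ((ax.on_pl hK h m hσ P).1 o)

theorem pb_st (o : On 1 X P) :
    pb (σ : K' →+* K') (st X P) = st X ((h.semi hσ).pl P) := by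
  have o' := (ax.on_pl hK h m hσ P).2 o
  refine ax.pb_eq_of hK h m hσ (ax.st_car hK m.term o) (ax.st_det hK m.term o)
    (ax.st_car hK m.term o') (ax.st_det hK m.term o') fun R r => ?_
  rw [ax.st_on hK m.term o r, ax.st_on hK m.term o' ((ax.on_pl hK h m hσ R).2 r),
    ← (h.semi hσ).pb_δ, Semi.pb_pl]

theorem pb_pj (hZ : IsB 1 Z) (hZ' : IsB 1 (pb (σ : K' →+* K') Z)) :
    pb (σ : K' →+* K') (pj X Z) = pj X (pb (σ : K' →+* K') Z) := by
  have s := ax.pj_spec hK m.term hZ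
  have t := ax.pj_spec hK m.term hZ'
  refine ax.pb_eq_of hK h m hσ s.1 s.2.1 t.1 t.2.1 fun R r => ?_
  rw [s.2.2 R r, t.2.2 _ ((ax.on_pl hK h m hσ R).2 r), Semi.pb_pl]

theorem pb_k : pb (σ : K' →+* K') k - k ∈ Prn K' := by
  obtain ⟨g, -, i⟩ := m.inv
  have e := i σ hσ
  rw [pb_add] at e
  have : pb (σ : K' →+* K') k - k = dv g - pb (σ : K' →+* K') (dv g) := by
    rw [sub_eq_sub_iff_add_eq_add, e, add_comm]
  rw [this]
  exact sub_mem (dv_mem_Prn g) ((h.semi hσ).prn.2 (dv_mem_Prn g))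

theorem dg_k (P : Pl K') : dg k ((h.semi hσ).pl P) = dg k P := by
  rw [← ax.dg_pb hK (h.semi hσ) (ax.kC hK m.term) P,
    (ax.rows K' hK).congr (ax.kC hK m.term) (ax.pb_k hK h m hσ)]

theorem dg_st (o : On 1 X P) (P' : Pl K') :
    dg (st X ((h.semi hσ).pl P)) ((h.semi hσ).pl P') = dg (st X P) P' := by
  rw [← ax.pb_st hK h m hσ o, ax.dg_pb hK _ (ax.st_car hK m.term o)]

omit hσ

theorem inv_pj (hZ : IsB 1 Z) (i : Inv φ Z) : Inv φ (pj X Z) := fun σ hσ => by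
  rw [ax.pb_pj hK h m hσ hZ (by rwa [i σ hσ]), i σ hσ]

theorem inv_of (hβ : β ∈ Car K') (d : Det X β)
    (e : ∀ σ ∈ Gal φ, ∀ P P', On 1 X P → Lies (σ : K' →+* K') P' P → β P = β P') : Inv φ β :=
  fun σ hσ => ax.pb_eq_of hK h m hσ hβ d hβ d fun P o => e σ hσ P _ o ((h.semi hσ).lies P)

/-- a curve of negative square is determined by its class -/
theorem eq_of_num (o : On 1 X P) (o' : On 1 X P') (n : dg (st X P) P < 0)
    (e : Num (st X P' - st X P)) : P' = P := by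
  by_contra c
  have := ax.st_meet hK m.term o' o (Ne.symm c)
  rw [ax.dg_congr hK (ax.st_car hK m.term o) e] at this
  linarith

theorem stC_st (o : On 1 X P) (n : dg (st X P) P < 0) : stC φ (st X P) = stP φ P := by
  refine Set.ext fun σ => and_congr_right fun hσ => ?_
  rw [Fixes, ax.pb_st hK h m hσ o, (h.semi hσ).lies_iff]
  exact ⟨fun e => (ax.eq_of_num hK h m o ((ax.on_pl hK h m hσ P).2 o) n e).symm,
    fun e => by rw [← e, sub_self]; exact Num.zero⟩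

end Ax

end Vale.Agent.P287D.Dp
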