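import Vale.Agent.P287D.Dp.St2
import Vale.Agent.P287D.Dp.Gl
import Vale.Agent.P287D.Va.Dsc

/-!
# P287D, block DP: the assembly
-/

set_option linter.unusedVariables false

open Set

noncomputable section

namespace Vale.Agent.P287D.Dp

open Sf

/-- the potentials may be computed on any generic fibre -/
def GT2 : Prop := ∀ (S : Cls) (K K' : Type) [Field K] [Algebra ℂ K] [Field K'] [Algebra ℂ K']
  (L : IntermediateField ℂ K) (φ : K →+* K') (Λ B Γ : BD K) (g : K'), GFd 2 2 L φ → fld B = L →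
    Λ ∈ Car K → Γ ∈ Car K → (Pot2 S Λ B Γ ↔ NuG S L φ (pb φ Λ) (pb φ Γ - dv g))

/-- the potentials may be computed on any generic fibre -/
def GT3 : Prop := ∀ (S : Cls) (K K' : Type) [Field K] [Algebra ℂ K] [Field K'] [Algebra ℂ K']
  (L L₃ : IntermediateField ℂ K) (φ : K →+* K'), GFd 2 2 L φ → L ≤ L₃ →
    (Pot3' S L L₃ ↔ NuQ S L L₃ φ)

namespace Gu

variable {K K' : Type} [Field K] [Algebra ℂ K] [Field K'] [Algebra ℂ K'] {φ : K →+* K'}
  {L L₃ : IntermediateField ℂ K} {X X' Y Y' k k' N β : BD K'} {Q : Pl K} {S : Cls} (ax : Ax)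
include ax

theorem det_of_on (hK : FF K' 2) (hX : Smp X) (hY : Smp Y) (e : ∀ P, On 1 X P → On 1 Y P)
    (d : Det X β) : Det Y β :=
  (ax.det_iff hK hY).2 fun P o => (ax.det_iff hK hX).1 d P (mt (e P) o)

theorem not_sdB (g : GV L φ Y k) (r : Rk1 φ Y k) (g' : GV L φ Y' k')
    (e : ∀ P, On 1 Y' P → On 1 Y P) (s : SdB L₃ φ Y' k' N) : False := by
  have R := ax.rows K' g.ff
  have kC := ax.kC g.ff g.term
  have nC := s.smp.car
  obtain ⟨x, hx⟩ := r N nC (det_of_on ax g.ff g'.term.smp g.term.smp e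
    (ax.det_of g.ff g'.term s.des).2) s.inv
  have c := (Car K').smul_mem x kC
  have q := s.sq
  rw [ax.congr_l g.ff c hx nC, ax.congr_r g.ff _ c hx, R.smul_l x (R.isb _ kC) c,
    R.smul_r x (R.isb _ kC) kC] at q
  have x0 : x = 0 := by
    by_contra n
    exact absurd q (by rw [← mul_assoc]; exact (mul_pos (mul_self_pos.2 n) g.pos).ne')
  exact s.ne (by simpa [x0] using hx)

theorem not_sdA (sa : SA) (g : GV L φ Y k) (r : Rk1 φ Y k) (i : Inv φ X)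
    (s : SdA L φ Y X k' Q) : False := by
  have R := ax.rows K' g.ff
  have kC := ax.kC g.ff g.term
  have hX := s.term.smp
  obtain ⟨x, hx⟩ := r X hX.car (det_of_on ax g.ff hX g.term.smp (fun P o => (s.on P).2 (.inl o))
    (.refl X)) i
  obtain ⟨P, l⟩ := (ax.g2 2 2 K K' L φ g.gf).2.2.1 Q s.hor
  have q := (ax.off_iff g.ff hX).1 (s.off P l)
  rw [ax.dg_congr g.ff ((Car K').smul_mem x kC) hx, R.smul x k kC,
    ((sa K K' L φ Y k g X k' Q s).1 P l).deg] at q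
  have x0 : x = 0 := by linarith
  exact (ax.sq_pos g.ff hX s.term.big).ne' (ax.num_l g.ff (by simpa [x0] using hx) hX.car)

theorem nug_of_on (g : GV L φ Y k) (g' : GV L φ Y' k') (e : ∀ P, On 1 Y P ↔ On 1 Y' P)
    (h : NuG S L φ Y k) : NuG S L φ Y' k' := by
  have d : ∀ β, Det Y β → Det Y' β := fun β =>
    det_of_on ax g.ff g.term.smp g'.term.smp fun P => (e P).1
  have x : k = k' := ax.uq g.ff g'.term.smp g'.term.big (ax.kC g.ff g.term) (ax.kC g.ff g'.term)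
    (d k (ax.kD g.ff g.term)) (ax.kD g.ff g'.term) fun P o => by
      rw [g.term.hull.2 P ((e P).2 o), g'.term.hull.2 P o]
  subst x
  obtain ⟨h1, f, fZ, fD, t⟩ := h
  exact ⟨h1, f, fZ, ax.dsc_of g.ff g'.term (CarZ.car fZ) (d f (ax.det_of g.ff g.term fD).2), t⟩

end Gu

open Gu

/-- **GLU2** -/
theorem glu_of (ax : Ax) (t2 : GT2) (t3 : GT3) : GLU2 := by
  intro dm trf sa laa lab lbb
  have key : ∀ (K : Type) [Field K] [Algebra ℂ K], FF K 4 → ∀ (R A : BD K) Λ B Γ E,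
      Link 3 R A Λ B Γ E → dim R = 2 → FF (fld R) 2 ∧
      ∃ (K' : Type) (_ : Field K') (_ : Algebra ℂ K') (φ : K →+* K'), GF (fld R) φ ∧
        ∀ S (g : K') i, (dim (B i) ≠ 3 → dim (B i) = 2 ∧ (Pot2 S (Λ i) (B i) (Γ i) ↔
          NuG S (fld R) φ (pb φ (Λ i)) (pb φ (Γ i) - dv g))) ∧ (dim (B i) = 3 → ¬ SE S (E i) ∧
          (PotR S R (Λ i) (B i) (Γ i) ↔ NuQ S (fld R) (fld (B i)) φ)) := by
    intro K _ _ hK R A Λ B Γ E h r
    have fl : FF (fld R) 2 := r ▸ ax.fld.ff 4 K hK R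
    obtain ⟨K', _, _, φ, gf⟩ := ax.g1 K (fld R) (ax.fld.cld 4 K hK R h.smp) ⟨2, fl⟩
    have gd : GFd 2 2 (fld R) φ := ⟨gf, hK, fl⟩
    refine ⟨fl, K', _, _, φ, gf, fun S g i => ?_⟩
    obtain ⟨d1, d2, d3, d4⟩ := dm K hK R A Λ B Γ E h i
    have m := h.mfs i
    refine ⟨fun b => ?_, fun b => ⟨?_, ?_⟩⟩
    · have b2 : dim (B i) = 2 := by omega
      exact ⟨b2, t2 S K K' _ φ _ _ _ g gd (d3 (r.trans b2.symm)).symm m.term.smp.car
        (Dsc.car m.term.hull.1)⟩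
    · rintro ⟨P, e, -⟩
      have := (d4 P e).1
      omega
    · rw [← t3 S K K' _ _ φ gd (ax.fld.le 4 K hK _ _ m.smp h.smp (h.down i))]
      exact ⟨fun x => x.elim (fun y => absurd y.1 (by omega)) fun y => y.2, fun x => .inr ⟨b, x⟩⟩
  refine ⟨⟨0, fun d _ S hS K _ _ hK hF R A Λ B Γ E h h0 r mv => ?_⟩,
    ⟨0, fun d _ S hS K _ _ hK hF R A Λ B Γ E h r i j ni => ?_⟩⟩
  · obtain ⟨fl, K', _, _, φ, gf, t⟩ := key K hK R A Λ B Γ E h r
    obtain ⟨g, -, u⟩ := trf K hK hF R A Λ B Γ E h r K' φ gf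
    have p0 := h0 _ fl
    have sA : ∀ i, dim (B i) ≠ 3 → ∃ Q, E i = some Q ∧ Hor (fld R) Q ∧ (SE S (E i) ↔ SDiv S Q.κ) ∧
        (PotR S R (Λ i) (B i) (Γ i) ↔ NuG S (fld R) φ (pb φ (Λ i)) (pb φ (Γ i) - dv g)) :=
      fun i n => by
        obtain ⟨Q, e, o⟩ := (mv i).resolve_left n
        obtain ⟨b, x⟩ := (t S g i).1 n
        refine ⟨Q, e, o, ⟨?_, fun s => ⟨Q, e, s⟩⟩, ?_⟩
        · rintro ⟨P, e', s⟩
          rwa [← Option.some.inj (e'.symm.trans e)]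
        · rw [← x]
          exact ⟨fun y => y.elim (fun z => z.2) fun z => absurd z.1 n, fun y => .inl ⟨b, y⟩⟩
    have ab : ∀ i j, dim (B i) ≠ 3 → dim (B j) = 3 →
        ind (SE S (E i)) + ind (PotR S R (Λ i) (B i) (Γ i)) =
          ind (SE S (E j)) + ind (PotR S R (Λ j) (B j) (Γ j)) := fun i j n b => by
      obtain ⟨Q, e, o, x, y⟩ := sA i n
      obtain ⟨gv, s, on⟩ := (u j).1 b
      obtain ⟨z, w⟩ := lab d S hS K K' _ φ _ _ gv p0 _ _ Q _ _ (((u i).2.2 Q e o).2 _ on) s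
      obtain ⟨z', w'⟩ := (t S g j).2 b
      rw [ind_congr x, ind_congr y, ind_neg z, ind_neg z', ind_congr w', ind_congr w, add_comm]
    by_cases b0 : dim (B 0) = 3 <;> by_cases b1 : dim (B 1) = 3
    · obtain ⟨z, w⟩ := (t S g 0).2 b0
      obtain ⟨z', w'⟩ := (t S g 1).2 b1
      obtain ⟨gv, s, on⟩ := (u 0).1 b0
      obtain ⟨gv', s', on'⟩ := (u 1).1 b1
      rw [ind_neg z, ind_neg z', ind_congr w, ind_congr w']
      by_cases e : fld (B 0) = fld (B 1)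
      · rw [e]
      · rw [ind_neg (lbb S K K' _ φ _ _ gv _ _ _ _ _ _ s gv' s'
          (fun P => (on P).trans (on' P).symm) e), ind_neg (lbb S K K' _ φ _ _ gv' _ _ _ _ _ _ s' gv s
          (fun P => (on' P).trans (on P).symm) (Ne.symm e))]
    · exact (ab 1 0 b1 b0).symm
    · exact ab 0 1 b0 b1
    · obtain ⟨Q, e, o, x, y⟩ := sA 0 b0
      obtain ⟨Q', e', o', x', y'⟩ := sA 1 b1
      obtain ⟨⟨Y, k, gv, on⟩, s⟩ := (u 0).2.2 Q e o
      rw [ind_congr x, ind_congr y, ind_congr x', ind_congr y']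
      exact laa d S hS K K' _ φ Y k gv p0 _ _ Q _ _ Q' (s Y on) (((u 1).2.2 Q' e' o').2 Y on)
  · obtain ⟨fl, K', _, _, φ, gf, t⟩ := key K hK R A Λ B Γ E h r
    obtain ⟨g, -, u⟩ := trf K hK hF R A Λ B Γ E h r K' φ gf
    obtain ⟨gv, rk, on⟩ := (u i).2.1 ni
    have nj : ¬ Mv R (B j) (E j) := by
      rintro (b | ⟨Q, e, o⟩)
      · obtain ⟨gv', s, on'⟩ := (u j).1 b
        exact not_sdB ax gv rk gv' (fun P p => (on P).2 ((on' P).1 p)) s
      · exact not_sdA ax sa gv rk (inv_pb gf _) (((u j).2.2 Q e o).2 _ on)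
    obtain ⟨gv', -, on'⟩ := (u j).2.1 nj
    refine ⟨nj, fun p => ?_⟩
    rw [((t S g j).1 fun b => nj (.inl b)).2]
    exact nug_of_on ax gv gv' (fun P => (on P).trans (on' P).symm)
      (((t S g i).1 fun b => ni (.inl b)).2.1 p)

end Vale.Agent.P287D.Dp
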