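import Vale.Agent.P287D.Dp.St
import Vale.Agent.P287D.Lc.St
import Vale.Agent.P287D.Iso.Can

/-!
# P287D, block DP: an orbit of type `S` has at least three elements
-/

open Set

noncomputable section

namespace Vale.Agent.P287D.Dp

variable {K K' : Type} [Field K] [Algebra ℂ K] [Field K'] [Algebra ℂ K']
  {L : IntermediateField ℂ K} {φ : K →+* K'} {r m : ℕ}

/-- the invariant constants come from the base -/
theorem fix_cst (g : G1b) (h : GFd r m L φ) {x : K'} (hx : x ∈ range (algebraMap ℂ K'))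
    (e : ∀ σ ∈ Gal φ, σ x = x) : ∃ a : L, φ a = x := by
  obtain ⟨-, c1, -, -, c2, -⟩ := g r m K K' L φ h
  obtain ⟨f, rfl⟩ := c2 x e
  obtain ⟨c, hc⟩ := hx
  obtain ⟨p, p0, hp⟩ := h.alg c
  refine ⟨⟨f, c1 f ⟨p, p0, φ.injective ?_⟩⟩, rfl⟩
  rw [map_zero, Polynomial.aeval_def, Polynomial.hom_eval₂, ← hc, hp]

/-- a surface of type `S` is not of degree at most two over a field with `p_g = 0` -/
theorem not_le_two (md : MOD) {d : ℕ} {L M : Type} [Field L] [Algebra ℂ L] [Field M] [Algebra ℂ M]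
    {H : BD M} {f : M} (i : IsS d M H f) (h0 : pg L 2 = 0) (ι : L →ₐ[ℂ] M) (δ : M)
    (e : ∀ x, ∃ a b, x = ι a + ι b * δ) : False := by
  have sp : Submodule.span ι.fieldRange (range ![1, δ]) = ⊤ := top_unique fun x _ => by
    obtain ⟨a, b, rfl⟩ := e x
    refine add_mem ?_ ((Submodule.span ι.fieldRange _).smul_mem (⟨ι b, b, rfl⟩ : ι.fieldRange)
      (Submodule.subset_span ⟨1, rfl⟩))
    have := (Submodule.span ι.fieldRange (range ![1, δ])).smul_mem (⟨ι a, a, rfl⟩ : ι.fieldRange)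
      (Submodule.subset_span ⟨0, rfl⟩)
    rwa [← mul_one (ι a)]
  have : Module.Finite ι.fieldRange M :=
    Module.finite_def.2 (sp ▸ Submodule.fg_span (finite_range _))
  have le : Module.finrank ι.fieldRange M ≤ 2 := by simpa using finrank_le_of_span_eq_top sp
  have p : 0 < Module.finrank ι.fieldRange M := Module.finrank_pos
  by_cases k : Module.finrank ι.fieldRange M = 1
  · exact i.pg_ne md (((Semi.of_algHom ι (AlgHom.fieldRange_eq_top.1
      (IntermediateField.finrank_eq_one_iff_eq_top.1 k))).pg 2).trans h0)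
  · exact i.inv ι.fieldRange (by omega)
      (((Semi.of_alg (AlgEquiv.ofInjectiveField ι)).pg 2).trans h0)

/-- **TP** -/
theorem tp (ax : Ax) {d : ℕ} {S : Cls} (hS : SCl d S) (h : GFd 2 2 L φ) (h0 : pg L 2 = 0)
    (H : Subgroup (Gal φ)) (s : STyp S L φ (Subtype.val '' (H : Set (Gal φ)))) :
    H.index ≠ 1 ∧ H.index ≠ 2 := by
  obtain ⟨M, _, _, ι, j, e1, e2, hM⟩ := s
  obtain ⟨H', f, i⟩ := hS.isS M hM
  have mem : ∀ x, x ∈ range j ↔ x ∈ range (algebraMap ℂ K') ∧ ∀ σ ∈ H, σ.1 x = x := fun x => by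
    rw [e2]
    exact and_congr_right fun _ => forall_mem_image
  have fx : ∀ x, (∀ σ : Gal φ, σ ∉ H → σ.1 (j x) = j x) → ∃ a, x = ι a := fun x k => by
    obtain ⟨u, v⟩ := (mem _).1 ⟨x, rfl⟩
    obtain ⟨a, ha⟩ := fix_cst ax.g1b h u fun σ hσ =>
      (em (⟨σ, hσ⟩ ∈ H)).elim (v _) (k _)
    exact ⟨a, j.injective (ha.symm.trans (e1 a).symm)⟩
  have triv : (∀ x, ∃ a, x = ι a) → False := fun k => not_le_two ax.mod i h0 ι 0 fun x =>
    let ⟨a, ha⟩ := k x; ⟨a, 0, by simpa using ha⟩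
  refine ⟨fun k => triv fun x => fx x fun σ n =>
    absurd (Subgroup.index_eq_one.1 k ▸ Subgroup.mem_top σ) n, fun k => ?_⟩
  obtain ⟨a, ha⟩ := Subgroup.index_eq_two_iff.1 k
  have na : a ∉ H := fun c => by simpa [c, H.one_mem] using ha 1
  have ni : a⁻¹ ∉ H := mt H.inv_mem_iff.1 na
  have ap : ∀ (b : Gal φ) x, a⁻¹ * b ∈ H → b.1 (j x) = a.1 (j x) := fun b x c => by
    conv_rhs => rw [← ((mem _).1 ⟨x, rfl⟩).2 _ c]
    exact (a.1.apply_symm_apply _).symm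
  have fa : ∀ x, a.1 (j x) = j x → ∃ b, x = ι b := fun x c => fx x fun σ n =>
    (ap σ x ((Subgroup.mul_mem_iff_of_index_two k).2 (iff_of_false ni n))).trans c
  have cj : ∀ x, ∃ y, j y = a.1 (j x) ∧ a.1 (j y) = j x := fun x => by
    obtain ⟨⟨c, hc⟩, v⟩ := (mem _).1 ⟨x, rfl⟩
    obtain ⟨τ, hτ⟩ := (ax.g1b 2 2 K K' L φ h).2.2.1 a.1 a.2
    obtain ⟨y, hy⟩ := (mem (a.1 (j x))).2 ⟨⟨τ c, by rw [← hc, hτ]⟩, fun σ hσ =>
      ap (σ * a) x ((Subgroup.mul_mem_iff_of_index_two k).2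
        (iff_of_false ni (mt (H.mul_mem_cancel_left hσ).1 na)))⟩
    exact ⟨y, hy, hy ▸ v (a * a) ((Subgroup.mul_mem_iff_of_index_two k).2 Iff.rfl)⟩
  by_cases c : ∀ x, a.1 (j x) = j x
  · exact triv fun x => fa x (c x)
  obtain ⟨u, hu⟩ := not_forall.1 c
  obtain ⟨v, v1, v2⟩ := cj u
  have : CharZero M := charZero_of_injective_algebraMap (algebraMap ℂ M).injective
  have d0 : u - v ≠ 0 := sub_ne_zero.2 fun q => hu (by rw [← v1, q])
  refine not_le_two ax.mod i h0 ι (u - v) fun x => ?_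
  obtain ⟨y, y1, y2⟩ := cj x
  obtain ⟨p, hp⟩ := fa ((x + y) / 2) (by
    simp only [map_div₀, map_add, map_ofNat, ← y1, y2, add_comm])
  obtain ⟨q, hq⟩ := fa ((x - y) / (2 * (u - v))) (by
    simp only [map_div₀, map_sub, map_mul, map_ofNat, ← y1, y2, ← v1, v2]
    rw [← neg_div_neg_eq, neg_sub, ← mul_neg, neg_sub])
  refine ⟨p, q, ?_⟩
  rw [← hp, ← hq]
  field_simp
  ring

end Vale.Agent.P287D.Dp
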