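import Vale.Agent.P287D.Dp.Orb
import Vale.Agent.P287D.Va.Dsc
import Vale.Agent.P287D.D2.Rul

/-!
# P287D, block DP: the type of an orbit of lines
-/

set_option linter.all false

open Set

noncomputable section

namespace Vale.Agent.P287D.Dp

open Pb Gx Sf

variable {K K' : Type} [Field K] [Algebra ℂ K] [Field K'] [Algebra ℂ K']
  {L : IntermediateField ℂ K} {φ : K →+* K'} {S : Cls} {d r m n : ℕ} {P : Pl K'} {Q : Pl K}
  {Y k : BD K'}

theorem isS_sec {H : BD K} {f : K} (h : IsS d K H f) : Sec (cn K 2) f := .inr fun P => by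
  rw [add_comm]
  by_cases e : On 1 H P
  exacts [(h.on P e).ge, zero_le_one.trans (h.exc P e)]

theorem isS_pg (hM : MOD) {H : BD K} {f : K} (h : IsS d K H f) : pg K 2 ≠ 0 := fun e => by
  have := hM.fin 1 K h.ff _ (hM.isb 1 K h.ff).2.1
  have z : H0 (cn K 2) = ⊥ := Submodule.finrank_eq_zero.1 e
  exact h.ne ((Submodule.mem_bot ℂ).1 (z ▸ mem_H0.2 (isS_sec h)))

theorem res_carZ' (hR : RES) (hK : FF K (n + 1)) (Q : Pl K) {β : BD K} (h : β ∈ CarZ K) :
    res Q β ∈ CarZ Q.κ := by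
  obtain ⟨s, u, -, -, rfl⟩ := mem_CarZ.1 h
  rw [sub_eq_add_neg, ← neg_one_smul ℝ (mx u), hR.add n K hK Q _ (mx_mem_Car s) _
    (Submodule.smul_mem _ _ (mx_mem_Car u)), hR.smul n K hK Q _ _ (mx_mem_Car u), hR.sys n K hK,
    hR.sys n K hK, neg_one_smul]
  exact add_mem (mx_mem_CarZ _) (neg_mem (mx_mem_CarZ _))

/-- lines are rational -/
theorem lin_pg (ax : Ax) (hK : FF K' 2) (ht : Term 1 Y k) (h : Lin Y k P) : pg P.κ 1 = 0 := by
  have R := ax.rows K' hK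
  obtain ⟨C, -, -, hC⟩ := (ax.ts K' hK Y k ht).2.2.1 P h.on
  have e : ∃ β, Hull 1 Y P.δ β := ⟨C, hC⟩
  have hs : Hull 1 Y P.δ (st Y P) := by rw [st, dif_pos e]; exact e.choose_spec
  obtain ⟨δ, hδ⟩ := (ax.gen2 K' hK Y k ht).1 P _ h.on hs
  have c := hs.1.car
  have c' := ht.hull.1.car
  have D := (R.det_dsc (ht.hull.1.add hs.1) ht.smp.car).2
  rw [R.symm _ (add_mem c' c) _ c, I2_congr (Z' := P.δ) fun x hx =>
    hs.2 x (on_iff.2 (D.pos (R.nn_smp ht.smp) hx)), I2_δ, R.add _ c' _ c, h.sq, h.deg] at hδ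
  have : (pg P.κ 1 : ℝ) + δ = 0 := by linarith
  have : pg P.κ 1 + δ = 0 := by exact_mod_cast this
  omega

/-- the degree of the field of constants -/
theorem three_le (hM : MOD) (hS : SCl d S) (hQ : Hor L Q) (h0 : Q.dg L ≠ 0) (hp : pg L 2 = 0)
    (h : S (Q.cf L)) : 3 ≤ Q.dg L := by
  obtain ⟨H, f, hs⟩ := hS.isS _ h
  have e : Module.finrank (toCf hQ).fieldRange (Q.cf L) = Q.dg L := by
    have : (toCf hQ).fieldRange = (Q.im L).comap (Q.cf L).val := by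
      ext x
      rw [im_eq hQ]
      exact ⟨fun ⟨a, ha⟩ => ⟨a, congrArg Subtype.val ha⟩, fun ⟨a, ha⟩ => ⟨a, Subtype.ext ha⟩⟩
    rw [this, IntermediateField.finrank_comap, IntermediateField.fieldRange_val]
    rfl
  have h1 : Q.dg L ≠ 1 := fun w => by
    have t := IntermediateField.finrank_eq_one_iff_eq_top.1 (e.trans w)
    have s := Semi.of_algHom (toCf hQ) fun x => (t ▸ trivial : x ∈ (toCf hQ).fieldRange)
    exact isS_pg hM hs ((s.pg 2).trans hp)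
  have h2 : Q.dg L ≠ 2 := fun w =>
    hs.inv _ (e.trans w) (((Semi.of_alg (toCf hQ).equivFieldRange).pg 2).trans hp)
  omega

theorem ty (ax : Ax) : TY := by
  intro d S hS K K' _ _ _ _ L φ Y k h P Q l hl
  obtain ⟨hQ, -, a3, -⟩ := (ax.g2 2 2 K K' L φ h.gf).2.1 P Q l
  obtain ⟨b1, b2, b3, -⟩ := ax.g2b 2 2 K K' L φ h.gf Q hQ
  obtain ⟨m', hm, h'⟩ := b3 P l.κ l l.isRd
  obtain rfl : m' = 1 := by omega
  have g0 := lin_pg ax h.ff h.term hl
  have key : SDiv S Q.κ ↔ S (Q.cf L) := by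
    refine ⟨fun ⟨L₀, a, b⟩ => ?_, fun a => ⟨_, a, ?_⟩⟩
    · obtain ⟨H, f, hs⟩ := hS.isS _ a
      rwa [D2.rulu ax.gd b (add_comm (dv f) _ ▸ (isS_sec hs).resolve_left hs.ne) h' g0]
    · have R := ax.rows K' h.ff
      obtain ⟨g, -, hg⟩ := h.inv
      have kZ := add_mem (ax.ts K' h.ff Y k h.term).1 (dv_mem_CarZ g)
      obtain ⟨γ, c, e⟩ := (ax.g3 2 2 K K' L φ h.gf).2.2.2.1 _ hg (CarZ.car kZ)
      have cφ : Cst φ := fun c => h.gf.cst _ (L.algebraMap_mem c)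
      have hr := res_lies (n := 3) (m := 1) ax.res h.gf.fk h.ff (cφ.ok h.gf.fk h.ff) l l.isRd
        (l.isRd.ok cφ h.gf.fk h.ff) c
      obtain ⟨z, hz⟩ := CarZ.int kZ P
      rw [← a3 γ, ← e, hz] at hr
      have e' : pb l.κ (-res Q γ) = -res P (k + dv g) + (z : ℝ) • dv (un φ P Q) := by
        rw [pb_neg, hr]; abel
      have rZ := res_carZ' ax.res h.ff P kZ
      refine D2.rulq ax.g3 h' g0 (β := -res Q γ)
        (e' ▸ add_mem (neg_mem rZ) (CarZ.zsmul (dv_mem_CarZ _) z)) ?_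
      have i := I_congr ax.int ax.mod (ax.ffs.rsd 1 K' h.ff P) (β := ![-res P (k + dv g)])
        (γ := ![pb l.κ (-res Q γ)]) (fun i => by simpa using CarZ.car rZ) fun i => by
          simpa [e'] using Submodule.smul_mem _ _ (dv_mem_Prn _)
      have j := R.neg (CarZ.car kZ) P
      rw [R.congr h.term.hull.1.car (γ := k + dv g) (by simpa using dv_mem_Prn g), hl.deg, neg_neg,
        dg, ← neg_one_smul ℝ (k + dv g), ax.res.smul 1 K' h.ff P _ _ (CarZ.car kZ),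
        neg_one_smul] at j
      exact i.trans j
  refine ⟨key.trans (styp_iff ax.g1b ax.g2 ax.g2b hS h.gf l).symm, fun hp hs => ?_⟩
  rw [b2]
  exact three_le ax.mod hS hQ (b2 ▸ ((ncard_pos b1).2 ⟨P, l⟩).ne') hp (key.1 hs)

end Vale.Agent.P287D.Dp
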