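import Vale.Agent.P287D.Dp.Ns
import Vale.Agent.P287D.Dp.Tp
import Vale.Agent.P287D.Dp.Ty

/-!
# P287D, block DP: the contracted orbit
-/

set_option linter.unusedVariables false
set_option linter.unusedSectionVars false

open Set MulAction

noncomputable section

namespace Vale.Agent.P287D.Dp

open Sf Pb

variable {K K' : Type} [Field K] [Algebra ℂ K] [Field K'] [Algebra ℂ K'] {φ : K →+* K'}
  {Y X k kX β γ : BD K'} {P P' : Pl K'} {Q : Pl K} {L : IntermediateField ℂ K} {S : Cls} {d : ℕ}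

/-- the sum of the curves above `Q` -/
def oE (φ : K →+* K') (Y : BD K') (Q : Pl K) : BD K' := ∑ᶠ P ∈ {P | Lies φ P Q}, st Y P

open Classical in
/-- the classes of the curves above `Q` -/
def oZ (φ : K →+* K') (Y : BD K') (Q : Pl K) : Finset (NS K') :=
  if h : {P | Lies φ P Q}.Finite then h.toFinset.image fun P => ns (st Y P) else ∅

/-- an orbit of disjoint lines -/
structure LO (L : IntermediateField ℂ K) (φ : K →+* K') (Y k : BD K') (Q : Pl K) : Prop where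
  hor : Hor L Q
  lin : ∀ P, Lies φ P Q → Lin Y k P
  dis : ∀ P P', Lies φ P Q → Lies φ P' Q → P ≠ P' → dg (st Y P) P' = 0

theorem SdA.onY (a : SdA L φ Y X kX Q) (l : Lies φ P Q) : On 1 Y P := (a.on P).2 (.inr l)

namespace Ax

variable (ax : Ax)
include ax

theorem sq_neg (hK : FF K' 2) (hβ : β ∈ Car K') (hX : Smp X) (hX' : Big X) (e : I2 β X = 0)
    (hY : Y ∈ Car K') (p : 0 < I2 β Y) : I2 β β < 0 := by
  by_contra c
  have := ax.num_of hK hX.car hβ (ax.sq_pos hK hX hX')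
    (by rw [(ax.rows K' hK).symm _ hX.car _ hβ, e]) (not_lt.1 c)
  rw [ax.num_l hK this hY] at p
  exact lt_irrefl _ p

variable (v : GV L φ Y k)
include v

theorem ob_fin (h : Hor L Q) : {P | Lies φ P Q}.Finite := (ax.g2b 2 2 K K' L φ v.gf Q h).1

theorem ob_ne (h : Hor L Q) : ∃ P, Lies φ P Q := (ax.g2 2 2 K K' L φ v.gf).2.2.1 Q h

theorem ob_tr (l : Lies φ P Q) (l' : Lies φ P' Q) :
    ∃ σ : Gal φ, P' = (v.gf.toGF.semi σ.2).pl P :=
  let ⟨σ, h, a⟩ := (ax.g2 2 2 K K' L φ v.gf).2.2.2 P P' Q l l'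
  ⟨⟨σ, h⟩, (v.gf.toGF.semi h).lies_iff.1 a⟩

theorem ob_pl (σ : Gal φ) : Lies φ ((v.gf.toGF.semi σ.2).pl P) Q ↔ Lies φ P Q :=
  lies_gal σ.2 ((v.gf.toGF.semi σ.2).lies P)

theorem dg_inv (hβ : β ∈ Car K') (i : Inv φ β) (l : Lies φ P Q) (l' : Lies φ P' Q) :
    dg β P' = dg β P := by
  obtain ⟨σ, rfl⟩ := ax.ob_tr v l l'
  rw [← ax.dg_pb v.ff (v.gf.toGF.semi σ.2) hβ P, i σ.1 σ.2]

theorem oE_eq (h : Hor L Q) : oE φ Y Q = ∑ P ∈ (ax.ob_fin v h).toFinset, st Y P :=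
  finsum_mem_eq_finite_toFinset_sum _ _

theorem mem_oZ (h : Hor L Q) {x : NS K'} : x ∈ oZ φ Y Q ↔ ∃ P, Lies φ P Q ∧ ns (st Y P) = x := by
  classical
  rw [oZ, dif_pos (ax.ob_fin v h)]
  simp

theorem sdA_det (a : SdA L φ Y X kX Q) : Det Y X :=
  (ax.det_iff v.ff v.term.smp).2 fun P o =>
    (ax.off_iff v.ff a.term.smp).1 fun c => o ((a.on P).2 (.inl c))

theorem sdA_off (a : SdA L φ Y X kX Q) (l : Lies φ P Q) : dg X P = 0 :=
  (ax.off_iff v.ff a.term.smp).1 (a.off P l)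

theorem sdA_k (a : SdA L φ Y X kX Q) (l : Lies φ P Q) : dg k P < 0 := by
  have R := ax.rows K' v.ff
  have c := ax.kC v.ff v.term
  have c' := ax.kC v.ff a.term
  have A := sub_mem c c'
  have dA : Det Y (k - kX) :=
    R.det_sub (ax.kD v.ff v.term) ((ax.sdA_det v a).trans (ax.kD v.ff a.term)) c c'
  have z : ∀ P, On 1 X P → (k - kX) P = 0 := fun P o => by
    simp [v.term.hull.2 P ((a.on P).2 (.inl o)), a.term.hull.2 P o]
  have p : ∀ P, Lies φ P Q → 0 < (k - kX) P := fun P l => by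
    simpa [dsc, v.term.hull.2 P (a.onY l)] using a.term.pos P (a.off P l)
  have n : ∀ P, On 1 Y P → 0 ≤ (k - kX) P := fun P o =>
    ((a.on P).1 o).elim (fun o => (z P o).ge) fun l => (p P l).le
  have q := ax.sq_neg v.ff A a.term.smp a.term.big
    (I2_zero fun P e => (ax.off_iff v.ff a.term.smp).1 fun o => e (z P o)) v.term.smp.car
    ((mul_pos (p P l) (on_iff.1 (a.onY l))).trans_le (R.le_I2 (R.isb _ A) v.term.smp.car
      (fun P => by
        by_cases o : On 1 Y P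
        · exact mul_nonneg (n P o) (on_iff.1 o).le
        · rw [(ax.off_iff v.ff v.term.smp).1 o, mul_zero]) P))
  obtain ⟨P', e⟩ := not_forall.1 (mt I2_nonneg' (not_le.2 q))
  have o : On 1 Y P' := by_contra fun o => e (by
    rw [(ax.det_iff v.ff v.term.smp).1 dA P' o, mul_zero])
  have l' : Lies φ P' Q := ((a.on P').1 o).resolve_left fun o => e (by rw [z P' o, zero_mul])
  have := neg_of_mul_neg_right (not_le.1 e) (n P' o)
  rw [R.sub c c', ax.kD v.ff a.term P' (ax.sdA_off v a l'), sub_zero] at this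
  obtain ⟨σ, rfl⟩ := ax.ob_tr v l l'
  rwa [ax.dg_k v.ff v.gf.toGF v.toMd σ.2] at this

theorem sdA_lin (a : SdA L φ Y X kX Q) (l : Lies φ P Q) : Lin Y k P := by
  have R := ax.rows K' v.ff
  have o := a.onY l
  have q := ax.sq_neg v.ff (ax.st_car v.ff v.term o) a.term.smp a.term.big
    (by rw [ax.I2_st v.ff v.term o (ax.sdA_det v a), ax.sdA_off v a l]) v.term.smp.car
    (by rw [ax.I2_st v.ff v.term o (.refl Y)]; exact on_iff.1 o)
  rw [ax.I2_st v.ff v.term o (ax.st_det v.ff v.term o)] at q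
  have p := ax.sdA_k v a l
  have r := ax.adj_le v.ff v.term o
  obtain ⟨x, hx⟩ := R.int _ (ax.st_carZ v.ff v.term o) P
  obtain ⟨y, hy⟩ := R.int _ (ax.kZ v.ff v.term) P
  rw [hx] at q r
  rw [hy] at p r
  have q' : x < 0 := by exact_mod_cast q
  have p' : y < 0 := by exact_mod_cast p
  have r' : -2 ≤ x + y := by exact_mod_cast r
  exact ⟨o, by rw [hx, show x = -1 by omega]; simp, by rw [hy, show y = -1 by omega]; simp⟩

theorem sdA_lo (a : SdA L φ Y X kX Q) : LO L φ Y k Q := by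
  refine ⟨a.hor, fun P => ax.sdA_lin v a, fun P P' l l' n => ?_⟩
  have R := ax.rows K' v.ff
  have o := a.onY l
  have o' := a.onY l'
  have c := ax.st_car v.ff v.term o
  have c' := ax.st_car v.ff v.term o'
  have e : ∀ {γ}, γ ∈ Car K' → Det Y γ → I2 (st Y P + st Y P') γ = dg γ P + dg γ P' :=
    fun a b => by
      rw [R.add_l (R.isb _ c) (R.isb _ c') a, ax.I2_st v.ff v.term o b, ax.I2_st v.ff v.term o' b]
  have q := ax.sq_neg v.ff (add_mem c c') a.term.smp a.term.big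
    (by rw [e a.term.smp.car (ax.sdA_det v a), ax.sdA_off v a l, ax.sdA_off v a l', add_zero])
    v.term.smp.car (by rw [e v.term.smp.car (.refl Y)]; exact add_pos (on_iff.1 o) (on_iff.1 o'))
  rw [e (add_mem c c') (R.det_add (ax.st_det v.ff v.term o) (ax.st_det v.ff v.term o') c c'),
    R.add _ c _ c', R.add _ c _ c', (ax.sdA_lin v a l).sq, (ax.sdA_lin v a l').sq,
    ax.st_symm v.ff v.term o' o] at q
  have r := ax.st_meet v.ff v.term o o' n.symm
  obtain ⟨x, hx⟩ := R.int _ (ax.st_carZ v.ff v.term o) P'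
  rw [hx] at q r ⊢
  have q' : x < 1 := by exact_mod_cast (show (x : ℝ) < 1 by linarith)
  have r' : 0 ≤ x := by exact_mod_cast r
  rw [show x = 0 by omega, Int.cast_zero]

section

variable (o : LO L φ Y k Q)
include o

theorem oE_carZ : oE φ Y Q ∈ CarZ K' := by
  rw [ax.oE_eq v o.hor]
  exact sum_mem fun P p => ax.st_carZ v.ff v.term (o.lin P (by simpa using p)).on

theorem oE_dg (P' : Pl K') :
    dg (oE φ Y Q) P' = ∑ P ∈ (ax.ob_fin v o.hor).toFinset, dg (st Y P) P' := by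
  rw [ax.oE_eq v o.hor]
  exact (ax.rows K' v.ff).sum _
    (fun P p => ax.st_car v.ff v.term (o.lin P (by simpa using p)).on) P'

theorem oE_det : Det Y (oE φ Y Q) := fun P' e => by
  rw [ax.oE_dg v o]
  exact Finset.sum_eq_zero fun P p => ax.st_det v.ff v.term (o.lin P (by simpa using p)).on P' e

theorem oE_self (l : Lies φ P Q) : dg (oE φ Y Q) P = -1 := by
  rw [ax.oE_dg v o, Finset.sum_eq_single P (fun P' p n => o.dis P' P (by simpa using p) l n)
    fun n => absurd (by simpa using l) n, (o.lin P l).sq]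

theorem oE_one (l : Lies φ P Q) : oE φ Y Q P = 1 := by
  rw [ax.oE_eq v o.hor, Finset.sum_apply, Finset.sum_eq_single P (fun P' p n =>
    ax.st_ne v.ff v.term (o.lin P' (by simpa using p)).on (o.lin P l).on n.symm)
    fun n => absurd (by simpa using l) n, ax.st_self v.ff v.term (o.lin P l).on]

theorem oE_zero (h : On 1 Y P) (l : ¬ Lies φ P Q) : oE φ Y Q P = 0 := by
  rw [ax.oE_eq v o.hor, Finset.sum_apply]
  refine Finset.sum_eq_zero fun P' p => ?_
  have l' : Lies φ P' Q := by simpa using p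
  exact ax.st_ne v.ff v.term (o.lin P' l').on h fun e => l (e ▸ l')

theorem oE_inv : Inv φ (oE φ Y Q) :=
  ax.inv_of v.ff v.gf.toGF v.toMd (CarZ.car (ax.oE_carZ v o)) (ax.oE_det v o)
    fun σ hσ P P' h l => by
      by_cases c : Lies φ P Q
      · rw [ax.oE_one v o c, ax.oE_one v o ((lies_gal hσ l).2 c)]
      · rw [ax.oE_zero v o h c, ax.oE_zero v o ((v.stb σ hσ _ _ l).2 h) (mt (lies_gal hσ l).1 c)]

theorem ns_inj (l : Lies φ P Q) (h : On 1 Y P') (e : ns (st Y P') = ns (st Y P)) : P' = P :=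
  ax.eq_of_num v.ff v.gf.toGF v.toMd (o.lin P l).on h (by rw [(o.lin P l).sq]; norm_num)
    ((ns_eq (ax.st_carZ v.ff v.term h) (ax.st_carZ v.ff v.term (o.lin P l).on)).1 e)

theorem sum_oZ : ∑ x ∈ oZ φ Y Q, x = ns (oE φ Y Q) := by
  classical
  rw [oZ, dif_pos (ax.ob_fin v o.hor), ax.oE_eq v o.hor, Finset.sum_image fun P p P' p' =>
    ax.ns_inj v o (by simpa using p') (o.lin P (by simpa using p)).on,
    ns_sum _ fun P p => ax.st_carZ v.ff v.term (o.lin P (by simpa using p)).on]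

theorem card_oZ : (oZ φ Y Q).card = {P | Lies φ P Q}.ncard := by
  classical
  rw [oZ, dif_pos (ax.ob_fin v o.hor), Finset.card_image_of_injOn fun P p P' p' =>
    ax.ns_inj v o (by simpa using p') (o.lin P (by simpa using p)).on,
    ncard_eq_toFinset_card _ (ax.ob_fin v o.hor)]

omit o in
theorem smul_st (σ : Gal φ) (h : On 1 Y P) :
    σ • ns (st Y P) = ns (st Y ((v.gf.toGF.semi σ.2).pl P)) := by
  rw [smul_ns v.gf.toGF σ (ax.st_carZ v.ff v.term h), ax.pb_st v.ff v.gf.toGF v.toMd σ.2 h]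

omit o in
theorem ln_st (h : Lin Y k P) : (ax.lat v.ff v.gf.toGF).Ln (ns (-k)) (ns (st Y P)) :=
  (ax.ln_iff v.ff _ (ax.kZ v.ff v.term) (ax.st_carZ v.ff v.term h.on)).2
    ⟨by rw [ax.I2_st v.ff v.term h.on (ax.st_det v.ff v.term h.on), h.sq],
      by rw [ax.I2_st' v.ff v.term h.on (ax.kC v.ff v.term) (ax.kD v.ff v.term), h.deg]⟩

/-- the orbit in the lattice -/
theorem orb : (ax.lat v.ff v.gf.toGF).Orb (ns (-k)) (oZ φ Y Q) := by
  have m := fun {x} => ax.mem_oZ v o.hor (x := x)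
  refine ⟨?_, fun e he => ?_, fun e he e' he' n => ?_, fun σ e he => ?_, fun e he e' he' => ?_⟩
  · obtain ⟨P, l⟩ := ax.ob_ne v o.hor
    exact ⟨_, m.2 ⟨P, l, rfl⟩⟩
  · obtain ⟨P, l, rfl⟩ := m.1 he
    exact ax.ln_st v (o.lin P l)
  · obtain ⟨P, l, rfl⟩ := m.1 he
    obtain ⟨P', l', rfl⟩ := m.1 he'
    rw [ax.lat_eq v.ff _ (ax.st_carZ v.ff v.term (o.lin P l).on)
      (ax.st_carZ v.ff v.term (o.lin P' l').on), ax.I2_st v.ff v.term (o.lin P l).on
      (ax.st_det v.ff v.term (o.lin P' l').on), o.dis P' P l' l fun e => n (e ▸ rfl), Int.cast_zero]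
  · obtain ⟨P, l, rfl⟩ := m.1 he
    exact m.2 ⟨_, (ax.ob_pl v σ).2 l, (ax.smul_st v σ (o.lin P l).on).symm⟩
  · obtain ⟨P, l, rfl⟩ := m.1 he
    obtain ⟨P', l', rfl⟩ := m.1 he'
    obtain ⟨σ, rfl⟩ := ax.ob_tr v l l'
    exact ⟨σ, ax.smul_st v σ (o.lin P l).on⟩

omit o in
theorem ty_st (h : Lin Y k P) :
    Ty S L φ (stabilizer (Gal φ) (ns (st Y P))) ↔ STyp S L φ (stP φ P) := by
  rw [ty_stab v.gf.toGF (ax.st_carZ v.ff v.term h.on),
    ax.stC_st v.ff v.gf.toGF v.toMd h.on (by rw [h.sq]; norm_num)]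

theorem so_iff (hS : SCl d S) : So (Ty S L φ) (oZ φ Y Q) ↔ SDiv S Q.κ := by
  have t := fun P l => (ty ax d S hS K K' L φ Y k v P Q l (o.lin P l)).1
  refine ⟨fun ⟨e, he, a⟩ => ?_, fun a => ?_⟩
  · obtain ⟨P, l, rfl⟩ := (ax.mem_oZ v o.hor).1 he
    exact (t P l).2 ((ax.ty_st v (o.lin P l)).1 a)
  · obtain ⟨P, l⟩ := ax.ob_ne v o.hor
    exact ⟨_, (ax.mem_oZ v o.hor).2 ⟨P, l, rfl⟩, (ax.ty_st v (o.lin P l)).2 ((t P l).1 a)⟩

end

variable (a : SdA L φ Y X kX Q)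
include a

theorem sdA_det_of (hβ : β ∈ Car K') (h : Det Y β) (e : ∀ P, Lies φ P Q → dg β P = 0) :
    Det X β :=
  (ax.det_iff v.ff a.term.smp).2 fun P c => by
    by_cases o : On 1 Y P
    · exact e P (((a.on P).1 o).resolve_left c)
    · exact (ax.det_iff v.ff v.term.smp).1 h P o

theorem sdA_kX : kX = k - oE φ Y Q := by
  have R := ax.rows K' v.ff
  have o := ax.sdA_lo v a
  have c := ax.kC v.ff v.term
  have c' := CarZ.car (ax.oE_carZ v o)
  refine ax.uq v.ff a.term.smp a.term.big (ax.kC v.ff a.term) (sub_mem c c') (ax.kD v.ff a.term)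
    (ax.sdA_det_of v a (sub_mem c c') (R.det_sub (ax.kD v.ff v.term) (ax.oE_det v o) c c')
      fun P l => by rw [R.sub c c', (o.lin P l).deg, ax.oE_self v o l, sub_self]) fun P h => ?_
  have h' := (a.on P).2 (.inl h)
  rw [Pi.sub_apply, ax.oE_zero v o h' fun l => a.off P l h, a.term.hull.2 P h,
    v.term.hull.2 P h', sub_zero]

theorem ns_kX : ns (-kX) = ns (-k) + ∑ x ∈ oZ φ Y Q, x := by
  have o := ax.sdA_lo v a
  rw [ax.sum_oZ v o, ax.sdA_kX v a, ← ns_add (neg_mem (ax.kZ v.ff v.term)) (ax.oE_carZ v o),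
    neg_sub, sub_eq_neg_add]

/-- the invariant classes of `V Y` -/
theorem sdA_rk (hβ : β ∈ Car K') (h : Det Y β) (i : Inv φ β) :
    ∃ x y : ℝ, Num (β - x • k - y • oE φ Y Q) := by
  have R := ax.rows K' v.ff
  have o := ax.sdA_lo v a
  have c := CarZ.car (ax.oE_carZ v o)
  obtain ⟨P, l⟩ := ax.ob_ne v a.hor
  have c' := Submodule.smul_mem _ (dg β P) c
  obtain ⟨x, e⟩ := a.rk (β + dg β P • oE φ Y Q) (add_mem hβ c')
    (ax.sdA_det_of v a (add_mem hβ c') (R.det_add h (R.det_smul _ (ax.oE_det v o) c) hβ c')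
      fun P' l' => by rw [R.add_smul hβ c, ax.oE_self v o l', ax.dg_inv v hβ i l l']; ring)
    (Inv.add i (Inv.smul _ (ax.oE_inv v o)))
  refine ⟨x, -(dg β P + x), ?_⟩
  rw [ax.sdA_kX v a] at e
  exact (congrArg Num (by module)).mp e

theorem po_kX : (ax.lat v.ff v.gf.toGF).Po (Ty S L φ) (ns (-k) + ∑ x ∈ oZ φ Y Q, x) ↔
    NuG S L φ X kX := by rw [← ax.ns_kX v a, ax.po_iff v.ff _ a.term]

end Ax

/-- **SA** -/
theorem sa (ax : Ax) : SA := fun K K' _ _ _ _ L φ Y k v X kX Q a =>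
  ⟨(ax.sdA_lo v a).lin, (ax.sdA_lo v a).dis, ax.sdA_kX v a⟩

theorem Bal.ind {a b c d : Prop} (h : Bal a b c d) : ind a + ind b = ind c + ind d := by
  rcases h with ⟨x, y⟩ | ⟨x, y⟩
  · rw [propext x, propext y]
  · rw [propext x, propext y, add_comm]

/-- **LAA** -/
theorem laa (ax : Ax) : LAA :=
  fun d S hS K K' _ _ _ _ L φ Y k v h0 X kX Q X' kX' Q' a a' => by
    have o := ax.sdA_lo v a
    have o' := ax.sdA_lo v a'
    have := (Lat.typeII (T := Ty S L φ) (tp ax hS v.gf h0) (ax.smul_k v.ff v.gf.toGF v.toMd)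
      (by have := v.pos
          rw [← ax.lat_kk v.ff v.gf.toGF (ax.kZ v.ff v.term)] at this
          exact_mod_cast this) (ax.orb v o) (ax.orb v o') fun _ => by
      obtain ⟨x, y, e⟩ := ax.sdA_rk v a' (CarZ.car (ax.oE_carZ v o)) (ax.oE_det v o) (ax.oE_inv v o)
      rw [ax.sum_oZ v o, ax.sum_oZ v o']
      exact ax.dep_of v.ff v.gf.toGF (ax.kZ v.ff v.term) (ax.oE_carZ v o) (ax.oE_carZ v o')
        v.pos e).ind
    rwa [ax.so_iff v o hS, ax.so_iff v o' hS, ax.po_kX v a, ax.po_kX v a'] at this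

end Vale.Agent.P287D.Dp
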