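import Vale.Agent.P287D.Dp.Lab0
import Vale.Agent.P287D.Dp.Sa

/-!
# P287D, block DP: a contraction and a conic bundle
-/

namespace Vale.Agent.P287D.Dp

theorem lab (ax : Ax) : LAB := by
  intro d S hS K K' _ _ _ _ L φ Y k g h0 X kX Q L₃ N A B
  have o := ax.sdA_lo g A
  obtain ⟨f, F⟩ := sb ax K K' L φ Y k g L₃ N B
  obtain ⟨x, y, r⟩ := B.rk _ (CarZ.car (ax.oE_carZ g o)) (ax.oE_det g o) (ax.oE_inv g o)
  obtain ⟨y', r⟩ := F.rel r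
  rw [← ax.so_iff g o hS]
  refine lab_of ax hS g h0 A B F (ax.orb g o) (fun x hx => ?_) (ax.ns_kX g A) ?_
  · obtain ⟨P, l, rfl⟩ := (ax.mem_oZ g o.hor).1 hx
    exact ⟨P, (o.lin P l).on, rfl⟩
  · rw [ax.sum_oZ g o]
    exact ax.dep_of g.ff g.gf.toGF (ax.kZ g.ff g.term) (ax.oE_carZ g o) F.car g.pos r

end Vale.Agent.P287D.Dp
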