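import Vale.Agent.P287D.Dp.Lbb
import Vale.Agent.P287D.Dp.Tp

/-!
# P287D, block DP: a contraction and a conic bundle, the lattice part
-/

set_option linter.unusedVariables false
set_option linter.unusedSectionVars false

open Set MulAction

noncomputable section

namespace Vale.Agent.P287D.Dp

open Sf Pb

variable {K K' : Type} [Field K] [Algebra ℂ K] [Field K'] [Algebra ℂ K'] {φ : K →+* K'}
  {X Y k kX N f β : BD K'} {Q : Pl K} {L L₃ : IntermediateField ℂ K} {S : Cls}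
  {e : Fin 3 → BD K'} {Z : Finset (NS K')}

theorem ty_hs (h : GF L φ) (hf : f ∈ CarZ K') (he : ∀ i, e i ∈ CarZ K') :
    Ty S L φ (Hs (Gal φ) (ns f) (∑ i, ns (e i))) ↔ STyp S L φ (stQ φ f e) := by
  have s : ∑ i, e i ∈ CarZ K' := sum_mem fun i _ => he i
  have t : (3 : ℝ) • f ∈ CarZ K' := by simpa using CarZ.zsmul hf 3
  have u : ns ((3 : ℝ) • f - ∑ i, e i) = (3 : ℤ) • ns f - ns (∑ i, e i) := by
    rw [ns_sub t s, ← ns_zsmul 3 hf, Int.cast_ofNat]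
  have v : ∀ σ : Gal φ, σ ∈ Hs (Gal φ) (ns f) (ns (∑ i, e i)) ↔ σ.1 ∈ stQ φ f e := fun σ => by
    rw [Hs, mem_ofPred_eq, ← u, smul_ns_iff h σ s s, smul_ns_iff h σ s (sub_mem t s)]
    exact ⟨fun q => ⟨σ.2, q⟩, fun q => q.2⟩
  rw [Ty, ← ns_sum _ fun i _ => he i]
  exact iff_of_eq (congrArg _ (Set.ext fun σ => ⟨by
    rintro ⟨σ, a, rfl⟩
    exact (v σ).1 a, fun a => ⟨⟨σ, a.1⟩, (v _).2 a, rfl⟩⟩))

theorem amp45 (ax : Ax) (g : GV L φ Y k) (A : SdA L φ Y X kX Q) (B : SdB L₃ φ Y k N)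
    (F : Fib Y k N f) (o : (ax.lat g.ff g.gf.toGF).Orb (ns (-k)) Z)
    (hZ : ∀ x ∈ Z, ∃ P, On 1 Y P ∧ x = ns (st Y P)) (hk : ns (-kX) = ns (-k) + ∑ x ∈ Z, x)
    (h5 : (ax.lat g.ff g.gf.toGF).B (ns (-k)) (ns (-k)) = 5) (h4 : (Z.card : ℤ) = 4)
    (h1 : ∀ x ∈ Z, (ax.lat g.ff g.gf.toGF).B x (ns f) = 1) : AmpOn Y (-k) := by
  have hK := g.ff
  have R := ax.rows K' hK
  have a := ax.kZ hK g.term
  have hC := (ax.cn_iff hK g.gf.toGF a F.car).2 ⟨F.sq R B.smp B.sq, F.kf⟩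
  have r := Lat.four_rel o hC h5 h4 h1
  have c := sub_mem (neg_mem a) F.car
  have n := ns_sub (neg_mem a) F.car
  have d := g.term.hull.1.neg.sub F.des
  have D := (ax.det_of hK g.term d).2
  refine B.amp_of F g.term.smp g.term.hull.1 (A.smp_of ax g ⟨CarZ.car c, fun P => ?_⟩ ?_
    (c := -3) ?_)
  · by_cases p : On 1 Y P
    swap
    · exact ((ax.det_iff hK g.term.smp).1 D P p).ge
    have z := ax.st_carZ hK g.term p
    rw [← ax.I2_st hK g.term p D, ← ax.lat_B hK g.gf.toGF z c, n, ← Int.cast_zero, Int.cast_le,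
      map_sub]
    by_cases m : ns (st Y P) ∈ Z
    · rw [h1 _ m, Lat.symm, (o.ln _ m).2]; rfl
    have u : 0 ≤ (ax.lat hK g.gf.toGF).B (ns (st Y P)) (ns f) := by
      rw [← Int.cast_le (R := ℝ), ax.lat_B hK _ z F.car,
        ax.I2_st hK g.term p (ax.det_of hK g.term F.des).2, Int.cast_zero]
      exact (R.nn_smp (F.smp B.smp)).nn P
    have v : 0 ≤ (ax.lat hK g.gf.toGF).B (ns (st Y P)) (∑ x ∈ Z, x) := by
      rw [map_sum]
      refine Finset.sum_nonneg fun x hx => ?_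
      obtain ⟨P', p', rfl⟩ := hZ x hx
      rw [← Int.cast_le (R := ℝ), ax.lat_B hK _ z (ax.st_carZ hK g.term p'),
        ax.I2_st hK g.term p (ax.st_det hK g.term p'), Int.cast_zero]
      exact ax.st_meet hK g.term p' p fun q => m (q ▸ hx)
    rw [r] at v
    simp only [map_sub, map_smul, smul_eq_mul] at v
    omega
  · rw [← ax.lat_B hK g.gf.toGF c c, n]
    simp [h5, hC.1, hC.2, Lat.symm _ (ns f) (ns (-k))]
  · have b := ax.kZ hK A.term
    have t := CarZ.zsmul c (-3)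
    have := (ns_eq b t).1 (by
      rw [ns_zsmul _ c, n, ← neg_inj, ← ns_neg b, hk, r]; module)
    simpa using this

theorem lab_of (ax : Ax) {d : ℕ} (hS : SCl d S) (g : GV L φ Y k) (h0 : pg L 2 = 0)
    (A : SdA L φ Y X kX Q) (B : SdB L₃ φ Y k N) (F : Fib Y k N f)
    (o : (ax.lat g.ff g.gf.toGF).Orb (ns (-k)) Z)
    (hZ : ∀ x ∈ Z, ∃ P, On 1 Y P ∧ x = ns (st Y P)) (hk : ns (-kX) = ns (-k) + ∑ x ∈ Z, x)
    (hd : Lat.Dep (ns (-k)) (∑ x ∈ Z, x) (ns f)) :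
    ¬ NuG S L φ X kX ∧ (So (Ty S L φ) Z ↔ NuQ S L L₃ φ) := by
  have hK := g.ff
  have h := g.gf.toGF
  have R := ax.rows K' hK
  have a := ax.kZ hK g.term
  have hC := (ax.cn_iff hK h a F.car).2 ⟨F.sq R B.smp B.sq, F.kf⟩
  have hf : ∀ σ : Gal φ, σ • ns f = ns f := fun σ =>
    (smul_ns_iff h σ F.car F.car).2 (.of_prn (F.inv h B.inv σ.2))
  have kk := ax.lat_kk hK h a
  have p : 0 < (ax.lat hK h).B (ns (-k)) (ns (-k)) := by
    rw [← Int.cast_pos (R := ℝ), kk]; exact g.pos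
  obtain ⟨t1, t2, t3⟩ := Lat.typeI (T := Ty S L φ) (tp ax hS g.gf h0) (ax.smul_k hK h g.toMd) hf p
    o hC hd
  refine ⟨by rwa [← ax.po_iff hK h A.term, hk], fun s => ?_, fun ⟨X', k₁, f₁, e, c, s⟩ => ?_⟩
  · obtain ⟨h5, x, hx, b, fx, hb, t, sw, s⟩ := t2 s
    obtain ⟨h1, h4⟩ := (o.tab1 hf p hC hd).resolve_left (by omega)
    have l := o.ln x hx
    obtain ⟨P, oP, rfl⟩ := hZ x hx
    choose P' oP' hP' using fun i => hZ _ (hb i)
    have zP := ax.st_carZ hK g.term oP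
    have z : ∀ i, -k - f - st Y P - st Y (P' i) ∈ CarZ K' := fun i =>
      sub_mem (sub_mem (sub_mem (neg_mem a) F.car) zP) (ax.st_carZ hK g.term (oP' i))
    have n : ∀ i, ns (-k) - ns f - ns (st Y P) - b i = ns (-k - f - st Y P - st Y (P' i)) :=
      fun i => by
        rw [ns_sub (sub_mem (sub_mem (neg_mem a) F.car) zP) (ax.st_carZ hK g.term (oP' i)),
          ns_sub (sub_mem (neg_mem a) F.car) zP, ns_sub (neg_mem a) F.car, hP']
    simp only [n] at t sw s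
    refine ⟨Y, k, f, fun i => -k - f - st Y P - st Y (P' i), ⟨g.term, fun σ hσ => ?_, ?_, F.car,
      F.smp B.smp, F.des, F.sq R B.smp B.sq, F.kf, fun u hu => F.fld ▸ (B.base u).1 hu,
      fun i => ⟨z i, ((g.term.hull.1.neg.sub F.des).sub (ax.st_hull hK g.term oP).1).sub
        (ax.st_hull hK g.term (oP' i)).1⟩, fun i j => ?_,
      fun i => ((ax.ln_iff hK h a (z i)).1 (t.ln i)).2, fun i => ?_, fun i => ?_,
      ⟨_, zP, (ax.st_hull hK g.term oP).1, ?_, (ax.ln_iff hK h a zP).1 l⟩,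
      amp45 ax g A B F o hZ hk h5 (by omega) h1⟩, (ty_hs h F.car z).1 s⟩
    · rw [B.invY σ hσ]; exact .refl g.term.smp
    · rw [← kk, h5]; rfl
    · rw [← ax.lat_B hK h (z i) (z j), t.ee]; split_ifs <;> simp
    · rw [← ax.lat_B hK h F.car (z i), t.fe, Int.cast_zero]
    · obtain ⟨σ, q⟩ := sw i
      rw [← ns_sub F.car (z i)] at q
      exact ⟨σ.1, σ.2, (smul_ns_iff h σ (z i) (sub_mem F.car (z i))).1 q⟩
    · rw [← ax.lat_B hK h F.car zP, fx, Int.cast_one]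
  · obtain ⟨c1, ⟨z, hz⟩, c3⟩ := cmp ax K K' L φ Y k g L₃ N f B F X' k₁ f₁ e c
    have q := (ns_eq c.car F.car).2 c1
    have ze := fun i => (c.ecar i).1
    refine t3 ((by omega : (4 : ℤ) ≤ 5).trans (five_le g.pos hz kk)) (fun i => ns (e i))
      ⟨fun i j => ?_, fun i => ?_, fun i => ?_⟩ (q ▸ (ty_hs h c.car ze).2 s)
    · rw [ax.lat_eq hK h (ze i) (ze j), c.ee]; split_ifs <;> simp
    · rw [← Int.cast_inj (α := ℝ), ax.lat_neg hK h a (ze i), (c3 i).2]; simp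
    · rw [← q, ax.lat_eq hK h c.car (ze i), c.fe, Int.cast_zero]

end Vale.Agent.P287D.Dp
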