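import Mathlib

/-!
# P287D, block DP: lattices with a Hodge index theorem, lines and conics
-/

namespace Vale.Agent.P287D.Dp

open Finset MulAction

/-- an integral symmetric invariant form of hyperbolic signature -/
structure Lat (G L : Type*) [Group G] [AddCommGroup L] [DistribMulAction G L] where
  /-- the form -/
  B : L →ₗ[ℤ] L →ₗ[ℤ] ℤ
  symm : ∀ x y, B x y = B y x
  inv : ∀ (g : G) x y, B (g • x) (g • y) = B x y
  hodge : ∀ a x, 0 < B a a → B x a = 0 → x ≠ 0 → B x x < 0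

namespace Lat

variable {G L : Type*} [Group G] [AddCommGroup L] [DistribMulAction G L] (Λ : Lat G L)

/-- lines -/
def Ln (k e : L) : Prop := Λ.B e e = -1 ∧ Λ.B k e = 1

/-- conics -/
def Cn (k C : L) : Prop := Λ.B C C = 0 ∧ Λ.B k C = 2

/-- an orbit of pairwise orthogonal lines -/
structure Orb (k : L) (Z : Finset L) : Prop where
  ne : Z.Nonempty
  ln : ∀ e ∈ Z, Λ.Ln k e
  orth : ∀ e ∈ Z, ∀ e' ∈ Z, e ≠ e' → Λ.B e e' = 0
  mem : ∀ (g : G), ∀ e ∈ Z, g • e ∈ Z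
  tr : ∀ e ∈ Z, ∀ e' ∈ Z, ∃ g : G, g • e = e'

/-- linear dependence -/
def Dep (x y z : L) : Prop := ∃ a b c : ℤ, ¬ (a = 0 ∧ b = 0 ∧ c = 0) ∧ a • x + b • y + c • z = 0

variable {Λ} {k e f x y C : L} {Z Z' : Finset L}

theorem zero_of (hk : 0 < Λ.B k k) (h : Λ.B x k = 0) (h2 : 0 ≤ Λ.B x x) : x = 0 := by
  by_contra h0
  exact absurd (Λ.hodge k x hk h h0) (not_lt.2 h2)

theorem nonpos (hk : 0 < Λ.B k k) (h : Λ.B x k = 0) : Λ.B x x ≤ 0 := by
  by_cases h0 : x = 0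
  · simp [h0]
  · exact (Λ.hodge k x hk h h0).le

theorem hi (hk : 0 < Λ.B k k) (x : L) : Λ.B k k * Λ.B x x ≤ Λ.B k x ^ 2 := by
  have h := nonpos (x := Λ.B k k • x - Λ.B k x • k) hk (by
    simp only [map_sub, map_smul, LinearMap.sub_apply, LinearMap.smul_apply, smul_eq_mul,
      Λ.symm x k]; ring)
  simp only [map_sub, map_smul, LinearMap.sub_apply, LinearMap.smul_apply, smul_eq_mul,
    Λ.symm x k] at h
  nlinarith

theorem Ln.nn (hk : 0 < Λ.B k k) (he : Λ.Ln k e) (hf : Λ.Ln k f) (h : e ≠ f) : 0 ≤ Λ.B e f := by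
  have := Λ.hodge k (e - f) hk (by simp [Λ.symm e k, Λ.symm f k, he.2, hf.2]) (sub_ne_zero.2 h)
  simp only [map_sub, LinearMap.sub_apply, he.1, hf.1, Λ.symm f e] at this
  omega

theorem Ln.le (hk : 3 ≤ Λ.B k k) (he : Λ.Ln k e) (hf : Λ.Ln k f) : Λ.B e f ≤ 1 := by
  have := hi (Λ := Λ) (k := k) (by omega) (e + f)
  simp only [map_add, LinearMap.add_apply, he.1, hf.1, he.2, hf.2, Λ.symm f e] at this
  by_contra h
  nlinarith

theorem Cn.pos (hk : 0 < Λ.B k k) (he : Λ.Cn k x) (hf : Λ.Cn k y) (h : x ≠ y) : 1 ≤ Λ.B x y := by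
  have := Λ.hodge k (x - y) hk (by simp [Λ.symm x k, Λ.symm y k, he.2, hf.2]) (sub_ne_zero.2 h)
  simp only [map_sub, LinearMap.sub_apply, he.1, hf.1, Λ.symm y x] at this
  omega

theorem Cn.ln_nn (hk : 0 < Λ.B k k) (hC : Λ.Cn k C) (he : Λ.Ln k e) : 0 ≤ Λ.B e C := by
  have := nonpos (Λ := Λ) (x := C - (2 : ℤ) • e) hk (by
    simp [Λ.symm C k, Λ.symm e k, he.2, hC.2])
  simp only [map_sub, map_smul, LinearMap.sub_apply, LinearMap.smul_apply, smul_eq_mul, he.1,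
    hC.1, Λ.symm C e] at this
  by_contra h
  have h1 : Λ.B e C = -1 := by omega
  have h0 := zero_of (Λ := Λ) (x := C - (2 : ℤ) • e) hk (by
    simp [Λ.symm C k, Λ.symm e k, he.2, hC.2]) (by
    simp only [map_sub, map_smul, LinearMap.sub_apply, LinearMap.smul_apply, smul_eq_mul, he.1,
      hC.1, Λ.symm C e]; omega)
  have h3 := congrArg (Λ.B e) h0
  simp only [map_sub, map_smul, smul_eq_mul, he.1, map_zero] at h3
  omega

theorem Cn.orth (hk : 5 ≤ Λ.B k k) (hC : Λ.Cn k C) (he : Λ.B e e = -1) (h : Λ.B k e = 0) :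
    Λ.B e C = 0 := by
  have := hi (Λ := Λ) (k := k) (by omega) (C + Λ.B e C • e)
  simp only [map_add, map_smul, LinearMap.add_apply, LinearMap.smul_apply, smul_eq_mul, he, h,
    hC.1, hC.2, Λ.symm C e] at this
  by_contra h0
  have : 1 ≤ Λ.B e C ^ 2 := by
    have := sq_pos_of_ne_zero h0
    omega
  nlinarith

/-- few conics -/
theorem Cn.all {ι : Type*} (hk : 0 < Λ.B k k) (s : Finset ι) (D : ι → L) (c : ℤ)
    (hD : ∀ i ∈ s, Λ.Cn k (D i)) (hs : ∑ i ∈ s, D i = c • k) (hc : 2 * c < s.card)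
    (hC : Λ.Cn k C) : ∃ i ∈ s, C = D i := by
  by_contra h
  push Not at h
  have h1 : ∑ i ∈ s, (1 : ℤ) ≤ ∑ i ∈ s, Λ.B C (D i) :=
    sum_le_sum fun i hi => hC.pos hk (hD i hi) (h i hi)
  rw [← map_sum, hs] at h1
  simp only [sum_const, nsmul_eq_mul, mul_one, map_smul, smul_eq_mul, Λ.symm C k, hC.2] at h1
  omega

theorem B_inv (hx : ∀ g : G, g • x = x) (g : G) (y : L) : Λ.B (g • y) x = Λ.B y x := by
  conv_lhs => rw [← hx g]
  exact Λ.inv g y x

namespace Orb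

variable (h : Λ.Orb k Z)
include h

theorem smul_sum (g : G) : g • ∑ e ∈ Z, e = ∑ e ∈ Z, e := by
  rw [Finset.smul_sum]
  exact sum_bij' (fun e _ => g • e) (fun e _ => g⁻¹ • e) (fun e he => h.mem g e he)
    (fun e he => h.mem g⁻¹ e he) (by simp) (by simp) (by simp)

theorem k_sum : Λ.B k (∑ e ∈ Z, e) = Z.card := by
  rw [map_sum, sum_congr rfl fun e he => (h.ln e he).2]; simp

theorem e_sum (he : e ∈ Z) : Λ.B e (∑ e ∈ Z, e) = -1 := by
  classical
  rw [map_sum, sum_eq_single e (fun e' h' hn => h.orth e he e' h' hn.symm) fun hn => absurd he hn]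
  exact (h.ln e he).1

theorem const (hx : ∀ g : G, g • x = x) : ∃ α : ℤ, (∀ e ∈ Z, Λ.B e x = α) ∧
    Λ.B (∑ e ∈ Z, e) x = Z.card * α := by
  obtain ⟨e, he⟩ := h.ne
  have a : ∀ e' ∈ Z, Λ.B e' x = Λ.B e x := fun e' h' => by
    obtain ⟨g, rfl⟩ := h.tr e he e' h'
    exact B_inv hx g e
  refine ⟨_, a, ?_⟩
  rw [map_sum, LinearMap.sum_apply, sum_congr rfl a]; simp

theorem sum_sum : Λ.B (∑ e ∈ Z, e) (∑ e ∈ Z, e) = -Z.card := by
  rw [LinearMap.map_sum₂, sum_congr rfl fun e he => h.e_sum he]; simp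

theorem pos : 1 ≤ (Z.card : ℤ) := by exact_mod_cast h.ne.card_pos

theorem index (he : e ∈ Z) : (stabilizer G e).index = Z.card := by
  rw [index_stabilizer, ← Set.ncard_coe_finset]
  congr 1
  ext x
  exact ⟨fun ⟨g, hg⟩ => hg ▸ h.mem g e he, fun hx => h.tr e he x hx⟩

theorem disj (h' : Λ.Orb k Z') (hn : Z ≠ Z') (he : e ∈ Z) (hf : f ∈ Z') : e ≠ f := by
  rintro rfl
  refine hn (Finset.ext fun x => ⟨fun hx => ?_, fun hx => ?_⟩)
  · obtain ⟨g, rfl⟩ := h.tr e he x hx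
    exact h'.mem g e hf
  · obtain ⟨g, rfl⟩ := h'.tr e hf x hx
    exact h.mem g e he

/-- the degree of the contracted surface -/
theorem deg : Λ.B (k + ∑ e ∈ Z, e) (k + ∑ e ∈ Z, e) = Λ.B k k + Z.card := by
  simp only [map_add, LinearMap.add_apply, h.sum_sum, h.k_sum, Λ.symm (∑ e ∈ Z, e) k]; ring

end Orb

theorem Dep.det (h : Dep x y e) :
    Λ.B x x * (Λ.B y y * Λ.B e e - Λ.B y e ^ 2) - Λ.B x y * (Λ.B x y * Λ.B e e - Λ.B y e * Λ.B x e) +
      Λ.B x e * (Λ.B x y * Λ.B y e - Λ.B y y * Λ.B x e) = 0 := by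
  obtain ⟨a, b, c, hn, h⟩ := h
  have h1 := congrArg (Λ.B x) h
  have h2 := congrArg (Λ.B y) h
  have h3 := congrArg (Λ.B e) h
  simp only [map_add, map_smul, smul_eq_mul, map_zero, Λ.symm y x, Λ.symm e x, Λ.symm e y]
    at h1 h2 h3
  generalize Λ.B x x = p, Λ.B y y = q, Λ.B e e = r, Λ.B x y = s, Λ.B x e = t, Λ.B y e = u at *
  by_contra h0
  refine hn ⟨?_, ?_, ?_⟩ <;> refine mul_left_cancel₀ h0 ?_
  · linear_combination (q * r - u ^ 2) * h1 - (s * r - u * t) * h2 + (s * u - q * t) * h3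
  · linear_combination (u * t - s * r) * h1 + (p * r - t ^ 2) * h2 + (s * t - p * u) * h3
  · linear_combination (s * u - q * t) * h1 + (s * t - p * u) * h2 + (p * q - s ^ 2) * h3

theorem stab_add (hx : ∀ g : G, g • x = x) (y : L) : stabilizer G (y + x) = stabilizer G y := by
  ext g; simp [mem_stabilizer_iff, smul_add, hx g]

theorem stab_sub (hx : ∀ g : G, g • x = x) (y : L) : stabilizer G (x - y) = stabilizer G y := by
  ext g; simp [mem_stabilizer_iff, smul_sub, hx g]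

end Lat

end Vale.Agent.P287D.Dp
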