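import Vale.Agent.P287D.Dp.Lat

/-!
# P287D, block DP: the numerical table of the links of type II
-/

namespace Vale.Agent.P287D.Dp

open Finset MulAction

theorem ar_det {δ a b α β : ℤ} (ha : 1 ≤ a) (hb : 1 ≤ b) (h : a * α = b * β)
    (hd : δ * (-a * -b - (a * α) ^ 2) - a * (a * -b - a * α * b) + b * (a * (a * α) - -a * b) = 0) :
    δ * (α * β - 1) = 2 * a * α + a + b := by
  have h0 : a * b ≠ 0 := by positivity
  refine mul_left_cancel₀ h0 ?_
  linear_combination (-1 : ℤ) * hd - δ * a * α * h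

theorem ar_full {δ a b : ℤ} (hδ : 3 ≤ δ) (ha : 1 ≤ a) (hb : 1 ≤ b)
    (h : δ * (b * a - 1) = 2 * a * b + a + b) :
    (δ = 3 ∧ ((a = 2 ∧ b = 5) ∨ (a = 5 ∧ b = 2) ∨ (a = 3 ∧ b = 3))) ∨
    (δ = 4 ∧ ((a = 1 ∧ b = 5) ∨ (a = 5 ∧ b = 1) ∨ (a = 2 ∧ b = 2))) ∨
    (δ = 5 ∧ ((a = 1 ∧ b = 3) ∨ (a = 3 ∧ b = 1))) ∨
    (δ = 7 ∧ ((a = 1 ∧ b = 2) ∨ (a = 2 ∧ b = 1))) := by
  obtain ⟨u, rfl⟩ : ∃ u, δ = u + 3 := ⟨δ - 3, by ring⟩
  obtain ⟨x, rfl⟩ : ∃ x, a = x + 1 := ⟨a - 1, by ring⟩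
  obtain ⟨y, rfl⟩ : ∃ y, b = y + 1 := ⟨b - 1, by ring⟩
  have hu : 0 ≤ u := by omega
  have hx : 0 ≤ x := by omega
  have hy : 0 ≤ y := by omega
  have e : u * x * y + x * y + u * x + u * y = 4 := by linear_combination h
  have p1 := mul_nonneg (mul_nonneg hu hx) hy
  have p2 := mul_nonneg hx hy
  have p3 := mul_nonneg hu hx
  have p4 := mul_nonneg hu hy
  have b1 : x ≤ 5 := by
    by_contra c
    rcases hu.eq_or_lt with rfl | hu'
    · rcases hy.eq_or_lt with rfl | hy'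
      · simp at e
      · nlinarith
    · nlinarith
  have b2 : y ≤ 5 := by
    by_contra c
    rcases hu.eq_or_lt with rfl | hu'
    · rcases hx.eq_or_lt with rfl | hx'
      · simp at e
      · nlinarith
    · nlinarith
  interval_cases x <;> interval_cases y <;> omega

theorem ar_part {δ a b α β : ℤ} (hδ : 3 ≤ δ) (ha : 1 ≤ a) (hb : 1 ≤ b) (h : a * α = b * β)
    (h0 : 0 ≤ α) (h1 : α < b) (k0 : 0 ≤ β) (k1 : β < a) (h2 : α * (a - β) ≤ a - 1)
    (k2 : β * (b - α) ≤ b - 1) (hd : δ * (α * β - 1) = 2 * a * α + a + b) :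
    b = a ∧ α = a - 1 ∧ β = a - 1 ∧ ((δ = 3 ∧ a = 6) ∨ (δ = 4 ∧ a = 4) ∨ (δ = 6 ∧ a = 3)) := by
  have p : 1 < α * β := by
    by_contra c
    have : δ * (α * β - 1) ≤ 0 := mul_nonpos_of_nonneg_of_nonpos (by omega) (by omega)
    nlinarith
  have q1 : α * (b - α) < b := by
    have : a * (α * (b - α)) < a * b := by nlinarith
    exact lt_of_mul_lt_mul_left this (by omega)
  have q2 : β * (a - β) < a := by
    have : b * (β * (a - β)) < b * a := by nlinarith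
    exact lt_of_mul_lt_mul_left this (by omega)
  have a0 : 1 ≤ α := by
    rcases h0.eq_or_lt with rfl | c
    · simp at p
    · omega
  have b0 : 1 ≤ β := by
    rcases k0.eq_or_lt with rfl | c
    · simp at p
    · omega
  have r1 : α = 1 ∨ b - α = 1 := by
    by_contra c
    push Not at c
    have c1 : 0 ≤ α - 2 := by omega
    have c2 : 0 ≤ b - α - 2 := by omega
    nlinarith [mul_nonneg c1 c2]
  have r2 : β = 1 ∨ a - β = 1 := by
    by_contra c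
    push Not at c
    have c1 : 0 ≤ β - 2 := by omega
    have c2 : 0 ≤ a - β - 2 := by omega
    nlinarith [mul_nonneg c1 c2]
  have key : b - α = 1 ∧ a - β = 1 := by
    rcases r1 with rfl | r1 <;> rcases r2 with rfl | r2
    · simp at p
    · have : β = a - 1 := by omega
      subst this
      nlinarith
    · have : α = b - 1 := by omega
      subst this
      nlinarith
    · exact ⟨r1, r2⟩
  obtain ⟨rfl, rfl⟩ : α = b - 1 ∧ β = a - 1 := by omega
  have e : b = a := by nlinarith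
  subst e
  refine ⟨rfl, rfl, rfl, ?_⟩
  have e2 : (δ - 2) * (b - 2) = 4 := by
    refine mul_left_cancel₀ (show b ≠ 0 by omega) ?_
    linear_combination hd
  have : b ≤ 6 := by nlinarith
  interval_cases b <;> omega

namespace Lat

variable {G L : Type*} [Group G] [AddCommGroup L] [DistribMulAction G L] {Λ : Lat G L}
  {k e f : L} {Z Z' : Finset L} {α β : ℤ}

/-- Bessel -/
theorem Orb.bessel (hk : 0 < Λ.B k k) (h' : Λ.Orb k Z') {v : L} (hv : Λ.B v k = 0)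
    (h2 : Λ.B v (∑ f ∈ Z', f) = 0) : Λ.B v v + ∑ f ∈ Z', Λ.B v f ^ 2 ≤ 0 := by
  classical
  have a : ∀ g ∈ Z', Λ.B g (∑ f ∈ Z', Λ.B v f • f) = -Λ.B v g := fun g hg => by
    rw [map_sum, sum_eq_single g (fun f hf hn => by simp [h'.orth g hg f hf hn.symm])
      fun hn => absurd hg hn]
    simp [(h'.ln g hg).1]
  have b : Λ.B v (∑ f ∈ Z', Λ.B v f • f) = ∑ f ∈ Z', Λ.B v f ^ 2 := by
    rw [map_sum]; exact sum_congr rfl fun f _ => by simp [sq]
  have c : Λ.B (∑ f ∈ Z', Λ.B v f • f) (∑ f ∈ Z', Λ.B v f • f) = -∑ f ∈ Z', Λ.B v f ^ 2 := by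
    rw [LinearMap.map_sum₂, ← sum_neg_distrib]
    exact sum_congr rfl fun f hf => by
      rw [map_smul, LinearMap.smul_apply, a f hf, smul_eq_mul]; ring
  have d : Λ.B (∑ f ∈ Z', Λ.B v f • f) k = 0 := by
    rw [LinearMap.map_sum₂, ← h2, map_sum]
    exact sum_congr rfl fun f hf => by simp [Λ.symm f k, (h'.ln f hf).2]
  have := nonpos (Λ := Λ) (x := v + ∑ f ∈ Z', Λ.B v f • f) hk (by
    rw [map_add, LinearMap.add_apply, hv, d, add_zero])
  rw [map_add, map_add, LinearMap.add_apply, LinearMap.add_apply, c,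
    Λ.symm (∑ f ∈ Z', Λ.B v f • f) v, b] at this
  linarith

theorem Orb.count (hk : 3 ≤ Λ.B k k) (h : Λ.Orb k Z) (h' : Λ.Orb k Z') (hn : Z ≠ Z')
    (hα : ∀ e ∈ Z, Λ.B e (∑ f ∈ Z', f) = α) (hβ : ∀ f ∈ Z', Λ.B f (∑ e ∈ Z, e) = β) :
    0 ≤ α ∧ α ≤ Z'.card ∧ α * (Z.card - β) ≤ Z.card - 1 := by
  classical
  obtain ⟨e, he⟩ := h.ne
  have r : ∀ e ∈ Z, ∀ f ∈ Z', Λ.B e f = 0 ∨ Λ.B e f = 1 := fun e he f hf => by
    have := (h.ln e he).nn (by omega) (h'.ln f hf) (h.disj h' hn he hf)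
    have := (h.ln e he).le hk (h'.ln f hf)
    omega
  refine ⟨?_, ?_, ?_⟩
  · rw [← hα e he, map_sum]
    exact sum_nonneg fun f hf => by rcases r e he f hf with c | c <;> omega
  · rw [← hα e he, map_sum, card_eq_sum_ones]
    push_cast
    exact sum_le_sum fun f hf => by rcases r e he f hf with c | c <;> omega
  have s : ∀ e' ∈ Z, ∑ f ∈ Z', Λ.B e f * (1 - Λ.B e' f) ≤ if e' = e then 0 else 1 := by
    intro e' he'
    split_ifs with c
    · subst c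
      exact (sum_eq_zero fun f hf => by rcases r e' he f hf with c | c <;> simp [c]).le
    have b := h'.bessel (v := e - e') (by omega)
      (by simp [Λ.symm e k, Λ.symm e' k, (h.ln e he).2, (h.ln e' he').2])
      (by rw [map_sub, LinearMap.sub_apply, hα e he, hα e' he', sub_self])
    have t : ∑ f ∈ Z', Λ.B (e - e') f ^ 2 = 2 * ∑ f ∈ Z', Λ.B e f * (1 - Λ.B e' f) +
        (Λ.B e' (∑ f ∈ Z', f) - Λ.B e (∑ f ∈ Z', f)) := by
      rw [map_sum, map_sum, mul_sum, ← sum_sub_distrib, ← sum_add_distrib]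
      refine sum_congr rfl fun f hf => ?_
      rw [map_sub, LinearMap.sub_apply]
      rcases r e he f hf with c | c <;> rcases r e' he' f hf with c' | c' <;> simp [c, c']
    rw [t, hα e he, hα e' he'] at b
    simp only [map_sub, LinearMap.sub_apply, (h.ln e he).1, (h.ln e' he').1,
      h.orth e he e' he' (Ne.symm c), h.orth e' he' e he c] at b
    omega
  have s1 := sum_le_sum s
  have s2 : ∑ e' ∈ Z, (if e' = e then (0 : ℤ) else 1) = Z.card - 1 := by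
    rw [← add_sum_erase Z _ he, sum_congr rfl (g := fun _ => 1)
      fun x hx => if_neg (ne_of_mem_erase hx)]
    simp [card_erase_of_mem he, Nat.cast_sub h.ne.card_pos]
  rw [s2, sum_comm] at s1
  refine le_of_eq_of_le ?_ s1
  rw [← hα e he, map_sum, sum_mul]
  refine sum_congr rfl fun f hf => ?_
  rw [← mul_sum, ← hβ f hf, map_sum, sum_sub_distrib]
  simp [Λ.symm f]

/-- the table -/
theorem Orb.table (h : Λ.Orb k Z) (h' : Λ.Orb k Z') (hn : Z ≠ Z')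
    (hd : Dep k (∑ e ∈ Z, e) (∑ f ∈ Z', f)) : ∃ α β : ℤ,
    (∀ e ∈ Z, Λ.B e (∑ f ∈ Z', f) = α) ∧ (∀ f ∈ Z', Λ.B f (∑ e ∈ Z, e) = β) ∧
    Λ.B (∑ e ∈ Z, e) (∑ f ∈ Z', f) = Z.card * α ∧ Z.card * α = Z'.card * β ∧
    Λ.B k k * (α * β - 1) = 2 * Z.card * α + Z.card + Z'.card ∧
    (Λ.B k k ≤ 2 ∨ (α = Z'.card ∧ β = Z.card) ∨
      (Z'.card = (Z.card : ℤ) ∧ α = Z.card - 1 ∧ β = Z.card - 1 ∧ ((Λ.B k k = 3 ∧ Z.card = (6 : ℤ)) ∨
        (Λ.B k k = 4 ∧ Z.card = (4 : ℤ)) ∨ (Λ.B k k = 6 ∧ Z.card = (3 : ℤ))))) := by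
  obtain ⟨α, a1, a2⟩ := h.const h'.smul_sum
  obtain ⟨β, b1, b2⟩ := h'.const h.smul_sum
  have e : Z.card * α = Z'.card * β := by rw [← a2, ← b2, Λ.symm]
  have d := hd.det (Λ := Λ)
  rw [h.sum_sum, h'.sum_sum, a2, h.k_sum, h'.k_sum] at d
  have d' := ar_det h.pos h'.pos e d
  refine ⟨α, β, a1, b1, a2, e, d', ?_⟩
  by_cases c : Λ.B k k ≤ 2
  · exact .inl c
  obtain ⟨p0, p1, p2⟩ := h.count (by omega) h' hn a1 b1
  obtain ⟨q0, q1, q2⟩ := h'.count (by omega) h hn.symm b1 a1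
  have ha := h.pos
  have hb := h'.pos
  rcases p1.eq_or_lt with rfl | p1
  · exact .inr (.inl ⟨rfl, mul_left_cancel₀ (show (Z'.card : ℤ) ≠ 0 by omega) (by linarith)⟩)
  rcases q1.eq_or_lt with rfl | q1
  · have : α = Z'.card := mul_left_cancel₀ (show (Z.card : ℤ) ≠ 0 by omega) (by linarith)
    omega
  exact .inr (.inr (ar_part (by omega) ha hb e p0 p1 q0 q1 p2 q2 d'))

end Lat

end Vale.Agent.P287D.Dp
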