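import Vale.Agent.P287D.Dp.Lat2

/-!
# P287D, block DP: links of type II
-/

namespace Vale.Agent.P287D.Dp

open Finset MulAction

/-- `[a] + [b] = [c] + [d]` by a matching -/
def Bal (a b c d : Prop) : Prop := ((a ↔ c) ∧ (b ↔ d)) ∨ ((a ↔ d) ∧ (b ↔ c))

theorem Bal.symm {a b c d : Prop} (h : Bal a b c d) : Bal c d a b := by
  unfold Bal at *; tauto

/-- the class of subgroups contains none of index one or two -/
def Tp {G : Type*} [Group G] (T : Set G → Prop) : Prop :=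
  ∀ H : Subgroup G, T H → H.index ≠ 1 ∧ H.index ≠ 2

/-- the orbit is of type `T` -/
def So {G L : Type*} [Group G] [MulAction G L] (T : Set G → Prop) (Z : Finset L) : Prop :=
  ∃ e ∈ Z, T (stabilizer G e)

namespace Lat

variable {G L : Type*} [Group G] [AddCommGroup L] [DistribMulAction G L] (Λ : Lat G L)

/-- the potential of a del Pezzo surface -/
def Po (T : Set G → Prop) (k : L) : Prop :=
  (Λ.B k k = 5 ∨ Λ.B k k = 6) ∧ ∃ C, Λ.Cn k C ∧ T (stabilizer G C)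

variable {Λ} {T : Set G → Prop} {k k' e f : L} {Z Z' : Finset L}

theorem Orb.not_so (h : Λ.Orb k Z) (hT : Tp T) (c : (Z.card : ℤ) ≤ 2) : ¬ So T Z := by
  rintro ⟨e, he, t⟩
  have := hT _ t
  have := h.pos
  rw [h.index he] at *
  omega

theorem po_iff (D : L → L) (c : ℤ) (hd : Λ.B k' k' = 5 ∨ Λ.B k' k' = 6)
    (hD : ∀ e ∈ Z, Λ.Cn k' (D e)) (hs : ∑ e ∈ Z, D e = c • k') (hc : 2 * c < Z.card)
    (st : ∀ e, stabilizer G (D e) = stabilizer G e) : So T Z ↔ Λ.Po T k' := by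
  refine ⟨fun ⟨e, he, t⟩ => ⟨hd, D e, hD e he, by rwa [st]⟩, fun ⟨_, C, hC, t⟩ => ?_⟩
  obtain ⟨e, he, rfl⟩ := Cn.all (by omega) Z D c hD hs hc hC
  exact ⟨e, he, by rwa [st] at t⟩

theorem rel (hk : 0 < Λ.B k k) (E F : L) (x y z : ℤ)
    (h1 : x * Λ.B k k + y * Λ.B k E + z * Λ.B k F = 0)
    (h2 : y * (x * Λ.B k E + y * Λ.B E E + z * Λ.B E F) +
      z * (x * Λ.B k F + y * Λ.B E F + z * Λ.B F F) = 0) : x • k + y • E + z • F = 0 := by
  refine zero_of hk ?_ (le_of_eq ?_) <;>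
    simp only [map_add, map_smul, LinearMap.add_apply, LinearMap.smul_apply, smul_eq_mul,
      Λ.symm E k, Λ.symm F k, Λ.symm F E]
  · exact h1
  · linear_combination (-x) * h1 - h2

theorem Orb.nn (hk : 0 < Λ.B k k) (h : Λ.Orb k Z) (h' : Λ.Orb k Z') (hn : Z ≠ Z') (he : e ∈ Z) :
    0 ≤ Λ.B e (∑ f ∈ Z', f) := by
  rw [map_sum]
  exact sum_nonneg fun f hf => (h.ln e he).nn hk (h'.ln f hf) (h.disj h' hn he hf)

theorem po_map (ι : L → L) (hB : ∀ x y, Λ.B (ι x) (ι y) = Λ.B x y)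
    (st : ∀ x, stabilizer G (ι x) = stabilizer G x) (h : Λ.Po T k) : Λ.Po T (ι k) := by
  obtain ⟨d, C, hC, t⟩ := h
  exact ⟨by rwa [hB], ι C, ⟨by rw [hB, hC.1], by rw [hB, hC.2]⟩, by rwa [st]⟩

/-- Bertini and Geiser -/
theorem low (hG : ∀ g : G, g • k = k) (hk : 0 < Λ.B k k) (h2 : Λ.B k k ≤ 2) (h : Λ.Orb k Z)
    (h' : Λ.Orb k Z') (hm : 2 * (Z.card * Z'.card) < Λ.B k k * Λ.B (∑ e ∈ Z, e) (∑ f ∈ Z', f)) :
    (So T Z ↔ So T Z') ∧ (Λ.Po T (k + ∑ e ∈ Z, e) ↔ Λ.Po T (k + ∑ f ∈ Z', f)) := by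
  obtain ⟨c, hc⟩ : ∃ c : ℤ, c * Λ.B k k = 2 := by
    obtain e | e : Λ.B k k = 1 ∨ Λ.B k k = 2 := by omega
    · exact ⟨2, by omega⟩
    · exact ⟨1, by omega⟩
  let ι : L →ₗ[ℤ] L := (c • Λ.B k).smulRight k - LinearMap.id
  have v : ∀ x, ι x = (c * Λ.B k x) • k - x := fun x => rfl
  have vB : ∀ x y, Λ.B (ι x) y = c * Λ.B k x * Λ.B k y - Λ.B x y := fun x y => by simp [v]
  have vk : ∀ x, Λ.B k (ι x) = Λ.B k x := fun x => by
    rw [Λ.symm, vB, Λ.symm x k]; linear_combination Λ.B k x * hc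
  have hB : ∀ x y, Λ.B (ι x) (ι y) = Λ.B x y := fun x y => by
    rw [vB, vk, Λ.symm x, vB, Λ.symm y x]; ring
  have ii : ∀ x, ι (ι x) = x := fun x => by rw [v, vk, v]; abel
  have ik : ι k = k := by rw [v, hc, two_smul]; abel
  have ig : ∀ (g : G) x, g • ι x = ι (g • x) := fun g x => by
    rw [v, v, smul_sub, smul_comm, hG, Λ.symm k (g • x), B_inv hG, Λ.symm x]
  have st : ∀ x, stabilizer G (ι x) = stabilizer G x := fun x => by
    ext g
    simp only [mem_stabilizer_iff, ig]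
    exact ⟨fun q => by simpa [ii] using congrArg ι q, fun q => by rw [q]⟩
  obtain ⟨e, he, f, hf, q⟩ : ∃ e ∈ Z, ∃ f ∈ Z', ι e = f := by
    by_contra n
    push Not at n
    have : 0 ≤ Λ.B (ι (∑ e ∈ Z, e)) (∑ f ∈ Z', f) := by
      rw [map_sum ι, LinearMap.map_sum₂]
      refine sum_nonneg fun e he => ?_
      rw [map_sum]
      exact sum_nonneg fun f hf => Ln.nn hk ⟨by rw [hB, (h.ln e he).1], by rw [vk, (h.ln e he).2]⟩
        (h'.ln f hf) (n e he f hf)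
    rw [vB, h.k_sum, h'.k_sum] at this
    have := mul_nonneg hk.le this
    have e : Λ.B k k * (c * Z.card * Z'.card) = 2 * (Z.card * Z'.card) := by
      linear_combination (Z.card * Z'.card : ℤ) * hc
    linarith
  have m1 : ∀ x ∈ Z, ι x ∈ Z' := fun x hx => by
    obtain ⟨g, rfl⟩ := h.tr e he x hx
    rw [← ig, q]; exact h'.mem g f hf
  have m2 : ∀ x ∈ Z', ι x ∈ Z := fun x hx => by
    obtain ⟨g, rfl⟩ := h'.tr f hf x hx
    rw [← ig, ← q, ii]; exact h.mem g e he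
  have s : ι (k + ∑ e ∈ Z, e) = k + ∑ f ∈ Z', f := by
    rw [map_add, ik, map_sum]
    exact congrArg _ (sum_bij' (fun x _ => ι x) (fun x _ => ι x) m1 m2 (fun x _ => ii x)
      (fun x _ => ii x) fun _ _ => rfl)
  refine ⟨⟨fun ⟨x, hx, t⟩ => ⟨_, m1 x hx, by rwa [st]⟩, fun ⟨x, hx, t⟩ => ⟨_, m2 x hx, by rwa [st]⟩⟩,
    fun p => s ▸ po_map ι hB st p, fun p => ?_⟩
  have := po_map ι hB st p
  rwa [← s, ii] at this

theorem Orb.zo (hk : 3 ≤ Λ.B k k) (h' : Λ.Orb k Z') (he : Λ.Ln k e) (hn : e ∉ Z') :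
    ∀ f ∈ Z', Λ.B e f = 0 ∨ Λ.B e f = 1 := fun f hf => by
  have := he.nn (by omega) (h'.ln f hf) fun q => hn (q ▸ hf)
  have := he.le hk (h'.ln f hf)
  omega

theorem Orb.card_zero (hk : 3 ≤ Λ.B k k) (h' : Λ.Orb k Z') (he : Λ.Ln k e) (hn : e ∉ Z') :
    (((Z'.filter fun f => Λ.B e f = 0).card : ℕ) : ℤ) = Z'.card - Λ.B e (∑ f ∈ Z', f) := by
  rw [card_filter, map_sum, card_eq_sum_ones]
  push_cast
  rw [← sum_sub_distrib]
  exact sum_congr rfl fun f hf => by rcases h'.zo hk he hn f hf with c | c <;> simp [c]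

theorem Orb.uniq (hk : 3 ≤ Λ.B k k) (h' : Λ.Orb k Z') (he : Λ.Ln k e) (hn : e ∉ Z')
    (hs : Λ.B e (∑ f ∈ Z', f) = Z'.card - 1) :
    ∃ f ∈ Z', Λ.B e f = 0 ∧ ∀ f' ∈ Z', Λ.B e f' = 0 → f' = f := by
  have := h'.card_zero hk he hn
  obtain ⟨f, hf⟩ := card_eq_one.1 (show (Z'.filter fun f => Λ.B e f = 0).card = 1 by omega)
  have m : ∀ x, x ∈ Z' ∧ Λ.B e x = 0 ↔ x = f := fun x => by
    rw [← mem_singleton (a := f), ← hf, mem_filter]
  exact ⟨f, ((m f).2 rfl).1, ((m f).2 rfl).2, fun x a b => (m x).1 ⟨a, b⟩⟩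

theorem part (hk : 3 ≤ Λ.B k k) (h : Λ.Orb k Z) (h' : Λ.Orb k Z') (hn : Z ≠ Z')
    (a : ∀ e ∈ Z, Λ.B e (∑ f ∈ Z', f) = Z'.card - 1)
    (b : ∀ f ∈ Z', Λ.B f (∑ e ∈ Z, e) = Z.card - 1) (s : So T Z) : So T Z' := by
  obtain ⟨e, he, t⟩ := s
  obtain ⟨f, hf, z, u⟩ := h'.uniq hk (h.ln e he) (fun q => h.disj h' hn he q rfl) (a e he)
  obtain ⟨e', -, -, u'⟩ := h.uniq hk (h'.ln f hf) (fun q => h.disj h' hn q hf rfl) (b f hf)
  refine ⟨f, hf, ?_⟩
  have : stabilizer G f = stabilizer G e := by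
    ext g
    simp only [mem_stabilizer_iff]
    refine ⟨fun q => ?_, fun q => u _ (h'.mem g f hf) ?_⟩
    · rw [u' _ (h.mem g e he) ?_, u' e he (by rwa [Λ.symm])]
      rw [← q, Λ.inv, Λ.symm, z]
    · rw [← q, Λ.inv, z]
  rwa [this]

/-- the complete cases, `b ≤ a` -/
theorem full (hG : ∀ g : G, g • k = k) (h : Λ.Orb k Z) (h' : Λ.Orb k Z')
    (a : ∀ e ∈ Z, Λ.B e (∑ f ∈ Z', f) = Z'.card)
    (m : Λ.B (∑ e ∈ Z, e) (∑ f ∈ Z', f) = Z.card * Z'.card) {δ x y : ℤ} (hδ : Λ.B k k = δ)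
    (hx : (Z.card : ℤ) = x) (hy : (Z'.card : ℤ) = y) :
    (((δ = 4 ∧ x = 5) ∨ (δ = 5 ∧ x = 3)) ∧ y = 1) ∨ (δ = 3 ∧ ((x = 5 ∧ y = 2) ∨ (x = 3 ∧ y = 3))) →
      (So T Z ↔ Λ.Po T (k + ∑ f ∈ Z', f)) := by
  have kE := h.k_sum
  have kF := h'.k_sum
  have EE := h.sum_sum
  have FF := h'.sum_sum
  have d := h'.deg
  have gF := h'.smul_sum
  generalize ∑ f ∈ Z', f = F at *
  rintro (⟨c, rfl⟩ | ⟨rfl, c⟩)
  · refine po_iff (fun e => e + F) (6 - δ) (by omega) (fun e he => ⟨?_, ?_⟩) ?_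
      (by omega) (stab_add gF)
    · simp only [map_add, LinearMap.add_apply, (h.ln e he).1, a e he, FF, Λ.symm F e]; omega
    · simp only [map_add, LinearMap.add_apply, (h.ln e he).2, a e he, FF, kF, Λ.symm F e]; omega
    · rw [sum_add_distrib, sum_const, ← natCast_zsmul, hx]
      rcases c with ⟨rfl, rfl⟩ | ⟨rfl, rfl⟩
      · have := rel (Λ := Λ) (k := k) (by omega) (∑ e ∈ Z, e) F (-2) 1 3 (by omega) (by rw [m]; nlinarith)
        linear_combination (norm := module) this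
      · have := rel (Λ := Λ) (k := k) (by omega) (∑ e ∈ Z, e) F (-1) 1 2 (by omega) (by rw [m]; nlinarith)
        linear_combination (norm := module) this
  · refine po_iff (fun e => k - e) (4 - y) (by omega) (fun e he => ⟨?_, ?_⟩) ?_
      (by omega) (stab_sub hG)
    · simp only [map_sub, LinearMap.sub_apply, (h.ln e he).1, (h.ln e he).2, Λ.symm e k]; omega
    · simp only [map_add, map_sub, LinearMap.add_apply, (h.ln e he).2, a e he, kF, Λ.symm F e,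
        Λ.symm F k]; omega
    · rw [sum_sub_distrib, sum_const, ← natCast_zsmul, hx]
      rcases c with ⟨rfl, rfl⟩ | ⟨rfl, rfl⟩
      · have := rel (Λ := Λ) (k := k) (by omega) (∑ e ∈ Z, e) F 3 (-1) (-2) (by omega) (by rw [m]; nlinarith)
        linear_combination (norm := module) this
      · have := rel (Λ := Λ) (k := k) (by omega) (∑ e ∈ Z, e) F 2 (-1) (-1) (by omega) (by rw [m]; nlinarith)
        linear_combination (norm := module) this

theorem two (hG : ∀ g : G, g • k = k) (h : Λ.Orb k Z) (h' : Λ.Orb k Z')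
    (m : Λ.B (∑ e ∈ Z, e) (∑ f ∈ Z', f) = 4) (hδ : Λ.B k k = 4) (hx : (Z.card : ℤ) = 2)
    (hy : (Z'.card : ℤ) = 2) (p : Λ.Po T (k + ∑ e ∈ Z, e)) : Λ.Po T (k + ∑ f ∈ Z', f) := by
  obtain ⟨-, C, hC, t⟩ := p
  have kE := h.k_sum
  have kF := h'.k_sum
  have EE := h.sum_sum
  have FF := h'.sum_sum
  have d := h.deg
  have d' := h'.deg
  have o : Λ.B (∑ e ∈ Z, e) C = 0 := by
    rw [LinearMap.map_sum₂]
    refine sum_eq_zero fun e he => hC.orth (by omega) (h.ln e he).1 ?_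
    rw [map_add, LinearMap.add_apply, (h.ln e he).2, Λ.symm, h.e_sum he]; rfl
  have r := congrArg (Λ.B · C) (rel (Λ := Λ) (k := k) (by omega) (∑ e ∈ Z, e) (∑ f ∈ Z', f) 1 (-1) (-1) (by omega)
    (by omega))
  have c2 := hC.2
  simp only [map_add, map_smul, LinearMap.add_apply, LinearMap.smul_apply, smul_eq_mul, map_zero,
    LinearMap.zero_apply] at r c2
  refine ⟨by omega, k - C, ⟨?_, ?_⟩, by rwa [stab_sub hG]⟩
  · simp only [map_sub, LinearMap.sub_apply, hC.1, Λ.symm C k]; omega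
  · simp only [map_add, map_sub, LinearMap.add_apply, Λ.symm (∑ f ∈ Z', f) k]; omega

/-- **links of type II** -/
theorem typeII (hT : Tp T) (hG : ∀ g : G, g • k = k) (hk : 0 < Λ.B k k) (h : Λ.Orb k Z)
    (h' : Λ.Orb k Z') (hd : Z ≠ Z' → Dep k (∑ e ∈ Z, e) (∑ f ∈ Z', f)) :
    Bal (So T Z) (Λ.Po T (k + ∑ e ∈ Z, e)) (So T Z') (Λ.Po T (k + ∑ f ∈ Z', f)) := by
  by_cases hn : Z = Z'
  · subst hn; exact .inl ⟨.rfl, .rfl⟩
  obtain ⟨α, β, a, b, m, e, t, c⟩ := h.table h' hn (hd hn)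
  have ha := h.pos
  have hb := h'.pos
  have d := h.deg
  have d' := h'.deg
  have n : ∀ {x : L}, Λ.B x x ≠ 5 → Λ.B x x ≠ 6 → ¬ Λ.Po T x := fun u v w => w.1.elim u v
  by_cases h2 : Λ.B k k ≤ 2
  · refine .inl (low hG hk h2 h h' ?_)
    obtain ⟨x, hx⟩ := h.ne
    have p : 0 ≤ α := a x hx ▸ h.nn hk h' hn hx
    rw [m]
    by_contra q
    have q := mul_le_mul_of_nonneg_left (not_lt.1 q) (mul_nonneg (by omega : (0 : ℤ) ≤ Z.card) p)
    have r : (0 : ℤ) < Z.card * Z'.card * (Λ.B k k + Z.card + Z'.card) := by positivity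
    have : Λ.B k k * (Z.card * α) * (Z.card * α) = Z.card * Z'.card * (Λ.B k k * (α * β)) := by
      linear_combination Λ.B k k * (Z.card * α) * e
    nlinarith
  rcases c with c | ⟨rfl, rfl⟩ | ⟨c1, rfl, rfl, c⟩
  · omega
  · have m' : Λ.B (∑ f ∈ Z', f) (∑ e ∈ Z, e) = Z'.card * Z.card := by rw [Λ.symm, m, mul_comm]
    have F := full (T := T) hG h h' a m rfl rfl rfl
    have F' := full (T := T) hG h' h b m' rfl rfl rfl
    have s := h.not_so hT
    have s' := h'.not_so hT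
    rcases ar_full (by omega) ha hb t with ⟨u, v | v | v⟩ | ⟨u, v | v | v⟩ | ⟨u, v | v⟩ | ⟨u, v | v⟩
    · exact .inr ⟨iff_of_false (s (by omega)) (n (by omega) (by omega)), (F' (by omega)).symm⟩
    · exact .inr ⟨F (by omega), iff_of_false (n (by omega) (by omega)) (s' (by omega))⟩
    · exact .inr ⟨F (by omega), (F' (by omega)).symm⟩
    · exact .inr ⟨iff_of_false (s (by omega)) (n (by omega) (by omega)), (F' (by omega)).symm⟩
    · exact .inr ⟨F (by omega), iff_of_false (n (by omega) (by omega)) (s' (by omega))⟩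
    · exact .inl ⟨iff_of_false (s (by omega)) (s' (by omega)),
        two hG h h' (by rw [m, v.1, v.2]; rfl) u v.1 v.2,
        two hG h' h (by rw [m', v.1, v.2]; rfl) u v.2 v.1⟩
    · exact .inr ⟨iff_of_false (s (by omega)) (n (by omega) (by omega)), (F' (by omega)).symm⟩
    · exact .inr ⟨F (by omega), iff_of_false (n (by omega) (by omega)) (s' (by omega))⟩
    · exact .inl ⟨iff_of_false (s (by omega)) (s' (by omega)),
        iff_of_false (n (by omega) (by omega)) (n (by omega) (by omega))⟩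
    · exact .inl ⟨iff_of_false (s (by omega)) (s' (by omega)),
        iff_of_false (n (by omega) (by omega)) (n (by omega) (by omega))⟩
  · exact .inl ⟨⟨part (by omega) h h' hn (by rwa [c1]) b, part (by omega) h' h (Ne.symm hn) b
      (by rwa [c1])⟩, iff_of_false (n (by omega) (by omega)) (n (by omega) (by omega))⟩

end Lat

end Vale.Agent.P287D.Dp
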