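import Vale.Agent.P287D.Dp.Lat3

/-!
# P287D, block DP: conic bundles, links of the types I and IV
-/

namespace Vale.Agent.P287D.Dp

open Finset MulAction

/-- the stabiliser of the pair `x`, `3 f - x` -/
def Hs (G : Type*) {L : Type*} [Group G] [AddCommGroup L] [MulAction G L] (f x : L) : Set G :=
  {g | g • x = x ∨ g • x = (3 : ℤ) • f - x}

namespace Lat

variable {G L : Type*} [Group G] [AddCommGroup L] [DistribMulAction G L] (Λ : Lat G L)

/-- three orthogonal lines in fibres -/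
structure Tri (k f : L) (e : Fin 3 → L) : Prop where
  ee : ∀ i j, Λ.B (e i) (e j) = if i = j then -1 else 0
  ke : ∀ i, Λ.B k (e i) = 1
  fe : ∀ i, Λ.B f (e i) = 0

/-- orthonormal exceptional classes -/
structure Exc (k f : L) (A : Finset L) : Prop where
  sq : ∀ e ∈ A, Λ.B e e = -1
  orth : ∀ e ∈ A, ∀ e' ∈ A, e ≠ e' → Λ.B e e' = 0
  k0 : ∀ e ∈ A, Λ.B k e = 0
  f0 : ∀ e ∈ A, Λ.B f e = 0

variable {Λ} {T : Set G → Prop} {k k' f f' x y s : L} {Z A A' : Finset L} {e : Fin 3 → L}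

theorem Tri.ln (h : Λ.Tri k f e) (i : Fin 3) : Λ.Ln k (e i) := ⟨by simpa using h.ee i i, h.ke i⟩

theorem Ln.compl (hC : Λ.Cn k f) (hx : Λ.Ln k x) (fx : Λ.B f x = 0) : Λ.Ln k (f - x) :=
  ⟨by simp [hC.1, hx.1, fx, Λ.symm x f], by simp [hC.2, hx.2]⟩

theorem Tri.flip (h : Λ.Tri k f e) (hC : Λ.Cn k f) (P : Fin 3 → Prop) [DecidablePred P] :
    Λ.Tri k f fun i => if P i then e i else f - e i := by
  have a := fun i => (Λ.symm (e i) f).trans (h.fe i)
  refine ⟨fun i j => ?_, fun i => ?_, fun i => ?_⟩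
  · by_cases c : i = j
    · subst c
      by_cases p : P i <;> simp [p, h.ee, h.fe, a, hC.1]
    · by_cases p : P i <;> by_cases q : P j <;> simp [p, q, c, h.ee, h.fe, a, hC.1]
  · by_cases p : P i <;> simp [p, h.ke, hC.2]
  · by_cases p : P i <;> simp [p, h.fe, hC.1]

/-- a swapped class has degree one on every invariant model -/
theorem swap_deg (hG : ∀ g : G, g • k = k) (kf : Λ.B k f = 2) {g : G} (h : g • x = f - x) :
    Λ.B k x = 1 := by
  have := B_inv (Λ := Λ) hG g x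
  rw [h, map_sub, LinearMap.sub_apply, Λ.symm f, Λ.symm x] at this
  omega

theorem Tri.move (h : Λ.Tri k f e) (hG : ∀ g : G, g • k' = k') (kf : Λ.B k' f = 2)
    (sw : ∀ i, ∃ g : G, g • e i = f - e i) : Λ.Tri k' f e :=
  ⟨h.ee, fun i => let ⟨_, q⟩ := sw i; swap_deg hG kf q, h.fe⟩

theorem pair (hC : Λ.Cn k f) (hx : Λ.Ln k x) (hy : Λ.Ln k y) (fx : Λ.B f x = 0)
    (fy : Λ.B f y = 0) : y = x ∨ y = f - x ∨ Λ.B x y = 0 := by
  have p : 0 < Λ.B (k + (Λ.B k k ^ 2 + 1) • f) (k + (Λ.B k k ^ 2 + 1) • f) := by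
    simp only [map_add, map_smul, LinearMap.add_apply, LinearMap.smul_apply, smul_eq_mul, hC.1,
      hC.2, Λ.symm f k]
    nlinarith
  have l : ∀ {z}, Λ.Ln k z → Λ.B f z = 0 → Λ.Ln (k + (Λ.B k k ^ 2 + 1) • f) z := fun h q =>
    ⟨h.1, by simp [h.2, q]⟩
  by_contra n
  push Not at n
  have a := (l hx fx).nn p (l hy fy) n.1.symm
  have b := (l (hx.compl hC fx) (by simp [hC.1, fx])).nn p (l hy fy) n.2.1.symm
  rw [map_sub, LinearMap.sub_apply, fy] at b
  exact n.2.2 (by omega)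

/-- the orbit of a vertical line which is not swapped -/
theorem orb_of (hG : ∀ g : G, g • k = k) (hf : ∀ g : G, g • f = f) (hC : Λ.Cn k f) (hx : Λ.Ln k x)
    (fx : Λ.B f x = 0) (fin : (orbit G x).Finite) (n : ∀ g : G, g • x ≠ f - x) :
    Λ.Orb k fin.toFinset ∧ Λ.B f (∑ y ∈ fin.toFinset, y) = 0 := by
  have a : ∀ g : G, Λ.Ln k (g • x) := fun g =>
    ⟨by rw [Λ.inv, hx.1], by rw [Λ.symm, B_inv hG, Λ.symm, hx.2]⟩
  have b : ∀ g : G, Λ.B f (g • x) = 0 := fun g => by rw [Λ.symm, B_inv hf, Λ.symm, fx]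
  refine ⟨⟨⟨x, by simp⟩, ?_, ?_, ?_, ?_⟩, ?_⟩
  · simp only [Set.Finite.mem_toFinset]
    rintro _ ⟨g, rfl⟩; exact a g
  · simp only [Set.Finite.mem_toFinset]
    rintro _ ⟨g, rfl⟩ _ ⟨g', rfl⟩ c
    rcases pair hC (a g) (a g') (b g) (b g') with q | q | q
    · exact absurd q.symm c
    · exact absurd (by rw [mul_smul, q, smul_sub, hf, inv_smul_smul]) (n (g⁻¹ * g'))
    · exact q
  · simp only [Set.Finite.mem_toFinset]
    rintro g _ ⟨g', rfl⟩; exact ⟨g * g', mul_smul _ _ _⟩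
  · simp only [Set.Finite.mem_toFinset]
    rintro _ ⟨g, rfl⟩ _ ⟨g', rfl⟩; exact ⟨g' * g⁻¹, by simp [mul_smul]⟩
  · rw [map_sum]
    refine sum_eq_zero fun y hy => ?_
    obtain ⟨g, rfl⟩ := fin.mem_toFinset.1 hy
    exact b g

/-- relative Picard number one: vertical lines are swapped -/
theorem swap_of_rk (hG : ∀ g : G, g • k = k) (hf : ∀ g : G, g • f = f) (hC : Λ.Cn k f)
    (hx : Λ.Ln k x) (fx : Λ.B f x = 0) (fin : (orbit G x).Finite)
    (rk : (∀ g : G, g • ∑ y ∈ fin.toFinset, y = ∑ y ∈ fin.toFinset, y) →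
      Dep k f (∑ y ∈ fin.toFinset, y)) : ∃ g : G, g • x = f - x := by
  by_contra n
  push Not at n
  obtain ⟨o, q⟩ := orb_of hG hf hC hx fx fin n
  have d := (rk o.smul_sum).det (Λ := Λ)
  have := o.pos
  rw [o.sum_sum, q, hC.1, hC.2] at d
  omega

theorem Exc.sum (h : Λ.Exc k f A) (hx : x ∈ A) : Λ.B x (∑ y ∈ A, y) = -1 := by
  classical
  rw [map_sum, sum_eq_single x (fun y hy c => h.orth x hx y hy c.symm) fun c => absurd hx c]
  exact h.sq x hx

theorem Exc.ln (h : Λ.Exc k f A) (hx : x ∈ A) : Λ.Ln (k - ∑ y ∈ A, y) x :=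
  ⟨h.sq x hx, by rw [map_sub, LinearMap.sub_apply, h.k0 x hx, Λ.symm, h.sum hx]; rfl⟩

theorem Exc.deg (h : Λ.Exc k f A) :
    Λ.B (k - ∑ y ∈ A, y) (k - ∑ y ∈ A, y) = Λ.B k k - A.card := by
  have a : Λ.B k (∑ y ∈ A, y) = 0 := by rw [map_sum]; exact sum_eq_zero h.k0
  have b : Λ.B (∑ y ∈ A, y) (∑ y ∈ A, y) = -A.card := by
    rw [LinearMap.map_sum₂, sum_congr rfl fun y hy => h.sum hy]; simp
  simp only [map_sub, LinearMap.sub_apply, a, b, Λ.symm (∑ y ∈ A, y) k]; ring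

/-- **comparison of two conic bundle models** through a common blow up -/
theorem deg_le (hG : ∀ g : G, g • k = k) (hC : Λ.Cn k f) (h : Λ.Exc k f A) (h' : Λ.Exc k' f A')
    (w : k - ∑ y ∈ A, y = k' - ∑ y ∈ A', y)
    (sw : ∀ x ∈ A, (∀ y ∈ A', Λ.B x y = 0) → ∃ g : G, g • x = f - x) : Λ.B k k ≤ Λ.B k' k' := by
  have c : Λ.Cn (k - ∑ y ∈ A, y) f := ⟨hC.1, by
    rw [map_sub, LinearMap.sub_apply, hC.2, Λ.symm, map_sum, sum_eq_zero h.f0]; rfl⟩
  have a : ∀ x ∈ A, ∃ y ∈ A', y = x ∨ y = f - x := fun x hx => by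
    by_contra n
    push Not at n
    obtain ⟨g, q⟩ := sw x hx fun y hy =>
      ((pair c (h.ln hx) (w ▸ h'.ln hy) (h.f0 x hx) (h'.f0 y hy)).resolve_left
        (n y hy).1).resolve_left (n y hy).2
    have := swap_deg hG hC.2 q
    rw [h.k0 x hx] at this
    omega
  choose! j j1 j2 using a
  have b : A.card ≤ A'.card := card_le_card_of_injOn j j1 fun x hx y hy q => by
    have u := h.k0 x hx
    have v := h.k0 y hy
    have r := hC.2
    rcases j2 x hx with p | p <;> rcases j2 y hy with p' | p' <;> rw [p, p'] at q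
    · exact q
    · rw [q, map_sub] at u; omega
    · rw [← q, map_sub] at v; omega
    · exact sub_right_injective q
  have d := h.deg
  rw [w, h'.deg] at d
  omega

/-- a section and three vertical lines -/
theorem Tri.deg (h : Λ.Tri k f e) (hk : 3 ≤ Λ.B k k) (hC : Λ.Cn k f) (hs : Λ.Ln k s)
    (fs : Λ.B f s = 1) : Λ.B k k ≤ 5 := by
  have t := h.flip hC fun i => Λ.B (e i) s = 0
  have z : ∀ i, Λ.B (if Λ.B (e i) s = 0 then e i else f - e i) s = 0 := fun i => by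
    split_ifs with c
    · exact c
    · have := (h.ln i).nn (by omega) hs fun q => by have := h.fe i; rw [q] at this; omega
      have := (h.ln i).le hk hs
      rw [map_sub, LinearMap.sub_apply]; omega
  obtain ⟨l, t, z⟩ : ∃ l : Fin 3 → L, Λ.Tri k f l ∧ ∀ i, Λ.B (l i) s = 0 := ⟨_, t, z⟩
  have a := fun i => (Λ.symm (l i) f).trans (t.fe i)
  have b := fun i => (Λ.symm (l i) k).trans (t.ke i)
  have c := fun i => (Λ.symm s (l i)).trans (z i)
  have := nonpos (Λ := Λ) (k := f + s) (x := k - (2 : ℤ) • s - (3 : ℤ) • f + (l 0 + l 1 + l 2))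
    (by simp [hC.1, hs.1, fs, Λ.symm s f])
    (by simp [hC.1, hC.2, hs.1, hs.2, fs, Λ.symm s f, a, z])
  simp [hC.1, hC.2, hs.1, hs.2, fs, Λ.symm s f, Λ.symm s k, Λ.symm f k, a, b, c, z, t.ee, t.ke,
    t.fe] at this
  omega

/-- **links of type IV** -/
theorem typeIV (hC : Λ.Cn k f) (hC' : Λ.Cn k f') (hn : f ≠ f') (hd : Dep k f f')
    (h5 : 5 ≤ Λ.B k k) : ¬ Λ.Ln k x := by
  intro hx
  have d := hd.det (Λ := Λ)
  have p := hC.pos (by omega) hC' hn
  rw [hC.1, hC.2, hC'.1, hC'.2] at d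
  have e : Λ.B k k * Λ.B f f' = 8 :=
    mul_left_cancel₀ (show Λ.B f f' ≠ 0 by omega) (by linear_combination -d)
  have m : Λ.B f f' = 1 := by
    by_contra c
    have : 2 ≤ Λ.B f f' := by omega
    nlinarith
  rw [m] at e
  have r := congrArg (Λ.B x) (rel (Λ := Λ) (k := k) (by omega) f f' 1 (-2) (-2)
    (by rw [hC.2, hC'.2]; omega) (by rw [hC.1, hC.2, hC'.1, hC'.2, m]; rfl))
  simp only [map_add, map_smul, smul_eq_mul, map_zero, Λ.symm x k, hx.2] at r
  omega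

theorem Orb.tab1 (hf : ∀ g : G, g • f = f) (hk : 0 < Λ.B k k) (h : Λ.Orb k Z) (hC : Λ.Cn k f)
    (hd : Dep k (∑ e ∈ Z, e) f) :
    (Λ.B k k = 3 ∧ (Z.card : ℤ) = 1) ∨ ((∀ x ∈ Z, Λ.B x f = 1) ∧ ((Λ.B k k = 8 ∧ (Z.card : ℤ) = 1) ∨
      (Λ.B k k = 6 ∧ (Z.card : ℤ) = 2) ∨ (Λ.B k k = 5 ∧ (Z.card : ℤ) = 4))) := by
  obtain ⟨α, a1, a2⟩ := h.const hf
  obtain ⟨x, hx⟩ := h.ne
  have p : 0 ≤ α := a1 x hx ▸ hC.ln_nn hk (h.ln x hx)
  have ha := h.pos
  have d := hd.det (Λ := Λ)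
  rw [h.sum_sum, a2, h.k_sum, hC.1, hC.2] at d
  generalize (Z.card : ℤ) = a, Λ.B k k = δ at *
  have e : a * α * (δ * α - 4) = 4 :=
    mul_left_cancel₀ (show a ≠ 0 by omega) (by linear_combination -d)
  have p1 : 1 ≤ α := by
    rcases p.eq_or_lt with rfl | c
    · simp at e
    · omega
  have p2 : 0 < a * α := by positivity
  have p3 : 1 ≤ δ * α - 4 := by
    by_contra c
    nlinarith
  have p4 : a * α ≤ 4 := by nlinarith
  have p5 : a ≤ 4 := by nlinarith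
  have p6 : α ≤ 4 := by nlinarith
  interval_cases a <;> interval_cases α <;> first
    | omega
    | exact .inr ⟨a1, by omega⟩

section four

variable (h : Λ.Orb k Z) (hC : Λ.Cn k f) (h5 : Λ.B k k = 5) (h4 : (Z.card : ℤ) = 4)
  (h1 : ∀ x ∈ Z, Λ.B x f = 1)
include h hC h5 h4 h1

theorem four_rel : ∑ x ∈ Z, x = (2 : ℤ) • k - (3 : ℤ) • f := by
  have a : Λ.B (∑ x ∈ Z, x) f = 4 := by
    rw [LinearMap.map_sum₂, sum_congr rfl h1]; simpa using h4
  have := rel (Λ := Λ) (k := k) (by omega) (∑ x ∈ Z, x) f 2 (-1) (-3)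
    (by rw [h.k_sum, hC.2]; omega) (by rw [h.k_sum, h.sum_sum, hC.1, hC.2, a]; omega)
  linear_combination (norm := module) -this

omit hC h5 h4 in
theorem four_hs (hG : ∀ g : G, g • k = k) (hx : x ∈ Z) :
    Hs G f (k - (2 : ℤ) • x) = stabilizer G x := by
  ext g
  simp only [Hs, Set.mem_ofPred_eq, SetLike.mem_coe, mem_stabilizer_iff, smul_sub, hG,
    smul_comm g (2 : ℤ)]
  refine ⟨?_, fun q => .inl (by rw [q])⟩
  rintro (q | q)
  · by_contra c
    have := congrArg (Λ.B x) q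
    simp only [map_sub, map_smul, smul_eq_mul, (h.ln x hx).1,
      h.orth x hx _ (h.mem g x hx) (Ne.symm c)] at this
    omega
  · have := congrArg (Λ.B x) q
    simp only [map_sub, map_smul, smul_eq_mul, h1 x hx] at this
    omega

theorem four_swap (hG : ∀ g : G, g • k = k) (hf : ∀ g : G, g • f = f) (hx : x ∈ Z) (hy : y ∈ Z)
    (hl : Λ.Ln k (k - f - x - y)) (fl : Λ.B f (k - f - x - y) = 0) :
    ∃ g : G, g • (k - f - x - y) = f - (k - f - x - y) := by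
  classical
  by_contra n
  push Not at n
  have fin : (orbit G (k - f - x - y)).Finite :=
    ((Z ×ˢ Z).image fun p => k - f - p.1 - p.2).finite_toSet.subset (by
      rintro _ ⟨g, rfl⟩
      exact mem_coe.2 (mem_image.2 ⟨(g • x, g • y), mem_product.2 ⟨h.mem g x hx, h.mem g y hy⟩,
        by simp [smul_sub, hG, hf]⟩))
  obtain ⟨o, q⟩ := orb_of hG hf hC hl fl fin n
  obtain ⟨c, c1, c2⟩ := h.const o.smul_sum
  have u := o.e_sum (e := k - f - x - y) (by simp)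
  have v := o.k_sum
  rw [four_rel h hC h5 h4 h1, h4] at c2
  simp only [map_sub, map_smul, LinearMap.sub_apply, LinearMap.smul_apply, smul_eq_mul, c1 x hx,
    c1 y hy, q] at u c2
  omega

theorem four_ex (hG : ∀ g : G, g • k = k) (hf : ∀ g : G, g • f = f) (hx : x ∈ Z) :
    ∃ a : Fin 3 → L, (∀ i, a i ∈ Z) ∧ Λ.Tri k f (fun i => k - f - x - a i) ∧
      (∀ i, ∃ g : G, g • (k - f - x - a i) = f - (k - f - x - a i)) ∧
      ∑ i, (k - f - x - a i) = k - (2 : ℤ) • x := by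
  classical
  have c : (Z.erase x).card = 3 := by rw [card_erase_of_mem hx]; omega
  let a : Fin 3 → L := fun i => ((Z.erase x).equivFinOfCardEq c).symm i
  have m : ∀ i, a i ≠ x ∧ a i ∈ Z := fun i => mem_erase.1 (Subtype.prop _)
  have inj : Function.Injective a := Subtype.val_injective.comp (Equiv.injective _)
  have s : ∑ i, a i = ∑ y ∈ Z, y - x := by
    rw [← add_sum_erase Z _ hx, add_sub_cancel_left, ← sum_coe_sort (Z.erase x)]
    exact Equiv.sum_comp ((Z.erase x).equivFinOfCardEq c).symm Subtype.val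
  have b1 := fun y hy => (h.ln y hy).2
  have b2 := fun y hy => (Λ.symm y k).trans (h.ln y hy).2
  have b3 := fun y hy => (Λ.symm f y).trans (h1 y hy)
  have t : Λ.Tri k f fun i => k - f - x - a i := by
    refine ⟨fun i j => ?_, fun i => ?_, fun i => ?_⟩
    · have : Λ.B (a i) (a j) = if i = j then -1 else 0 := by
        split_ifs with q
        · subst q; exact (h.ln _ (m i).2).1
        · exact h.orth _ (m i).2 _ (m j).2 (inj.ne q)
      simp [h5, hC.1, hC.2, Λ.symm f k, b1, b2, b3, h1, hx, (m _).2, (h.ln x hx).1, this,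
        h.orth _ (m i).2 x hx (m i).1, h.orth x hx _ (m j).2 (m j).1.symm]
    · simp [h5, hC.2, b1, hx, (m _).2]
    · simp [hC.1, hC.2, Λ.symm f k, b3, hx, (m _).2]
  refine ⟨a, fun i => (m i).2, t, fun i =>
    four_swap h hC h5 h4 h1 hG hf hx (m i).2 (t.ln i) (t.fe i), ?_⟩
  rw [sum_sub_distrib, s, four_rel h hC h5 h4 h1]
  simp only [sum_const, card_univ, Fintype.card_fin]
  module

theorem four_par (hx : Λ.Ln k x) (fx : Λ.B f x = 0) (w : L) :
    Λ.B x w = Λ.B (k - f) w - ∑ y ∈ Z, Λ.B x y * Λ.B y w := by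
  classical
  have n : x ∉ Z := fun c => by have := h1 x c; rw [Λ.symm] at this; omega
  have hP : ∀ w, Λ.B (∑ y ∈ Z, Λ.B x y • y) w = ∑ y ∈ Z, Λ.B x y * Λ.B y w := fun w => by
    rw [LinearMap.map_sum₂]; simp
  have a : ∀ g ∈ Z, Λ.B g (∑ y ∈ Z, Λ.B x y • y) = -Λ.B x g := fun g hg => by
    rw [map_sum, sum_eq_single g (fun y hy hn => by simp [h.orth g hg y hy hn.symm])
      fun hn => absurd hg hn]
    simp [(h.ln g hg).1]
  have two : ∑ y ∈ Z, Λ.B x y = 2 := by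
    rw [← map_sum, four_rel h hC h5 h4 h1]
    simp [Λ.symm x, hx.2, fx]
  have sq : ∑ y ∈ Z, Λ.B x y * Λ.B x y = 2 := by
    rw [← two]
    exact sum_congr rfl fun y hy => by
      rcases h.zo (by omega) hx n y hy with c | c <;> simp [c]
  have pk : Λ.B (∑ y ∈ Z, Λ.B x y • y) k = 2 := by
    rw [hP, ← two]; exact sum_congr rfl fun y hy => by rw [Λ.symm y, (h.ln y hy).2, mul_one]
  have pf : Λ.B (∑ y ∈ Z, Λ.B x y • y) f = 2 := by
    rw [hP, ← two]; exact sum_congr rfl fun y hy => by rw [h1 y hy, mul_one]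
  have px : Λ.B (∑ y ∈ Z, Λ.B x y • y) x = 2 := by
    rw [hP, ← sq]; exact sum_congr rfl fun y hy => by rw [Λ.symm y]
  have pp : Λ.B (∑ y ∈ Z, Λ.B x y • y) (∑ y ∈ Z, Λ.B x y • y) = -2 := by
    rw [hP, ← sq, ← sum_neg_distrib]
    exact sum_congr rfl fun y hy => by rw [a y hy, mul_neg]
  rw [← hP]
  generalize ∑ y ∈ Z, Λ.B x y • y = P at *
  have := zero_of (Λ := Λ) (k := k - f) (x := x - (k - f) + P)
    (by simp [h5, hC.1, hC.2, Λ.symm f k])
    (by simp [h5, hC.1, hC.2, Λ.symm f k, Λ.symm x k, Λ.symm x f, hx.2, fx, pk, pf])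
    (by simp [h5, hC.1, hC.2, Λ.symm f k, Λ.symm x k, Λ.symm x f, hx.1, hx.2, fx, pk, pf, px, pp,
      Λ.symm x P, Λ.symm k P, Λ.symm f P])
  have := congrArg (Λ.B · w) this
  simp only [map_add, map_sub, LinearMap.add_apply, LinearMap.sub_apply, map_zero,
    LinearMap.zero_apply] at this ⊢
  omega

theorem four_tri (t : Λ.Tri k f e) :
    ∃ x ∈ Z, ∑ i, e i = k - (2 : ℤ) • x ∨ (3 : ℤ) • f - ∑ i, e i = k - (2 : ℤ) • x := by
  have kS : Λ.B k (∑ i, e i) = 3 := by simp [t.ke]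
  have fS : Λ.B f (∑ i, e i) = 0 := by simp [t.fe]
  have SS : Λ.B (∑ i, e i) (∑ i, e i) = -3 := by simp [Fin.sum_univ_three, t.ee]
  have sq : ∑ y ∈ Z, Λ.B (∑ i, e i) y * Λ.B y (∑ i, e i) = 12 := by
    have := sum_congr rfl fun i (_ : i ∈ univ) =>
      four_par h hC h5 h4 h1 (t.ln i) (t.fe i) (∑ i, e i)
    rw [← LinearMap.map_sum₂, SS, sum_sub_distrib, sum_comm, map_sub, LinearMap.sub_apply, kS,
      fS] at this
    simp only [LinearMap.map_sum₂ _ _ e, sum_mul]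
    simp only [sum_const, card_univ, Fintype.card_fin, nsmul_eq_mul] at this
    omega
  have r := four_rel h hC h5 h4 h1
  generalize ∑ i, e i = S at *
  have six : ∑ y ∈ Z, Λ.B y S = 6 := by
    rw [← LinearMap.map_sum₂, r]; simp [kS, fS]
  by_contra n
  push Not at n
  have : ∑ y ∈ Z, Λ.B S y * Λ.B y S = ∑ y ∈ Z, (3 * Λ.B y S - 2) := sum_congr rfl fun y hy => by
    have l := h.ln y hy
    have u := Λ.hodge k (S - (k - (2 : ℤ) • y)) (by omega)
      (by simp [h5, Λ.symm S k, kS, Λ.symm y k, l.2]) (sub_ne_zero.2 (n y hy).1)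
    have v := Λ.hodge k ((3 : ℤ) • f - S - (k - (2 : ℤ) • y)) (by omega)
      (by simp [h5, Λ.symm S k, kS, Λ.symm y k, l.2, Λ.symm f k, hC.2]) (sub_ne_zero.2 (n y hy).2)
    simp [h5, Λ.symm S k, kS, Λ.symm y k, l.1, l.2, Λ.symm f k, hC.1, hC.2, SS, Λ.symm S f, fS,
      Λ.symm S y, Λ.symm f y, h1 y hy] at u v
    rw [Λ.symm S]
    obtain c | c : Λ.B y S = 1 ∨ Λ.B y S = 2 := by omega
    all_goals simp [c]
  rw [sq, sum_sub_distrib, ← mul_sum, six] at this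
  simp only [sum_const, nsmul_eq_mul, h4] at this
  omega

end four

theorem hs_compl (hf : ∀ g : G, g • f = f) (x : L) : Hs G f ((3 : ℤ) • f - x) = Hs G f x := by
  ext g
  simp only [Hs, Set.mem_ofPred_eq, smul_sub, smul_comm g (3 : ℤ), hf, sub_sub_cancel,
    sub_right_inj]
  rw [or_comm, sub_eq_iff_eq_add', ← sub_eq_iff_eq_add, eq_comm, or_comm]

/-- **links of type I** -/
theorem typeI (hT : Tp T) (hG : ∀ g : G, g • k = k) (hf : ∀ g : G, g • f = f) (hk : 0 < Λ.B k k)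
    (h : Λ.Orb k Z) (hC : Λ.Cn k f) (hd : Dep k (∑ e ∈ Z, e) f) :
    ¬ Λ.Po T (k + ∑ e ∈ Z, e) ∧
    (So T Z → Λ.B k k = 5 ∧ ∃ x ∈ Z, ∃ a : Fin 3 → L, Λ.B f x = 1 ∧ (∀ i, a i ∈ Z) ∧
      Λ.Tri k f (fun i => k - f - x - a i) ∧
      (∀ i, ∃ g : G, g • (k - f - x - a i) = f - (k - f - x - a i)) ∧
      T (Hs G f (∑ i, (k - f - x - a i)))) ∧
    (4 ≤ Λ.B k k → ∀ e, Λ.Tri k f e → T (Hs G f (∑ i, e i)) → So T Z) := by
  have d := h.deg
  have c := h.tab1 hf hk hC hd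
  refine ⟨fun p => by have := p.1; omega, fun s => ?_, fun h5 e t p => ?_⟩
  · have := mt (h.not_so hT) (not_not.2 s)
    obtain ⟨h1, c⟩ := c.resolve_left (by omega)
    obtain ⟨x, hx, s⟩ := s
    obtain ⟨a, a1, a2, a3, a4⟩ := four_ex h hC (by omega) (by omega) h1 hG hf hx
    exact ⟨by omega, x, hx, a, (Λ.symm _ _).trans (h1 x hx), a1, a2, a3,
      by rwa [a4, four_hs h h1 hG hx]⟩
  · obtain ⟨h1, c⟩ := c.resolve_left (by omega)
    obtain ⟨y, hy⟩ := h.ne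
    have := t.deg (by omega) hC (h.ln y hy) ((Λ.symm _ _).trans (h1 y hy))
    obtain ⟨x, hx, q⟩ := four_tri h hC (by omega) (by omega) h1 t
    refine ⟨x, hx, ?_⟩
    rw [← four_hs h h1 hG hx]
    rcases q with q | q
    · rwa [← q]
    · rwa [← q, hs_compl hf]

end Lat

end Vale.Agent.P287D.Dp
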