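import Vale.Agent.P287D.Dp.Lat4

/-!
# P287D, block DP: real relations give integral relations
-/

namespace Vale.Agent.P287D.Dp.Lat

variable {G L : Type*} [Group G] [AddCommGroup L] [DistribMulAction G L] {Λ : Lat G L} {k x y : L}

theorem Dep.swap (h : Dep k x y) : Dep k y x := by
  obtain ⟨a, b, c, n, e⟩ := h
  exact ⟨a, c, b, fun q => n ⟨q.1, q.2.2, q.2.1⟩, by rw [← e]; abel⟩

theorem dep_of_real (hk : 0 < Λ.B k k) (a b : ℝ)
    (h : ∀ w, (Λ.B x w : ℝ) = a * Λ.B k w + b * Λ.B y w) : Dep k x y := by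
  obtain ⟨u, hu⟩ : ∃ u, u = Λ.B k k • x - Λ.B k x • k := ⟨_, rfl⟩
  obtain ⟨v, hv⟩ : ∃ v, v = Λ.B k k • y - Λ.B k y • k := ⟨_, rfl⟩
  have e : ∀ w, (Λ.B u w : ℝ) = b * Λ.B v w := fun w => by
    have := h k
    rw [Λ.symm x, Λ.symm y] at this
    simp only [hu, hv, map_sub, map_smul, LinearMap.sub_apply, LinearMap.smul_apply, smul_eq_mul]
    push_cast
    rw [h w, this]; ring
  by_cases c : v = 0
  · exact ⟨-Λ.B k y, 0, Λ.B k k, fun q => hk.ne' q.2.2, by rw [← c, hv]; module⟩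
  have p := Λ.hodge k v hk (by simp [hv, Λ.symm y k, mul_comm]) c
  have z : ∀ w, Λ.B (Λ.B v v • u - Λ.B u v • v) w = 0 := fun w => by
    have : ((Λ.B v v * Λ.B u w - Λ.B u v * Λ.B v w : ℤ) : ℝ) = 0 := by
      push_cast
      rw [e w, e v]; ring
    simp only [map_sub, map_smul, LinearMap.sub_apply, LinearMap.smul_apply, smul_eq_mul]
    exact_mod_cast this
  have := zero_of hk (z k) (z _).ge
  generalize Λ.B v v = s, Λ.B u v = t at *
  refine ⟨t * Λ.B k y - s * Λ.B k x, s * Λ.B k k, -(t * Λ.B k k),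
    fun q => mul_ne_zero p.ne hk.ne' q.2.1, ?_⟩
  rw [← this, hu, hv]; module

end Vale.Agent.P287D.Dp.Lat
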