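import Vale.Agent.P287D.Dp.Gl
import Vale.Agent.P287D.Dp.Lat5

/-!
# P287D, block DP: the lattice of all integral classes of a surface field
-/

set_option linter.unusedVariables false
set_option linter.unusedSectionVars false

open Set MulAction

noncomputable section

namespace Vale.Agent.P287D.Dp

open Sf Pb

variable {K K' : Type} [Field K] [Algebra ℂ K] [Field K'] [Algebra ℂ K'] {φ : K →+* K'}
  {X k β γ : BD K'} {P : Pl K'} {L : IntermediateField ℂ K} {S : Cls}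

variable (K') in
/-- the numerically trivial integral classes -/
def NmZ : AddSubgroup (CarZ K') where
  carrier := {β | Num β.1}
  add_mem' := Num.add
  zero_mem' := Num.zero
  neg_mem' := Num.neg

variable (K') in
/-- integral Cartier b-divisors modulo numerical equivalence -/
def NS : Type := CarZ K' ⧸ NmZ K'

instance : AddCommGroup (NS K') := inferInstanceAs (AddCommGroup (CarZ K' ⧸ NmZ K'))

/-- the quotient map -/
def nsH : CarZ K' →+ NS K' := QuotientAddGroup.mk' _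

open Classical in
/-- the class -/
def ns (β : BD K') : NS K' := if h : β ∈ CarZ K' then nsH ⟨β, h⟩ else 0

theorem ns_mk (h : β ∈ CarZ K') : ns β = nsH ⟨β, h⟩ := dif_pos h

theorem ns_sur (x : NS K') : ∃ β ∈ CarZ K', x = ns β := by
  obtain ⟨⟨β, h⟩, rfl⟩ := QuotientAddGroup.mk'_surjective (NmZ K') x
  exact ⟨β, h, (ns_mk h).symm⟩

theorem ns_add (h : β ∈ CarZ K') (h' : γ ∈ CarZ K') : ns (β + γ) = ns β + ns γ := by
  rw [ns_mk h, ns_mk h', ns_mk (add_mem h h'), ← map_add]; rfl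

theorem ns_sub (h : β ∈ CarZ K') (h' : γ ∈ CarZ K') : ns (β - γ) = ns β - ns γ := by
  rw [ns_mk h, ns_mk h', ns_mk (sub_mem h h'), ← map_sub]; rfl

theorem ns_neg (h : β ∈ CarZ K') : ns (-β) = -ns β := by
  rw [ns_mk h, ns_mk (neg_mem h), ← map_neg]; rfl

theorem ns_zero : ns (0 : BD K') = 0 := by rw [ns_mk (zero_mem _), ← map_zero nsH]; rfl

theorem ns_zsmul (z : ℤ) (h : β ∈ CarZ K') : ns ((z : ℝ) • β) = z • ns β := by
  rw [ns_mk h, ns_mk (CarZ.zsmul h z), ← map_zsmul]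
  exact congrArg nsH (Subtype.ext (Int.cast_smul_eq_zsmul ℝ z β))

theorem ns_sum {ι : Type*} (s : Finset ι) {f : ι → BD K'} (h : ∀ i ∈ s, f i ∈ CarZ K') :
    ns (∑ i ∈ s, f i) = ∑ i ∈ s, ns (f i) := by
  classical
  induction s using Finset.induction_on with
  | empty => simpa using ns_zero
  | insert a s ha ih =>
    have := fun i hi => h i (Finset.mem_insert_of_mem hi)
    rw [Finset.sum_insert ha, Finset.sum_insert ha,
      ns_add (h a (Finset.mem_insert_self a s)) (sum_mem this), ih this]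

theorem ns_eq_zero (h : β ∈ CarZ K') : ns β = 0 ↔ Num β := by
  rw [ns_mk h]
  exact QuotientAddGroup.eq_zero_iff _

theorem ns_eq (h : β ∈ CarZ K') (h' : γ ∈ CarZ K') : ns β = ns γ ↔ Num (β - γ) := by
  rw [← sub_eq_zero, ← ns_sub h h', ns_eq_zero (sub_mem h h')]

/-- the action of a semilinear automorphism -/
def nsP {ψ : K' →+* K'} (s : Semi ψ) : NS K' →+ NS K' :=
  QuotientAddGroup.map _ _
    (((pbL ψ).toAddMonoidHom.comp (CarZ K').subtype).codRestrict _ fun β => s.carZ.2 β.2)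
    fun β h => s.num.2 h

theorem nsP_ns {ψ : K' →+* K'} (s : Semi ψ) (h : β ∈ CarZ K') : nsP s (ns β) = ns (pb ψ β) := by
  rw [ns_mk h, ns_mk (s.carZ.2 h)]; rfl

open Classical in
/-- the Galois representation -/
def nsR (φ : K →+* K') : Gal φ →* AddMonoid.End (NS K') :=
  if h : ∀ σ : Gal φ, Semi (σ.1 : K' →+* K') then
    { toFun := fun σ => nsP (h σ)
      map_one' := AddMonoidHom.ext fun x => by
        obtain ⟨β, hβ, rfl⟩ := ns_sur x
        exact (nsP_ns _ hβ).trans (congrArg ns (pb_one β))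
      map_mul' := fun σ τ => AddMonoidHom.ext fun x => by
        obtain ⟨β, hβ, rfl⟩ := ns_sur x
        change nsP (h (σ * τ)) _ = nsP (h σ) (nsP (h τ) _)
        rw [nsP_ns _ hβ, nsP_ns _ hβ, nsP_ns _ ((h τ).carZ.2 hβ),
          ← (h σ).ok.pb_comp (τ.1 : K' →+* K') β]
        rfl }
  else 1

instance : DistribMulAction (Gal φ) (NS K') := DistribMulAction.compHom _ (nsR φ)

theorem smul_ns (h : GF L φ) (σ : Gal φ) (hβ : β ∈ CarZ K') :
    σ • ns β = ns (pb (σ.1 : K' →+* K') β) := by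
  change nsR φ σ (ns β) = _
  rw [nsR, dif_pos fun σ => h.semi σ.2]
  exact nsP_ns (h.semi σ.2) hβ

theorem smul_ns_iff (h : GF L φ) (σ : Gal φ) (hβ : β ∈ CarZ K') (hγ : γ ∈ CarZ K') :
    σ • ns β = ns γ ↔ Num (pb (σ.1 : K' →+* K') β - γ) := by
  rw [smul_ns h σ hβ, ns_eq ((h.semi σ.2).carZ.2 hβ) hγ]

theorem smul_inv (h : GF L φ) (hβ : β ∈ CarZ K') (i : Inv φ β) (σ : Gal φ) : σ • ns β = ns β := by
  rw [smul_ns h σ hβ, i σ.1 σ.2]

theorem stab_ns (h : GF L φ) (hβ : β ∈ CarZ K') :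
    Subtype.val '' (stabilizer (Gal φ) (ns β) : Set (Gal φ)) = stC φ β :=
  Set.ext fun σ => ⟨by
    rintro ⟨σ, a, rfl⟩
    exact ⟨σ.2, (smul_ns_iff h σ hβ hβ).1 a⟩,
    fun a => ⟨⟨σ, a.1⟩, (smul_ns_iff h ⟨σ, a.1⟩ hβ hβ).2 a.2, rfl⟩⟩

/-- the subgroups of type `S` -/
def Ty (S : Cls) (L : IntermediateField ℂ K) (φ : K →+* K') (H : Set (Gal φ)) : Prop :=
  STyp S L φ (Subtype.val '' H)

theorem ty_stab (h : GF L φ) (hβ : β ∈ CarZ K') :
    Ty S L φ (stabilizer (Gal φ) (ns β)) ↔ STyp S L φ (stC φ β) := by rw [Ty, stab_ns h hβ]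

/-- the form on the classes -/
def nsb (x y : NS K') : ℤ := ⌊I2 (ns_sur x).choose (ns_sur y).choose⌋

namespace Ax

variable (ax : Ax) (hK : FF K' 2)
include ax hK

theorem I2_int (h : β ∈ CarZ K') (h' : γ ∈ CarZ K') : ∃ z : ℤ, I2 β γ = z := by
  rw [I2_eq]
  refine finsum_induction (fun x : ℝ => ∃ z : ℤ, x = z) ⟨0, by simp⟩ ?_ fun P => ?_
  · rintro _ _ ⟨a, rfl⟩ ⟨b, rfl⟩
    exact ⟨a + b, by simp⟩
  · obtain ⟨a, ha⟩ := CarZ.int h P
    obtain ⟨b, hb⟩ := (ax.rows K' hK).int γ h' P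
    exact ⟨a * b, by simp [ha, hb]⟩

theorem nsb_ns (h : β ∈ CarZ K') (h' : γ ∈ CarZ K') : (nsb (ns β) (ns γ) : ℝ) = I2 β γ := by
  obtain ⟨a, b⟩ := (ns_sur (ns β)).choose_spec
  obtain ⟨c, d⟩ := (ns_sur (ns γ)).choose_spec
  obtain ⟨z, e⟩ := ax.I2_int hK a c
  rw [nsb, e, Int.floor_intCast, ← e, ax.congr_l hK (CarZ.car a) ((ns_eq h a).1 b) (CarZ.car h'),
    ax.congr_r hK _ (CarZ.car c) ((ns_eq h' c).1 d)]

theorem nsb_symm (x y : NS K') : nsb x y = nsb y x := by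
  obtain ⟨β, h, rfl⟩ := ns_sur x
  obtain ⟨γ, h', rfl⟩ := ns_sur y
  refine Int.cast_injective (α := ℝ) ?_
  rw [ax.nsb_ns hK h h', ax.nsb_ns hK h' h, (ax.rows K' hK).symm _ (CarZ.car h) _ (CarZ.car h')]

theorem nsb_add (x y z : NS K') : nsb x (y + z) = nsb x y + nsb x z := by
  obtain ⟨β, h, rfl⟩ := ns_sur x
  obtain ⟨γ, h', rfl⟩ := ns_sur y
  obtain ⟨δ, h'', rfl⟩ := ns_sur z
  refine Int.cast_injective (α := ℝ) ?_
  rw [← ns_add h' h'', Int.cast_add, ax.nsb_ns hK h h', ax.nsb_ns hK h h'',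
    ax.nsb_ns hK h (add_mem h' h''),
    (ax.rows K' hK).add_r ((ax.rows K' hK).isb _ (CarZ.car h)) (CarZ.car h') (CarZ.car h'')]

theorem nsb_smul (c : ℤ) (x y : NS K') : nsb x (c • y) = c • nsb x y :=
  map_zsmul (AddMonoidHom.mk' (nsb x) (ax.nsb_add hK x)) c y

/-- **the lattice** -/
def lat (h : GF L φ) : Lat (Gal φ) (NS K') where
  B := LinearMap.mk₂ ℤ nsb
    (fun x y z => by rw [ax.nsb_symm hK, ax.nsb_add hK, ax.nsb_symm hK x, ax.nsb_symm hK y])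
    (fun c x y => by rw [ax.nsb_symm hK, ax.nsb_smul hK, ax.nsb_symm hK x])
    (ax.nsb_add hK) (ax.nsb_smul hK)
  symm := ax.nsb_symm hK
  inv σ x y := by
    obtain ⟨β, a, rfl⟩ := ns_sur x
    obtain ⟨γ, b, rfl⟩ := ns_sur y
    have s := h.semi σ.2
    refine Int.cast_injective (α := ℝ) ?_
    change (nsb _ _ : ℝ) = nsb _ _
    rw [smul_ns h σ a, smul_ns h σ b, ax.nsb_ns hK (s.carZ.2 a) (s.carZ.2 b), ax.nsb_ns hK a b,
      ax.I2_pb hK s _ (CarZ.car b)]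
  hodge x y p e n := by
    obtain ⟨β, a, rfl⟩ := ns_sur x
    obtain ⟨γ, b, rfl⟩ := ns_sur y
    change 0 < nsb _ _ at p
    change nsb _ _ = 0 at e
    change nsb _ _ < 0
    rw [ax.nsb_symm hK] at e
    by_contra c
    refine n ((ns_eq_zero b).2 (ax.num_of hK (CarZ.car a) (CarZ.car b) ?_ ?_ ?_))
    · rw [← ax.nsb_ns hK a a]; exact_mod_cast p
    · rw [← ax.nsb_ns hK a b]; exact_mod_cast e
    · rw [← ax.nsb_ns hK b b]; exact_mod_cast not_lt.1 c

variable (h : GF L φ)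

theorem lat_B (a : β ∈ CarZ K') (b : γ ∈ CarZ K') :
    ((ax.lat hK h).B (ns β) (ns γ) : ℝ) = I2 β γ := ax.nsb_ns hK a b

theorem lat_eq (a : β ∈ CarZ K') (b : γ ∈ CarZ K') {z : ℤ} :
    (ax.lat hK h).B (ns β) (ns γ) = z ↔ I2 β γ = z := by
  rw [← ax.lat_B hK h a b, Int.cast_inj]

theorem lat_neg (a : β ∈ CarZ K') (b : γ ∈ CarZ K') :
    ((ax.lat hK h).B (ns (-β)) (ns γ) : ℝ) = -I2 β γ := by
  rw [ns_neg a, map_neg, LinearMap.neg_apply, Int.cast_neg, ax.lat_B hK h a b]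

theorem lat_kk (a : β ∈ CarZ K') : ((ax.lat hK h).B (ns (-β)) (ns (-β)) : ℝ) = I2 β β := by
  rw [ns_neg a, map_neg, map_neg, LinearMap.neg_apply, neg_neg, ax.lat_B hK h a a]

theorem cn_iff (a : k ∈ CarZ K') (b : β ∈ CarZ K') :
    (ax.lat hK h).Cn (ns (-k)) (ns β) ↔ I2 β β = 0 ∧ I2 k β = -2 := by
  rw [Lat.Cn, ax.lat_eq hK h b b, ← Int.cast_inj (α := ℝ), ax.lat_neg hK h a b, neg_eq_iff_eq_neg]
  simp

theorem ln_iff (a : k ∈ CarZ K') (b : β ∈ CarZ K') :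
    (ax.lat hK h).Ln (ns (-k)) (ns β) ↔ I2 β β = -1 ∧ I2 k β = -1 := by
  rw [Lat.Ln, ax.lat_eq hK h b b, ← Int.cast_inj (α := ℝ), ax.lat_neg hK h a b, neg_eq_iff_eq_neg]
  simp

include h in
theorem smul_k (m : Md φ X k) (σ : Gal φ) : σ • ns (-k) = ns (-k) := by
  have a := ax.kZ hK m.term
  rw [ns_neg a, smul_neg, (smul_ns_iff h σ a a).2 (.of_prn (ax.pb_k hK h m σ.2))]

include h in
/-- a real numerical relation gives an integral one -/
theorem dep_of (a : k ∈ CarZ K') (b : β ∈ CarZ K') (c : γ ∈ CarZ K') (p : 0 < I2 k k)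
    {x y : ℝ} (e : Num (β - x • k - y • γ)) : Lat.Dep (ns (-k)) (ns β) (ns γ) := by
  have R := ax.rows K' hK
  refine Lat.dep_of_real (Λ := ax.lat hK h) (by
    rw [← ax.lat_kk hK h a] at p; exact_mod_cast p) (-x) y fun w => ?_
  obtain ⟨δ, d, rfl⟩ := ns_sur w
  have := ax.num_l hK e (CarZ.car d)
  have i := fun {β} (b : β ∈ CarZ K') => R.isb _ (CarZ.car b)
  rw [R.sub_l (isB_sub (i b) (isB_smul x (i a))) (isB_smul y (i c)) (CarZ.car d),
    R.sub_l (i b) (isB_smul x (i a)) (CarZ.car d), R.smul_l x (i a) (CarZ.car d),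
    R.smul_l y (i c) (CarZ.car d)] at this
  rw [ax.lat_B hK h b d, ax.lat_B hK h c d, ax.lat_neg hK h a d]
  linarith

/-- a class which has the largest possible square descends -/
theorem num_pj (hX : Term 1 X k) (b : β ∈ CarZ K')
    (e : I2 k β ^ 2 < I2 k k * (I2 β β + 1)) (p : 0 < I2 k k) : Num (β - pj X β) := by
  have R := ax.rows K' hK
  have i := R.isb _ (CarZ.car b)
  have s := ax.pj_spec hK hX i
  have c := ax.pjZ hK hX i fun P _ => CarZ.int b P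
  have q := R.hodge (ax.kC hK hX) s.1 p
  rw [R.symm k (ax.kC hK hX) _ s.1, ax.I2_pj hK hX i (ax.kD hK hX),
    R.symm _ (CarZ.car b) _ (ax.kC hK hX)] at q
  obtain ⟨u, hu⟩ := ax.I2_int hK c c
  obtain ⟨v, hv⟩ := ax.I2_int hK b b
  refine (ax.pj_sq hK hX (CarZ.car b)).2 ?_
  have : I2 (pj X β) (pj X β) < I2 β β + 1 := lt_of_mul_lt_mul_left (q.trans_lt e) p.le
  rw [hu, hv] at this ⊢
  exact_mod_cast Int.lt_add_one_iff.1 (by exact_mod_cast this)

/-- the potential in the words of the lattice -/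
theorem po_iff (hX : Term 1 X k) : (ax.lat hK h).Po (Ty S L φ) (ns (-k)) ↔ NuG S L φ X k := by
  have a := ax.kZ hK hX
  have d : ((ax.lat hK h).B (ns (-k)) (ns (-k)) = 5 ∨ (ax.lat hK h).B (ns (-k)) (ns (-k)) = 6) ↔
      (I2 k k = 5 ∨ I2 k k = 6) := by
    rw [← ax.lat_kk hK h a]; norm_cast
  rw [Lat.Po, NuG, d]
  refine and_congr_right fun d => ⟨fun ⟨C, c, t⟩ => ?_, fun ⟨f, b, _, c, c', t⟩ =>
    ⟨ns f, (ax.cn_iff hK h a b).2 ⟨c, c'⟩, (ty_stab h b).2 t⟩⟩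
  obtain ⟨β, b, rfl⟩ := ns_sur C
  have i := (ax.rows K' hK).isb _ (CarZ.car b)
  have s := ax.pj_spec hK hX i
  have z := ax.pjZ hK hX i fun P _ => CarZ.int b P
  have c' := (ax.cn_iff hK h a b).1 c
  have n := ax.num_pj hK hX b (by rw [c'.1, c'.2]; rcases d with d | d <;> rw [d] <;> norm_num)
    (by rcases d with d | d <;> rw [d] <;> norm_num)
  rw [(ns_eq b z).2 n] at c t
  have c'' := (ax.cn_iff hK h a z).1 c
  exact ⟨_, z, ax.dsc_of hK hX s.1 s.2.1, c''.1, c''.2, (ty_stab h z).1 t⟩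

end Ax

end Vale.Agent.P287D.Dp
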