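import Vale.Agent.P287D.Dp.Amp
import Vale.Agent.P287D.Dp.Ns
import Vale.Agent.P287D.Dp.Cmp

/-!
# P287D, block DP: two conic bundles
-/

set_option linter.unusedVariables false
set_option linter.unusedSectionVars false

open Set MulAction

noncomputable section

namespace Vale.Agent.P287D.Dp

open Sf Pb

variable {K K' : Type} [Field K] [Algebra ℂ K] [Field K'] [Algebra ℂ K'] {φ : K →+* K'}
  {X Y k kX N f β : BD K'} {Q : Pl K} {L L₃ : IntermediateField ℂ K}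

theorem Fib.rel (F : Fib Y k N f) {x y : ℝ} (e : Num (β - x • k - y • N)) :
    ∃ z : ℝ, Num (β - x • k - z • f) := by
  obtain ⟨c, c0, p⟩ := F.prop
  refine ⟨y / c, ?_⟩
  have := e.add (.of_prn (Submodule.smul_mem _ (-(y / c)) p))
  convert this using 1
  rw [smul_sub (-(y / c)), smul_smul, neg_mul, div_mul_cancel₀ _ c0.ne']
  module

theorem five_le {x : ℝ} {a z : ℤ} (p : 0 < x) (e : x = 5 + 8 * z) (h : (a : ℝ) = x) : 5 ≤ a := by
  have u : a = 5 + 8 * z := by exact_mod_cast h.trans e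
  have v : 0 < a := by exact_mod_cast h ▸ p
  omega

theorem lbb (ax : Ax) : LBB := by
  intro S K K' _ _ _ _ L φ Y k g L₃ N Y' k' L₃' N' B g' B' on ne ⟨X, k₁, f₁, e, c, _⟩
  have hK := g.ff
  have R := ax.rows K' hK
  have h := g.gf.toGF
  have dt : ∀ {β}, Det Y' β → Det Y β := fun d => (ax.det_iff hK g.term.smp).2 fun P o =>
    (ax.det_iff hK g'.term.smp).1 d P (mt (on P).2 o)
  obtain rfl : k = k' := ax.uq hK g.term.smp g.term.big (ax.kC hK g.term) (ax.kC hK g'.term)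
    (ax.kD hK g.term) (dt (ax.kD hK g'.term)) fun P o => by
      rw [g.term.hull.2 P o, g'.term.hull.2 P ((on P).1 o)]
  obtain ⟨f, F⟩ := sb ax K K' L φ Y k g L₃ N B
  obtain ⟨f', F'⟩ := sb ax K K' L φ Y' k g' L₃' N' B'
  obtain ⟨-, ⟨z, hz⟩, c3⟩ := cmp ax K K' L φ Y k g L₃ N f B F X k₁ f₁ e c
  have a := ax.kZ hK g.term
  obtain ⟨x, y, r⟩ := B.rk N' B'.smp.car (dt (ax.det_of hK g'.term B'.des).2) B'.inv
  obtain ⟨y', r⟩ := F.rel r
  obtain ⟨d, d0, p⟩ := F'.prop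
  have r' : Num (f' - (d * x) • k - (d * y') • f) := by
    have := (r.smul d).add (.of_prn p)
    convert this using 1
    module
  refine Lat.typeIV (Λ := ax.lat hK h) (x := ns (e 0))
    ((ax.cn_iff hK h a F.car).2 ⟨F.sq R B.smp B.sq, F.kf⟩)
    ((ax.cn_iff hK h a F'.car).2 ⟨F'.sq R B'.smp B'.sq, F'.kf⟩) (fun q => ne ?_)
    (ax.dep_of hK h a F'.car F.car g.pos r').swap (five_le g.pos hz (ax.lat_kk hK h a))
    ((ax.ln_iff hK h a (c.ecar 0).1).2 ⟨by simpa using c.ee 0 0, (c3 0).2⟩)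
  ext u
  rw [B.base, B'.base, ← F.fld, ← F'.fld,
    fld_congr (ax.ftn.num 1 K' hK g.ft _ ((ns_eq F.car F'.car).1 q))]

end Vale.Agent.P287D.Dp
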