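import Vale.Agent.P287D.Dp.St
import Vale.Agent.P287D.Iso.Can
import Vale.Agent.P287D.Pb.Res

/-!
# P287D, block DP: orbits of places and fields of constants
-/

set_option linter.all false

open Set

noncomputable section

namespace Vale.Agent.P287D.Dp

open Pb Gx

variable {K K' : Type} [Field K] [Algebra ℂ K] [Field K'] [Algebra ℂ K']
  {L : IntermediateField ℂ K} {φ : K →+* K'} {S : Cls} {d r m : ℕ} {P : Pl K'} {Q : Pl K}

/-- the constants fixed by `H` -/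
def Fx (K' : Type) [Field K'] [Algebra ℂ K'] (H : Set (K' ≃+* K')) : Set K' :=
  {x | x ∈ range (algebraMap ℂ K') ∧ ∀ σ ∈ H, σ x = x}

/-- the type may be read off from any model of the fixed field -/
theorem styp_iff_of (hS : SCl d S) {H : Set (K' ≃+* K')} {M : Type} [Field M] [Algebra ℂ M]
    (ι : L →ₐ[ℂ] M) (j : M →+* K') (h : ∀ a : L, j (ι a) = φ a) (e : range j = Fx K' H) :
    STyp S L φ H ↔ S M := by
  refine ⟨fun ⟨M', _, _, ι', j', h', e', k⟩ => ?_, fun k => ⟨M, _, _, ι, j, h, e, k⟩⟩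
  have w : j'.fieldRange = j.fieldRange := SetLike.coe_injective (e'.trans e.symm)
  let u : M' ≃+* M := (j'.rangeRestrictFieldEquiv.trans (RingEquiv.subfieldCongr w)).trans
    j.rangeRestrictFieldEquiv.symm
  have hu : ∀ x, j (u x) = j' x := fun x =>
    congrArg Subtype.val (j.rangeRestrictFieldEquiv.apply_symm_apply _)
  exact hS.iso _ _ (AlgEquiv.ofRingEquiv (f := u) fun c => j.injective (by
    rw [hu, ← ι.commutes, ← ι'.commutes, h, h'])) k

theorem styp_congr {H H' : Set (K' ≃+* K')} (e : Fx K' H = Fx K' H') :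
    STyp S L φ H ↔ STyp S L φ H' :=
  ⟨fun ⟨M, a, b, ι, j, h, e', k⟩ => ⟨M, a, b, ι, j, h, e'.trans e, k⟩,
    fun ⟨M, a, b, ι, j, h, e', k⟩ => ⟨M, a, b, ι, j, h, e'.trans e.symm, k⟩⟩

theorem styp_map {H H' : Set (K' ≃+* K')} {τ : K' ≃+* K'} (hτ : τ ∈ Gal φ)
    (e : Fx K' H' = τ '' Fx K' H) (h : STyp S L φ H) : STyp S L φ H' :=
  let ⟨M, a, b, ι, j, h, e', k⟩ := h
  ⟨M, a, b, ι, (τ : K' →+* K').comp j, fun x => (congrArg τ (h x)).trans (hτ _), by
    rw [RingHom.coe_comp, range_comp, e']; exact e.symm, k⟩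

theorem styp_conj' (h : GF L φ) {H H' : Set (K' ≃+* K')} {τ : K' ≃+* K'} (hτ : τ ∈ Gal φ)
    (e : ∀ σ, σ ∈ H ↔ τ * σ * τ⁻¹ ∈ H') (k : STyp S L φ H) : STyp S L φ H' := by
  refine styp_map hτ (Subset.antisymm ?_ ?_) k
  · rintro _ ⟨⟨c, rfl⟩, hc⟩
    refine ⟨τ.symm _, ⟨h.cst_gal ((Gal φ).inv_mem hτ) c, fun σ hσ => τ.injective ?_⟩,
      τ.apply_symm_apply _⟩
    rw [τ.apply_symm_apply]
    exact hc _ ((e σ).1 hσ)
  · rintro _ ⟨_, ⟨⟨c, rfl⟩, hc⟩, rfl⟩
    refine ⟨h.cst_gal hτ c, fun σ hσ => τ.symm.injective ?_⟩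
    rw [τ.symm_apply_apply]
    exact hc (τ⁻¹ * σ * τ) ((e _).2 (by simpa [mul_assoc] using hσ))

/-- the type depends only on the conjugacy class -/
theorem styp_conj (h : GF L φ) {H H' : Set (K' ≃+* K')} {τ : K' ≃+* K'} (hτ : τ ∈ Gal φ)
    (e : ∀ σ, σ ∈ H ↔ τ * σ * τ⁻¹ ∈ H') : STyp S L φ H ↔ STyp S L φ H' :=
  ⟨styp_conj' h hτ e, styp_conj' h ((Gal φ).inv_mem hτ) fun σ => by
    rw [e]; simp [mul_assoc]⟩

/-- the residue map on a horizontal field -/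
def rdL (h : Hor L Q) : L →ₐ[ℂ] Q.κ where
  toRingHom := hr (φ := inc L) fun f => h f f.2
  commutes' c := (hr_apply _ _).trans (rd_cst Q c)

theorem rdL_apply (h : Hor L Q) (a : L) : rdL h a = Q.rd a := hr_apply _ _

theorem im_eq (h : Hor L Q) : Q.im L = (rdL h).fieldRange := by
  refine le_antisymm (IntermediateField.adjoin_le_iff.2 ?_) ?_
  · rintro _ ⟨a, ha, rfl⟩
    exact ⟨⟨a, ha⟩, rdL_apply h _⟩
  · rintro _ ⟨a, rfl⟩
    exact IntermediateField.subset_adjoin _ _ ⟨a, a.2, (rdL_apply h a).symm⟩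

theorem im_le_cf (Q : Pl K) (L : IntermediateField ℂ K) : Q.im L ≤ Q.cf L := fun a ha =>
  (algebraicClosure (Q.im L) Q.κ).algebraMap_mem ⟨a, ha⟩

/-- the base field inside the field of constants -/
def toCf (h : Hor L Q) : L →ₐ[ℂ] Q.cf L :=
  (rdL h).codRestrict (Q.cf L).toSubalgebra fun a => im_le_cf Q L (im_eq h ▸ ⟨a, rfl⟩)

theorem toCf_coe (h : Hor L Q) (a : L) : (toCf h a : Q.κ) = Q.rd a := rdL_apply h a

/-- the constants of a generic fibre -/
theorem exists_cst (h : Ext L φ) : ∃ j : L →+* ℂ, ∀ a : L, algebraMap ℂ K' (j a) = φ a := by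
  choose j hj using fun a : L => h.cst a a.2
  have i := (algebraMap ℂ K').injective
  exact ⟨{ toFun := j
           map_one' := i (by simp [hj])
           map_zero' := i (by simp [hj])
           map_mul' := fun a b => i (by simp [hj])
           map_add' := fun a b => i (by simp [hj]) }, hj⟩

theorem exists_cf (g1 : G1b) (g2 : G2) (g2b : G2b) (h : GFd r m L φ) (l : Lies φ P Q) :
    ∃ (hQ : Hor L Q) (j : Q.cf L →+* K'), (∀ a : L, j (toCf hQ a) = φ a) ∧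
      range j = Fx K' (stP φ P) := by
  have hQ := ((g2 r m K K' L φ h).2.1 P Q l).1
  obtain ⟨-, -, b3, b4, -⟩ := g2b r m K K' L φ h Q hQ
  obtain ⟨m', -, h'⟩ := b3 P l.κ l l.isRd
  obtain ⟨j, hj⟩ := exists_cst h'.toExt
  have k : ∀ a : L, algebraMap ℂ K' (j (toCf hQ a)) = φ a := fun a => by
    obtain ⟨c, hc⟩ := h.cst a a.2
    rw [← hc]
    refine congrArg _ ((algebraMap ℂ P.κ).injective ?_)
    rw [hj, toCf_coe, l.isRd _ (hQ a a.2), ← hc, rd_cst]
  refine ⟨hQ, (algebraMap ℂ K').comp j, k, Subset.antisymm ?_ ?_⟩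
  · rintro _ ⟨a, rfl⟩
    refine ⟨⟨_, rfl⟩, fun σ hσ => ?_⟩
    obtain ⟨τ, hτ⟩ := (g1 r m K K' L φ h).2.2.1 σ hσ.1
    obtain ⟨f, hf, e⟩ := rd_sur Q a
    have e1 : P.rd (φ f) = algebraMap ℂ P.κ (j a) := by rw [hj, ← e, l.isRd f hf]
    have e2 := hσ.2.isRd _ ((l f).1 hf)
    have e3 := hσ.2.isRd _ (P.con (j a))
    rw [RingHom.coe_coe, hσ.1 f, e1] at e2
    rw [RingHom.coe_coe, hτ, rd_cst, rd_cst, e2] at e3
    rw [RingHom.comp_apply, hτ, ← (algebraMap ℂ P.κ).injective e3]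
  · rintro _ ⟨⟨c, rfl⟩, hc⟩
    obtain ⟨-, c2, c3, -, c5, -⟩ := g1 r m' _ _ _ _ h'
    obtain ⟨a, ha⟩ := c5 (algebraMap ℂ P.κ c) fun ρ hρ => by
      obtain ⟨τ, hτ⟩ := c3 ρ hρ
      have t : ∀ a, τ (j a) = j a := fun a =>
        (algebraMap ℂ P.κ).injective (by rw [← hτ, hj, hρ])
      obtain ⟨σ, hσ, e⟩ := (g1 r m K K' L φ h).2.2.2.1 τ (by
        rintro x ⟨a, ha, e⟩
        rw [← (algebraMap ℂ K').injective ((k ⟨a, ha⟩).trans e), t])
      have s := h.toGF.semi hσ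
      have l' : Lies φ (s.pl P) Q := fun f => by
        rw [l f, ← s.mem_pl, RingHom.coe_coe, hσ f]
      have p := b4 P (s.pl P) l.κ ((s.κ P).comp l.κ) l l' l.isRd
        (fun f hf => by rw [RingHom.comp_apply, l.isRd f hf, s.κ_rd, RingHom.coe_coe, hσ f])
        fun a ha x hx => by
          obtain rfl : j ⟨a, ha⟩ = x := (algebraMap ℂ P.κ).injective ((hj _).trans hx)
          rw [RingHom.comp_apply, hx, ← rd_cst, s.κ_rd, RingHom.coe_coe, e, t, rd_cst]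
      have := hc σ ⟨hσ, s.lies_iff.2 p⟩
      rw [hτ, (algebraMap ℂ K').injective ((e c).symm.trans this)]
    obtain ⟨p, p0, hp⟩ := h'.alg c
    have m : a ∈ Q.cf L := c2 a ⟨p, p0, l.κ.injective (by
      rw [Polynomial.aeval_def, Polynomial.hom_eval₂, ha, hp, map_zero])⟩
    exact ⟨⟨a, m⟩, congrArg (algebraMap ℂ K') ((algebraMap ℂ P.κ).injective ((hj _).trans ha))⟩

/-- **ORB**: the type of the stabiliser of a place is the type of the field of constants -/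
theorem styp_iff (g1 : G1b) (g2 : G2) (g2b : G2b) (hS : SCl d S) (h : GFd r m L φ)
    (l : Lies φ P Q) : STyp S L φ (stP φ P) ↔ S (Q.cf L) :=
  let ⟨_, j, a, b⟩ := exists_cf g1 g2 g2b h l
  styp_iff_of hS _ j a b

end Vale.Agent.P287D.Dp
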