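import Vale.Agent.P287D.Dp.St
import Vale.Agent.P287D.Gs.Ful
import Vale.Agent.P287D.Va.Fld

/-!
# P287D, block DP: the fibre class of a conic bundle
-/

open Set

noncomputable section

namespace Vale.Agent.P287D.Dp.Cm

open Sf

variable {L : Type} [Field L] [Algebra ℂ L] {Y k N A C Z β γ f : BD L} {P Q : Pl L}

/-- the intersection form -/
def bf (R : Rows L) : Car L →ₗ[ℝ] Car L →ₗ[ℝ] ℝ :=
  LinearMap.mk₂ ℝ (fun a b => I2 a.1 b.1)
    (fun a b c => R.add_l (R.isb _ a.2) (R.isb _ b.2) c.2)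
    (fun c a b => R.smul_l c (R.isb _ a.2) b.2)
    (fun a b c => R.add_r (R.isb _ a.2) b.2 c.2)
    (fun c a b => R.smul_r c (R.isb _ a.2) b.2)

theorem bf_symm (R : Rows L) (a b : Car L) : bf R a b = bf R b a := R.symm _ a.2 _ b.2

theorem num_dg (R : Rows L) (h : Num β) (P : Pl L) : dg β P = 0 := by
  have a := (R.nn_nef h.1).nn P
  have b := (R.nn_nef h.2).nn P
  rw [R.neg h.1.car] at b
  linarith

theorem num_r (R : Rows L) (h : Num β) (Z : BD L) : I2 Z β = 0 := I2_zero fun P _ => num_dg R h P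

theorem num_I2 (R : Rows L) (hγ : γ ∈ Car L) {c : ℝ} (h : Num (β - c • γ)) (hZ : IsB 1 Z) :
    I2 Z β = c * I2 Z γ := by
  have b : β ∈ Car L := by simpa using add_mem h.1.car ((Car L).smul_mem c hγ)
  have := num_r R h Z
  rw [R.sub_r hZ b ((Car L).smul_mem c hγ), R.smul_r c hZ hγ] at this
  linarith

theorem on_of (R : Rows L) (hY : Smp Y) (h : Dsc Y γ) (e : dg γ P ≠ 0) : On 1 Y P :=
  on_iff.2 ((R.det_dsc h hY.car).2.pos (R.nn_smp hY) e)

theorem I2_hull (R : Rows L) (hY : Smp Y) (h : Hull 1 Y Z β) (hγ : Dsc Y γ) : I2 β γ = I2 Z γ :=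
  I2_congr fun P e => h.2 P (on_of R hY hγ e)

theorem amp_pos (R : Rows L) (hY : Smp Y) (h : AmpOn Y A) (hP : On 1 Y P) : 0 < dg A P := by
  obtain ⟨d, ε, e, a⟩ := h
  have x := (R.nn_smp a).nn P
  rw [R.sub (Gs.dsc_car hY d) ((Car L).smul_mem ε hY.car), R.smul ε Y hY.car] at x
  nlinarith [on_iff.1 hP]

/-- the data of a conic bundle -/
structure Cb (Y k N : BD L) : Prop where
  term : Term 1 Y k
  smp : Smp N
  des : Dsc Y N
  sq : I2 N N = 0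
  ne : ¬ Num N
  amp : ∃ c : ℝ, AmpOn Y (c • N - k)

variable (ax : Ax) (hL : FF L 2)
include ax hL

/-- the components of the fibres -/
theorem Cb.vert (h : Cb Y k N) (hP : On 1 Y P) (h0 : dg N P = 0) (hZ : C ∈ CarZ L)
    (hC : Hull 1 Y P.δ C) : I2 N C = 0 ∧
      ((I2 k C = -2 ∧ I2 C C = 0) ∨ (I2 k C = -1 ∧ I2 C C = -1)) := by
  have R := ax.rows L hL
  have hY := h.term.smp
  have kZ := (ax.ts L hL Y k h.term).1
  have c := CarZ.car hZ
  have n0 : I2 N C = 0 := by rw [R.symm N h.smp.car C c, I2_hull R hY hC h.des, I2_δ, h0]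
  have kc : I2 k C = dg k P := by
    rw [R.symm k (CarZ.car kZ) C c, I2_hull R hY hC h.term.hull.1, I2_δ]
  have cc : I2 C C = dg C P := by rw [I2_hull R hY hC hC.1, I2_δ]
  obtain ⟨a, ha⟩ := R.int k kZ P
  obtain ⟨b, hb⟩ := R.int C hZ P
  obtain ⟨d, hd⟩ := h.amp
  have p := amp_pos R hY hd hP
  rw [R.sub ((Car L).smul_mem d h.smp.car) (CarZ.car kZ), R.smul d N h.smp.car, h0, ha] at p
  have q := (ax.hi0 L hL N h.smp.car C c h.sq.ge h.ne n0).1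
  obtain ⟨δ, g⟩ := (ax.gen2 L hL Y k h.term).1 P C hP hC
  rw [R.add_l (R.isb _ (CarZ.car kZ)) (R.isb _ c) c, kc, cc, ha, hb] at g
  rw [cc, hb] at q
  have p' : a < 0 := by
    have : (a : ℝ) < 0 := by linarith
    exact_mod_cast this
  have q' : b ≤ 0 := by exact_mod_cast q
  have g' : a + b = 2 * pg P.κ 1 - 2 + 2 * δ := by exact_mod_cast g
  refine ⟨n0, ?_⟩
  rw [kc, cc, ha, hb]
  rcases (show (a = -2 ∧ b = 0) ∨ (a = -1 ∧ b = -1) by omega) with ⟨x, y⟩ | ⟨x, y⟩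
  · exact .inl ⟨by simp [x], by simp [y]⟩
  · exact .inr ⟨by simp [x], by simp [y]⟩

theorem Cb.fib (h : Cb Y k N) (hF : FT L 1) (hZ : f ∈ CarZ L) (hd : Dsc Y f) (h0 : I2 N f = 0)
    (h1 : I2 f f = 0) (h2 : I2 k f = -2) : Fib Y k N f := by
  have R := ax.rows L hL
  have hY := h.term.smp
  have c := CarZ.car hZ
  have ck := Gs.dsc_car hY h.term.hull.1
  obtain ⟨x, -, hx⟩ := (ax.hi0 L hL N h.smp.car f c h.sq.ge h.ne h0).2 h1
  refine ⟨hZ, hd, ⟨x, ?_, ax.ftn.num 1 L hL hF _ hx⟩, h2⟩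
  obtain ⟨d, a⟩ := h.amp
  have s := Gs.ampOn_smp hY a
  have u := num_I2 R h.smp.car hx (R.isb _ s.car)
  have v := R.eff_nn s.eff (R.isb _ s.car) (R.nn_smp h.smp)
  rw [R.sub_l (R.isb _ ((Car L).smul_mem d h.smp.car)) (R.isb _ ck) c,
    R.smul_l d (R.isb _ h.smp.car) c, h0, h2] at u
  by_contra w
  nlinarith

theorem Cb.ex (h : Cb Y k N) (hF : FT L 1) : ∃ f, Fib Y k N f := by
  have R := ax.rows L hL
  have hY := h.term.smp
  obtain ⟨G, hG⟩ := h.smp.eff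
  have dG : Dsc Y G := by simpa using Gs.dsc_add hY h.des (Gs.dsc_prn hY hG.2)
  have iG := R.isb _ (Gs.dsc_car hY dG)
  have iN := R.isb _ h.smp.car
  have nN := R.nn_smp h.smp
  have v : ∀ P, 0 < G P → dg N P = 0 := fun P hP => by
    have x := R.le_I2 iG h.smp.car (fun Q => mul_nonneg (hG.1 Q) (nN.nn Q)) P
    rw [R.congr_l iN hG.2 h.smp.car, h.sq] at x
    exact le_antisymm (by nlinarith) (nN.nn P)
  obtain ⟨P, hP, gP⟩ : ∃ P, On 1 Y P ∧ 0 < G P := by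
    by_contra x
    have z := Gs.det_eq ax.neg hL hY h.term.big dG (Gs.dsc_zero hY) fun P hP =>
      le_antisymm (not_lt.1 fun y => x ⟨P, hP, y⟩) (hG.1 P)
    have w : N ∈ Prn L := by simpa [z] using hG.2
    exact h.ne ⟨.of_prn w, .of_prn (neg_mem w)⟩
  obtain ⟨C, hZ, c0, hC⟩ := (ax.ts L hL Y k h.term).2.2.1 P hP
  have c := CarZ.car hZ
  obtain ⟨n0, ⟨a, b⟩ | ⟨a, b⟩⟩ := h.vert ax hL hP (v P gP) hZ hC
  · exact ⟨C, h.fib ax hL hF hZ hC.1 n0 b a⟩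
  obtain ⟨Q, ne, hQ⟩ : ∃ Q, Q ≠ P ∧ 0 < G Q * dg C Q := by
    by_contra x
    have cp : dg C P = -1 := by rw [← I2_δ, ← I2_hull R hY hC hC.1, b]
    have z := R.le_I2 (isB_neg iG) c (fun Q => by
      by_cases e : Q = P
      · simpa [e, cp] using gP.le
      · simpa using not_lt.1 fun y => x ⟨Q, e, y⟩) P
    rw [R.neg_l iG c, R.congr_l iN hG.2 c, n0, cp] at z
    simp only [Pi.neg_apply] at z
    linarith
  have o := on_of R hY hC.1 (right_ne_zero_of_mul hQ.ne')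
  have gQ : 0 < G Q := lt_of_le_of_ne (hG.1 Q) (left_ne_zero_of_mul hQ.ne').symm
  obtain ⟨C', hZ', -, hC'⟩ := (ax.ts L hL Y k h.term).2.2.1 Q o
  have c' := CarZ.car hZ'
  obtain ⟨n1, ⟨a', b'⟩ | ⟨a', b'⟩⟩ := h.vert ax hL o (v Q gQ) hZ' hC'
  · exact ⟨C', h.fib ax hL hF hZ' hC'.1 n1 b' a'⟩
  have n2 : I2 N (C + C') = 0 := by rw [R.add_r iN c c', n0, n1, add_zero]
  have q := (ax.hi0 L hL N h.smp.car _ (add_mem c c') h.sq.ge h.ne n2).1
  obtain ⟨z, hz⟩ := R.int C hZ Q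
  have s : I2 (C + C') (C + C') = 2 * z - 2 := by
    rw [R.add_l (R.isb _ c) (R.isb _ c') (add_mem c c'), R.add_r (R.isb _ c) c c',
      R.add_r (R.isb _ c') c c', b, b', R.symm C c C' c', I2_hull R hY hC' hC.1, I2_δ, hz]
    ring
  have z0 : 0 < z := by
    have := (mul_pos_iff_of_pos_left gQ).1 hQ
    rw [hz] at this
    exact_mod_cast this
  have z1 : (1 : ℝ) ≤ z := by exact_mod_cast z0
  refine ⟨C + C', h.fib ax hL hF (add_mem hZ hZ') (Gs.dsc_add hY hC.1 hC'.1) n2 (by linarith) ?_⟩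
  rw [R.add_r (R.isb _ (Gs.dsc_car hY h.term.hull.1)) c c', a, a']
  norm_num

omit hL in
/-- **SB** -/
theorem _root_.Vale.Agent.P287D.Dp.sb : SB := fun _ _ _ _ _ _ _ _ _ _ g _ _ s =>
  Cb.ex ax g.ff ⟨g.term, s.smp, s.des, s.sq, s.ne, s.amp⟩ g.ft

end Vale.Agent.P287D.Dp.Cm
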