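import Vale.Agent.P287D.Dp.Glu
import Vale.Agent.P287D.Dp.Sa
import Vale.Agent.P287D.Dp.Lab
import Vale.Agent.P287D.Dp.Lbb
import Vale.Agent.P287D.D2.Gfu
import Vale.Agent.P287D.D2.Tf2

/-!
# P287D, block DP: the rows `DP'` and `SYM`
-/

noncomputable section

namespace Vale.Agent.P287D.Dp

theorem glu2 (ax : Ax) : GLU2 :=
  glu_of ax (fun _ _ _ _ _ _ _ _ _ _ _ _ g h e _ c => D2.pot2_iff ax h e c g)
    fun _ _ _ _ _ _ _ _ _ _ h e => D2.pot3_iff ax h e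

/-- **DP'** and **SYM** -/
theorem dp_of (ax : Ax) : DP' ∧ SYM :=
  glu2 ax (Lk.dim_of ax.fld) (D2.trf2 ax) (sa ax) (laa ax) (lab ax) (lbb ax)

end Vale.Agent.P287D.Dp
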